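import Vale.Agent.P214.BABS.Defs
import Vale.Agent.P214.ABS.Low
import Mathlib.Analysis.SpecialFunctions.Log.Deriv

/-!
# P214, block BABS: elementary facts
-/

open Set Filter Topology

namespace Vale.Agent.P214.BABS

open ABS

noncomputable section

variable {X : Chain} {β K : ℝ}

namespace Good

theorem exists_win (hX : Good X β K) {t : ℝ} (ht : 0 < t) (h0 : t ≤ X.T 0) : ∃ k, X.Win k t := by
  have h : ∃ k, X.T (k + 1) ≤ t := by
    have := (hX.T_lim.eventually (gt_mem_nhds ht)).exists_forall_of_atTop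
    obtain ⟨N, hN⟩ := this
    exact ⟨N, (hN (N + 1) (by omega)).le⟩
  classical
  refine ⟨Nat.find h, Nat.find_spec h, ?_⟩
  rcases Nat.eq_zero_or_pos (Nat.find h) with h1 | h1
  · rw [h1]; exact h0
  · obtain ⟨n, hn⟩ := Nat.exists_eq_succ_of_ne_zero h1.ne'
    have := Nat.find_min h (m := n) (by omega)
    rw [hn]
    push Not at this
    exact this.le

theorem win_pos (hX : Good X β K) {k : ℕ} {t : ℝ} (h : X.Win k t) : 0 < t :=
  lt_of_lt_of_le (hX.T_pos _) h.1

theorem win_top (hX : Good X β K) (k : ℕ) : X.Win k (X.T k) :=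
  ⟨(hX.T_anti (Nat.lt_succ_self k)).le, le_rfl⟩

theorem win_bot (hX : Good X β K) (k : ℕ) : X.Win k (X.T (k + 1)) :=
  ⟨le_rfl, (hX.T_anti (Nat.lt_succ_self k)).le⟩

theorem h_pos (hX : Good X β K) {k : ℕ} {t : ℝ} (h : X.Win k t) : 0 < X.h k t :=
  div_pos (hX.H_pos k t h) (pow_pos (hX.win_pos h) 2)

theorem le_L (hX : Good X β K) {k : ℕ} {t : ℝ} (h : X.Win k t) : 10 ≤ X.L k t := by
  have h1 := Real.log_le_log (hX.h_pos h) (hX.h_le k t h)
  rw [Real.log_exp] at h1
  rw [Chain.L, Real.log_inv]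
  linarith

theorem L_pos (hX : Good X β K) {k : ℕ} {t : ℝ} (h : X.Win k t) : 0 < X.L k t := by
  linarith [hX.le_L h]

theorem collar_le (hX : Good X β K) {k : ℕ} {t : ℝ} (h : X.Win k t) :
    ((X.L k t)⁻¹) ^ 6 ≤ 1 / 1000000 := by
  have h1 := hX.le_L h
  have h2 : (X.L k t)⁻¹ ≤ 1 / 10 := by
    rw [inv_le_comm₀ (hX.L_pos h) (by norm_num)]; norm_num; exact h1
  have h3 : 0 ≤ (X.L k t)⁻¹ := by have := hX.L_pos h; positivity
  calc ((X.L k t)⁻¹) ^ 6 ≤ (1 / 10) ^ 6 := pow_le_pow_left₀ h3 h2 6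
    _ = _ := by norm_num

theorem exp_neg_L (hX : Good X β K) {k : ℕ} {t : ℝ} (h : X.Win k t) :
    Real.exp (- X.L k t) = X.h k t := by
  rw [Chain.L, Real.log_inv, neg_neg, Real.exp_log (hX.h_pos h)]

/-- shallower windows have smaller index -/
theorem idx_le (hX : Good X β K) {i k : ℕ} {x t : ℝ} (hi : X.Win i x) (hk : X.Win k t)
    (hxt : x < t) : k ≤ i := by
  by_contra hcon
  push Not at hcon
  have : X.T k ≤ X.T (i + 1) := hX.T_anti.antitone (by omega)
  have h1 := hi.1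
  have h2 := hk.2
  linarith

theorem top_le (hX : Good X β K) {k : ℕ} {t : ℝ} (h : X.Win k t) : t ≤ X.T 0 :=
  h.2.trans (hX.T_anti.antitone (Nat.zero_le k))

theorem le_one (hX : Good X β K) {k : ℕ} {t : ℝ} (h : X.Win k t) : t ≤ 1 :=
  (hX.top_le h).trans hX.T_one

theorem bdd_self (hX : Good X β K) {t S : ℝ} {k : ℕ} (h : X.Bdd t S) (hk : X.Win k t) :
    X.h k t ≤ S := by
  refine h k t hk ?_
  have h6 : (0 : ℝ) ≤ ((X.L k t)⁻¹) ^ 6 := by positivity
  nlinarith [hX.win_pos hk]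

theorem bdd_of_le (hX : Good X β K) {t S x : ℝ} {i : ℕ} (h : X.Bdd t S) (hi : X.Win i x)
    (hx : x ≤ t) : X.h i x ≤ S := by
  refine h i x hi ?_
  have h6 : (0 : ℝ) ≤ ((X.L i x)⁻¹) ^ 6 := by positivity
  nlinarith [hX.win_pos hi]

/-- The size of the switch at `T (k+1)`. -/
theorem exists_jump (hX : Good X β K) (k : ℕ) :
    ∃ g, 0 < g ∧ X.Jump k g ∧ g ≤ X.e k ∧ ∀ t S, X.T (k + 1) ≤ t → X.Bdd t S → g ≤ S := by
  rcases hX.switch k with ⟨h1, h2⟩ | ⟨l, y, h1, h2, h3, -, -⟩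
  · exact ⟨_, hX.h_pos (hX.win_bot k), h1, h2, fun t S ht hS => hX.bdd_of_le hS (hX.win_bot k) ht⟩
  · exact ⟨_, hX.h_pos h1.1, h2, h3, fun t S ht hS => hS.near h1 ht⟩

/-- the deeper heights -/
theorem bdd_deep (hX : Good X β K) {t S x : ℝ} (hB : X.Bdd t S) (hx : 0 < x) (hxt : x ≤ t) :
    X.Bdd x (min S (2 * K * x ^ β)) := by
  intro i y hi hy
  refine le_min (hB.mono hxt le_rfl i y hi hy) ?_
  have h1 := hX.power i y hi
  have h2 := hX.collar_le hi
  have hy0 := hX.win_pos hi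
  have h3 : y ≤ 2 * x := by nlinarith
  have h4 : y ^ β ≤ 2 * x ^ β := by
    calc y ^ β ≤ (2 * x) ^ β := Real.rpow_le_rpow hy0.le h3 hX.β_pos.le
      _ = 2 ^ β * x ^ β := Real.mul_rpow (by norm_num) hx.le
      _ ≤ 2 * x ^ β := by
        refine mul_le_mul_of_nonneg_right ?_ (by positivity)
        calc (2 : ℝ) ^ β ≤ 2 ^ (1 : ℝ) :=
              Real.rpow_le_rpow_of_exponent_le (by norm_num) hX.β_le
          _ = 2 := Real.rpow_one _
  have hK : 0 < K := by linarith [hX.K_one]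
  calc X.h i y ≤ K * y ^ β := h1
    _ ≤ K * (2 * x ^ β) := mul_le_mul_of_nonneg_left h4 hK.le
    _ = 2 * K * x ^ β := by ring

theorem sig_pos (hX : Good X β K) {S x : ℝ} (hS : 0 < S) (hx : 0 < x) :
    0 < min S (2 * K * x ^ β) := by
  have hK : 0 < K := by linarith [hX.K_one]
  exact lt_min hS (by positivity)

end Good

/-- the lower bound for `log (1/σ)` at the scale `x` -/
def ell (β K t S x : ℝ) : ℝ := Real.log S⁻¹ - Real.log (2 * K) + β * (Real.log t - Real.log x)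

theorem Good.log_sig (hX : Good X β K) {t S x : ℝ} (hS : 0 < S) (hx : 0 < x) (ht : 0 < t)
    (ht1 : t ≤ 1) : ell β K t S x / 2 ≤ Real.log (min S (2 * K * x ^ β))⁻¹ := by
  have hK : 0 < K := by linarith [hX.K_one]
  have hp := hX.sig_pos hS hx
  have h1 : Real.log S⁻¹ ≤ Real.log (min S (2 * K * x ^ β))⁻¹ :=
    Real.log_le_log (by positivity) (inv_anti₀ hp (min_le_left _ _))
  have h2 : Real.log (2 * K * x ^ β)⁻¹ ≤ Real.log (min S (2 * K * x ^ β))⁻¹ :=
    Real.log_le_log (by positivity) (inv_anti₀ hp (min_le_right _ _))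
  have h3 : Real.log (2 * K * x ^ β)⁻¹ = -Real.log (2 * K) - β * Real.log x := by
    rw [Real.log_inv, Real.log_mul (by positivity) (by positivity), Real.log_rpow hx]
    ring
  have h4 : β * Real.log t ≤ 0 :=
    mul_nonpos_of_nonneg_of_nonpos hX.β_pos.le (Real.log_nonpos ht.le ht1)
  rw [h3] at h2
  unfold ell
  linarith

theorem ell_anti {t S x y : ℝ} (hβ : 0 ≤ β) (hx : 0 < x) (hxy : x ≤ y) :
    ell β K t S y ≤ ell β K t S x := by
  have := Real.log_le_log hx hxy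
  have h2 : β * (Real.log t - Real.log y) ≤ β * (Real.log t - Real.log x) :=
    mul_le_mul_of_nonneg_left (by linarith) hβ
  unfold ell
  linarith

theorem ell_self (t S : ℝ) : ell β K t S t = Real.log S⁻¹ - Real.log (2 * K) := by
  unfold ell; ring

theorem hasDerivAt_ell {t S x : ℝ} (hx : 0 < x) : HasDerivAt (ell β K t S) (-(β / x)) x := by
  have h0 : HasDerivAt Real.log x⁻¹ x := Real.hasDerivAt_log hx.ne'
  have h1 := ((h0.const_sub (Real.log t)).const_mul β).const_add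
    (Real.log S⁻¹ - Real.log (2 * K))
  refine h1.congr_deriv ?_
  ring

/-- one window: a general barrier -/
theorem window {f f' g g' : ℝ → ℝ} {x₀ x₁ : ℝ} (hx₀ : 0 < x₀)
    (hf : ∀ x, x₀ ≤ x → x ≤ x₁ → HasDerivAt f (f' x) x)
    (hg : ∀ x, x₀ ≤ x → x ≤ x₁ → HasDerivAt g (g' x) x)
    (h0 : f x₀ ≤ g x₀)
    (hb : ∀ x, x₀ ≤ x → x ≤ x₁ → f x = g x → x * f' x < x * g' x) :
    ∀ x, x₀ ≤ x → x ≤ x₁ → f x ≤ g x := by
  intro x hx hxx
  refine image_le_of_deriv_right_lt_deriv_boundary' (f := f) (f' := f') (a := x₀) (b := x₁)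
    (B := g) (B' := g')
    (fun y hy => (hf y hy.1 hy.2).continuousAt.continuousWithinAt)
    (fun y hy => (hf y hy.1 hy.2.le).hasDerivWithinAt) h0
    (fun y hy => (hg y hy.1 hy.2).continuousAt.continuousWithinAt)
    (fun y hy => (hg y hy.1 hy.2.le).hasDerivWithinAt) ?_ ⟨hx, hxx⟩
  intro y hy hyB
  have hy0 : 0 < y := hx₀.trans_le hy.1
  exact lt_of_mul_lt_mul_left (hb y hy.1 hy.2.le hyB) hy0.le

/-! ### the sizes of the switches -/

/-- potential for the sizes of the switches -/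
def psi (X : Chain) (β K : ℝ) (i : ℕ) : ℝ := 2 * X.e i ^ X.c + 4 * K ^ X.c * X.T i ^ (β * X.c)

theorem Good.psi_nonneg (hX : Good X β K) (i : ℕ) : 0 ≤ psi X β K i := by
  have h1 := hX.e_pos i
  have h2 := hX.T_pos i
  have hK : 0 < K := by linarith [hX.K_one]
  unfold psi
  positivity

theorem Good.e_one (hX : Good X β K) {i : ℕ} (h : X.e i ^ (β * β * X.c) ≤ 1 / 2) : X.e i ≤ 1 := by
  by_contra hcon
  push Not at hcon
  have h1 := hX.β_pos
  have h2 := hX.c_pos
  have := Real.one_le_rpow hcon.le (show 0 ≤ β * β * X.c by positivity)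
  linarith

theorem Good.psi_step (hX : Good X β K) {i : ℕ} (h : X.e i ^ (β * β * X.c) ≤ 1 / 2) :
    X.e i ^ X.c + psi X β K (i + 1) ≤ psi X β K i := by
  have hβ := hX.β_pos
  have hβ1 := hX.β_le
  have hc := hX.c_pos
  have hK : 0 < K := by linarith [hX.K_one]
  have he := hX.e_pos i
  have he' := hX.e_pos (i + 1)
  have hT := hX.T_pos i
  have hT' := hX.T_pos (i + 1)
  have he1 := hX.e_one h
  have hmono : X.T (i + 1) ^ (β * X.c) ≤ X.T i ^ (β * X.c) :=
    Real.rpow_le_rpow hT'.le (hX.T_anti (Nat.lt_succ_self i)).le (by positivity)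
  have hKc : 0 < K ^ X.c := by positivity
  unfold psi
  rcases hX.growth i with h1 | h1
  · have h2 : X.e (i + 1) ^ X.c ≤ X.e i ^ X.c * (1 / 2) := by
      calc X.e (i + 1) ^ X.c ≤ (X.e i ^ (1 + β)) ^ X.c := Real.rpow_le_rpow he'.le h1 hc.le
        _ = X.e i ^ X.c * X.e i ^ (β * X.c) := by
          rw [← Real.rpow_mul he.le, ← Real.rpow_add he]; ring_nf
        _ ≤ X.e i ^ X.c * (1 / 2) := by
          refine mul_le_mul_of_nonneg_left (le_trans ?_ h) (by positivity)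
          refine Real.rpow_le_rpow_of_exponent_ge he he1 ?_
          have : β * β ≤ β * 1 := mul_le_mul_of_nonneg_left hβ1 hβ.le
          have := mul_le_mul_of_nonneg_right this hc.le
          linarith
    have h3 : 4 * K ^ X.c * X.T (i + 1) ^ (β * X.c) ≤ 4 * K ^ X.c * X.T i ^ (β * X.c) :=
      mul_le_mul_of_nonneg_left hmono (by positivity)
    linarith
  · have h2 : X.T (i + 1) ^ (β * X.c) ≤ X.T i ^ (β * X.c) * (1 / 2) := by
      calc X.T (i + 1) ^ (β * X.c) ≤ (X.T i * X.e i ^ β) ^ (β * X.c) :=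
            Real.rpow_le_rpow hT'.le h1 (by positivity)
        _ = X.T i ^ (β * X.c) * X.e i ^ (β * β * X.c) := by
          rw [Real.mul_rpow hT.le (by positivity), ← Real.rpow_mul he.le]; ring_nf
        _ ≤ X.T i ^ (β * X.c) * (1 / 2) := mul_le_mul_of_nonneg_left h (by positivity)
    have h3 : X.e (i + 1) ^ X.c ≤ K ^ X.c * X.T (i + 1) ^ (β * X.c) := by
      calc X.e (i + 1) ^ X.c ≤ (K * X.T (i + 1) ^ β) ^ X.c :=
            Real.rpow_le_rpow he'.le (hX.e_pow _) hc.le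
        _ = _ := by rw [Real.mul_rpow hK.le (by positivity), ← Real.rpow_mul hT'.le]
    have h4 : K ^ X.c * X.T (i + 1) ^ (β * X.c) ≤ K ^ X.c * (X.T i ^ (β * X.c) * (1 / 2)) :=
      mul_le_mul_of_nonneg_left h2 hKc.le
    have h5 : 0 < K ^ X.c * X.T i ^ (β * X.c) := by positivity
    have h6 : 0 < X.e i ^ X.c := by positivity
    linarith

/-- smallness of `e i` from smallness of the scale -/
theorem Good.e_small (hX : Good X β K) {i : ℕ} {t : ℝ} (hi : X.T i ≤ t)
    (ht : (K * t ^ β) ^ (β * β * X.c) ≤ 1 / 2) : X.e i ^ (β * β * X.c) ≤ 1 / 2 := by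
  have hβ := hX.β_pos
  have hc := hX.c_pos
  have hK : 0 < K := by linarith [hX.K_one]
  refine le_trans ?_ ht
  refine Real.rpow_le_rpow (hX.e_pos i).le ?_ (by positivity)
  refine (hX.e_pow i).trans ?_
  exact mul_le_mul_of_nonneg_left (Real.rpow_le_rpow (hX.T_pos i).le hi hβ.le) hK.le

/-- the sum of the sizes of the switches below `t` -/
theorem Good.jumps (hX : Good X β K) {k : ℕ} {t S : ℝ} (hkt : X.Win k t) (hS : 0 < S)
    (hB : X.Bdd t S) (ht : (K * t ^ β) ^ (β * β * X.c) ≤ 1 / 2) :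
    ∃ J : ℕ → ℝ, (∀ i, 0 ≤ J i) ∧
      (∀ i, k ≤ i → J i ≤ 2 * S * psi X β K (k + 1) + 2 * S ^ (1 + X.c)) ∧
      ∀ i, k ≤ i → ∃ g, 0 < g ∧ X.Jump i g ∧ J (i + 1) + 2 * g ^ (1 + X.c) ≤ J i := by
  have hc := hX.c_pos
  have hβ := hX.β_pos
  have hTk : X.T (k + 1) ≤ t := hkt.1
  have hTi : ∀ i, k < i → X.T i ≤ t := fun i hi => (hX.T_anti.antitone hi).trans hTk
  have hSp : 0 < S ^ (1 + X.c) := by positivity
  have hanti : ∀ n, psi X β K (k + 1 + n) ≤ psi X β K (k + 1) := by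
    intro n
    induction n with
    | zero => exact le_rfl
    | succ n ih =>
      have h1 := hX.psi_step (i := k + 1 + n) (hX.e_small (hTi _ (by omega)) ht)
      have h2 : 0 < X.e (k + 1 + n) ^ X.c := Real.rpow_pos_of_pos (hX.e_pos _) _
      have h3 : k + 1 + (n + 1) = k + 1 + n + 1 := by ring
      rw [h3]
      linarith
  refine ⟨fun i => if i ≤ k then 2 * S * psi X β K (k + 1) + 2 * S ^ (1 + X.c)
    else 2 * S * psi X β K i, ?_, ?_, ?_⟩
  · intro i
    dsimp only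
    have h1 := hX.psi_nonneg i
    have h2 := hX.psi_nonneg (k + 1)
    split_ifs
    · positivity
    · positivity
  · intro i hi
    dsimp only
    split_ifs with h
    · exact le_rfl
    · obtain ⟨n, rfl⟩ := Nat.exists_eq_add_of_le (show k + 1 ≤ i by omega)
      have := mul_le_mul_of_nonneg_left (hanti n) (show 0 ≤ 2 * S by positivity)
      linarith
  · intro i hi
    obtain ⟨g, hg0, hg1, hg2, hg3⟩ := hX.exists_jump i
    refine ⟨g, hg0, hg1, ?_⟩
    dsimp only
    have hgS : g ≤ S := hg3 t S ((hX.T_anti.antitone (by omega)).trans hTk) hB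
    rcases hi.eq_or_lt with h | h
    · subst h
      rw [if_neg (by omega), if_pos le_rfl]
      have h1 := Real.rpow_le_rpow hg0.le hgS (show 0 ≤ 1 + X.c by linarith)
      linarith
    · rw [if_neg (by omega), if_neg (by omega)]
      have h1 := hX.psi_step (i := i) (hX.e_small (hTi i h) ht)
      have h2 : g ^ (1 + X.c) ≤ S * X.e i ^ X.c := by
        rw [Real.rpow_add hg0, Real.rpow_one]
        exact mul_le_mul hgS (Real.rpow_le_rpow hg0.le hg2 hc.le) (by positivity) hS.le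
      have h3 := mul_le_mul_of_nonneg_left h1 (show 0 ≤ 2 * S by positivity)
      linarith

end

end Vale.Agent.P214.BABS
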