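import Vale.Agent.P214.BABS.Flow
import Mathlib.Analysis.SpecialFunctions.Exp
import Mathlib.Analysis.Complex.ExponentialBounds
import Mathlib.Tactic

/-!
# P214, block BABS: the bootstrap with the error `exp (-γ s) + L⁻²` (copy of `ABS/Boot`)
-/

open Set Filter Topology

namespace Vale.Agent.P214.BABS

open ABS

noncomputable section

/-- a good starting point -/
structure Start (F : Flow) (C γ : ℝ) (k₁ : ℕ) (s₁ : ℝ) : Prop where
  C_nn : 0 ≤ C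
  γ_pos : 0 < γ
  γ_le : γ ≤ 1
  p_mono : StrictMono F.p
  derL : ∀ k s, F.Win k s → HasDerivAt (F.L k) (F.L' k s) s
  derM : ∀ k s, F.Win k s → HasDerivAt (F.M k) (F.M' k s) s
  L_ge : ∀ k s, F.Win k s → 9 ≤ F.L k s
  switch : ∀ k, s₁ ≤ F.p (k + 1) → (F.L (k + 1) (F.p (k + 1)) = F.L k (F.p (k + 1)) ∧
      F.M (k + 1) (F.p (k + 1)) = F.M k (F.p (k + 1))) ∨
    ∃ l x, F.Win l x ∧ x ≤ F.p (k + 1) ∧ F.p (k + 1) - x ≤ 2 * ((F.L l x)⁻¹) ^ 6 ∧
      F.L l x + 9 ≤ F.L k (F.p (k + 1)) ∧ F.L l x + 9 ≤ F.L (k + 1) (F.p (k + 1))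
  win : F.Win k₁ s₁
  deepS : ∀ i x, F.Win i x → s₁ ≤ x →
    F.L k₁ s₁ - C ≤ F.L i x ∧ F.L k₁ s₁ / 2 + γ * (x - s₁) - C ≤ F.L i x
  ric : ∀ i x, F.Win i x → x ≤ s₁ → s₁ - x ≤ 2 * ((F.L i x)⁻¹) ^ 6 → F.L k₁ s₁ ≤ F.L i x + 1
  Mb : F.M k₁ s₁ ≤ (F.L k₁ s₁) ^ 2
  Mn : 0 ≤ F.M k₁ s₁
  factS : ∀ k s, F.Win k s → s₁ ≤ s → F.Up k s →
    ∃ N, Pt (C * (Real.exp (-(γ * s)) + ((F.L k s)⁻¹) ^ 2)) (F.L' k s) (F.M' k s) (F.M k s) N
  big : 200 + 4 * C ≤ F.L k₁ s₁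
  small : C * (Real.exp (-(γ * s₁)) / γ + (F.L k₁ s₁ / 2 - C)⁻¹ / γ) ≤ 1 / 2

variable {F : Flow} {C γ : ℝ} {k₁ : ℕ} {s₁ : ℝ}

namespace Start

/-- integrated error -/
def Phi (F : Flow) (C γ : ℝ) (k₁ : ℕ) (s₁ s : ℝ) : ℝ :=
  C * ((Real.exp (-(γ * s₁)) - Real.exp (-(γ * s))) / γ +
    ((F.L k₁ s₁ / 2 - C)⁻¹ - (F.L k₁ s₁ / 2 - C + γ * (s - s₁))⁻¹) / γ)

/-- `2 (M₁ + 3)` -/
def Ms (F : Flow) (k₁ : ℕ) (s₁ : ℝ) : ℝ := 2 * (F.M k₁ s₁ + 3)

/-- the Lyapunov function for `L` -/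
def Psi (F : Flow) (k₁ : ℕ) (s₁ : ℝ) (k : ℕ) (s : ℝ) : ℝ :=
  F.L k s + (Ms F k₁ s₁)⁻¹ * F.M k s - 6 * Ms F k₁ s₁ * s

/-- the Lyapunov function for `M` -/
def The (F : Flow) (C γ : ℝ) (k₁ : ℕ) (s₁ : ℝ) (k : ℕ) (s : ℝ) : ℝ :=
  (F.M k s + 3) * Real.exp (- Phi F C γ k₁ s₁ s)

/-- the bounds hold at all points between `(k₁, s₁)` and `(k, s)` -/
def Past (F : Flow) (C γ : ℝ) (k₁ : ℕ) (s₁ : ℝ) (k : ℕ) (s : ℝ) : Prop :=
  ∀ i x, k₁ ≤ i → i ≤ k → F.Win i x → s₁ ≤ x → x ≤ s →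
    Psi F k₁ s₁ k s ≤ Psi F k₁ s₁ i x ∧ The F C γ k₁ s₁ i x ≤ F.M k₁ s₁ + 3 ∧ 0 ≤ F.M i x

theorem lam_pos (h : Start F C γ k₁ s₁) : 100 ≤ F.L k₁ s₁ / 2 - C := by
  have := h.big; have := h.C_nn; linarith

theorem gs (h : Start F C γ k₁ s₁) {s : ℝ} (hs : s₁ ≤ s) : 0 ≤ γ * (s - s₁) :=
  mul_nonneg h.γ_pos.le (by linarith)

theorem exp_anti (h : Start F C γ k₁ s₁) {s : ℝ} (hs : s₁ ≤ s) :
    Real.exp (-(γ * s)) ≤ Real.exp (-(γ * s₁)) :=
  Real.exp_le_exp.2 (neg_le_neg (mul_le_mul_of_nonneg_left hs h.γ_pos.le))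

theorem Phi_nn (h : Start F C γ k₁ s₁) {s : ℝ} (hs : s₁ ≤ s) : 0 ≤ Phi F C γ k₁ s₁ s := by
  have h1 := h.lam_pos
  have h2 := h.exp_anti hs
  have hg := h.gs hs
  have h3 : (F.L k₁ s₁ / 2 - C + γ * (s - s₁))⁻¹ ≤ (F.L k₁ s₁ / 2 - C)⁻¹ :=
    inv_anti₀ (by linarith) (by linarith)
  have h4 : 0 ≤ (Real.exp (-(γ * s₁)) - Real.exp (-(γ * s))) / γ :=
    div_nonneg (by linarith) h.γ_pos.le
  have h5 : 0 ≤ ((F.L k₁ s₁ / 2 - C)⁻¹ - (F.L k₁ s₁ / 2 - C + γ * (s - s₁))⁻¹) / γ :=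
    div_nonneg (by linarith) h.γ_pos.le
  exact mul_nonneg h.C_nn (by linarith)

theorem Phi_le (h : Start F C γ k₁ s₁) {s : ℝ} (hs : s₁ ≤ s) : Phi F C γ k₁ s₁ s ≤ 1 / 2 := by
  have h1 := h.lam_pos
  have hg := h.gs hs
  have h2 : 0 < Real.exp (-(γ * s)) := Real.exp_pos _
  have h3 : 0 < (F.L k₁ s₁ / 2 - C + γ * (s - s₁))⁻¹ := inv_pos.2 (by linarith)
  refine le_trans (mul_le_mul_of_nonneg_left ?_ h.C_nn) h.small
  have h4 : (Real.exp (-(γ * s₁)) - Real.exp (-(γ * s))) / γ ≤ Real.exp (-(γ * s₁)) / γ :=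
    div_le_div_of_nonneg_right (by linarith) h.γ_pos.le
  have h5 : ((F.L k₁ s₁ / 2 - C)⁻¹ - (F.L k₁ s₁ / 2 - C + γ * (s - s₁))⁻¹) / γ ≤
      (F.L k₁ s₁ / 2 - C)⁻¹ / γ :=
    div_le_div_of_nonneg_right (by linarith) h.γ_pos.le
  linarith

theorem Phi_start : Phi F C γ k₁ s₁ s₁ = 0 := by simp [Phi]

theorem hasDerivAt_Phi (h : Start F C γ k₁ s₁) {s : ℝ} (hs : s₁ ≤ s) :
    HasDerivAt (Phi F C γ k₁ s₁)
      (C * (Real.exp (-(γ * s)) + ((F.L k₁ s₁ / 2 - C + γ * (s - s₁))⁻¹) ^ 2)) s := by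
  have h1 := h.lam_pos
  have hγ := h.γ_pos
  have hg := h.gs hs
  have hne : F.L k₁ s₁ / 2 - C + γ * (s - s₁) ≠ 0 := by
    have : 0 < F.L k₁ s₁ / 2 - C + γ * (s - s₁) := by linarith
    exact this.ne'
  have e1 : HasDerivAt (fun s : ℝ => Real.exp (-(γ * s))) (Real.exp (-(γ * s)) * (-(γ * 1))) s :=
    (((hasDerivAt_id s).const_mul γ).neg).exp
  have e2 : HasDerivAt (fun s : ℝ => (F.L k₁ s₁ / 2 - C + γ * (s - s₁))⁻¹)
      (-γ / (F.L k₁ s₁ / 2 - C + γ * (s - s₁)) ^ 2) s := by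
    have e3 : HasDerivAt (fun s : ℝ => F.L k₁ s₁ / 2 - C + γ * (s - s₁)) γ s := by
      simpa using (((hasDerivAt_id s).sub_const s₁).const_mul γ).const_add (F.L k₁ s₁ / 2 - C)
    simpa using e3.fun_inv hne
  have e4 := ((((hasDerivAt_const s (Real.exp (-(γ * s₁)))).sub e1).div_const γ).add
    (((hasDerivAt_const s ((F.L k₁ s₁ / 2 - C)⁻¹)).sub e2).div_const γ)).const_mul C
  refine e4.congr_deriv ?_
  rw [inv_pow]
  field_simp
  ring

theorem Ms_ge (h : Start F C γ k₁ s₁) : 6 ≤ Ms F k₁ s₁ := by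
  have := h.Mn; unfold Ms; linarith

theorem M_le (h : Start F C γ k₁ s₁) {i : ℕ} {x : ℝ} (hx : s₁ ≤ x)
    (hT : The F C γ k₁ s₁ i x ≤ F.M k₁ s₁ + 3) : F.M i x + 3 ≤ Ms F k₁ s₁ := by
  have h1 := h.Phi_le hx
  have h2 : Real.exp (Phi F C γ k₁ s₁ x) ≤ 2 := by
    have h3 : Real.exp (1 / 2) ≤ 2 := by
      have h4 : Real.exp (1 / 2) ^ 2 = Real.exp 1 := by
        rw [← Real.exp_nat_mul]; norm_num
      have h5 := Real.exp_one_lt_d9
      nlinarith [Real.exp_pos (1 / 2 : ℝ)]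
    exact (Real.exp_le_exp.2 h1).trans h3
  have h3 : F.M i x + 3 = The F C γ k₁ s₁ i x * Real.exp (Phi F C γ k₁ s₁ x) := by
    rw [The, mul_assoc, ← Real.exp_add]; simp
  rw [h3, Ms]
  have h4 : 0 ≤ F.M k₁ s₁ + 3 := by have := h.Mn; linarith
  have h5 := Real.exp_pos (Phi F C γ k₁ s₁ x)
  nlinarith

/-- growth bound from `Past` -/
theorem grow (h : Start F C γ k₁ s₁) {k i : ℕ} {s x : ℝ} (hP : Past F C γ k₁ s₁ k s)
    (hk : k₁ ≤ k) (hs : F.Win k s) (hki : k₁ ≤ i) (hik : i ≤ k) (hi : F.Win i x)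
    (hx : s₁ ≤ x) (hxs : x ≤ s) : F.L k s ≤ F.L i x + 1 + 6 * Ms F k₁ s₁ * (s - x) := by
  obtain ⟨h1, h2, -⟩ := hP i x hki hik hi hx hxs
  obtain ⟨-, -, h3⟩ := hP k s hk le_rfl hs (hx.trans hxs) le_rfl
  have h4 := h.M_le hx h2
  have h5 := h.Ms_ge
  have h6 : (Ms F k₁ s₁)⁻¹ * F.M i x ≤ 1 := by
    rw [inv_mul_le_iff₀ (by linarith)]; linarith
  have h7 : 0 ≤ (Ms F k₁ s₁)⁻¹ * F.M k s := by positivity
  unfold Psi at h1
  nlinarith

/-- the collar term is small -/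
theorem collar (h : Start F C γ k₁ s₁) {ℓ : ℝ} (hℓ : F.L k₁ s₁ ≤ ℓ + C + 1) :
    6 * Ms F k₁ s₁ * (2 * (ℓ⁻¹) ^ 6) ≤ 1 / 2 := by
  have h1 := h.big
  have hC := h.C_nn
  have h2 : 99 + C ≤ ℓ := by linarith
  have hℓ0 : 0 < ℓ := by linarith
  have h3 : Ms F k₁ s₁ ≤ 2 * ((2 * ℓ) ^ 2 + 3) := by
    unfold Ms
    have h4 := h.Mb
    have h5 : (F.L k₁ s₁) ^ 2 ≤ (2 * ℓ) ^ 2 := by
      refine pow_le_pow_left₀ (by linarith) (by linarith) 2
    linarith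
  have h6 : 6 * Ms F k₁ s₁ * (2 * (ℓ⁻¹) ^ 6) = 12 * Ms F k₁ s₁ / ℓ ^ 6 := by
    rw [inv_pow]; field_simp; ring
  rw [h6, div_le_iff₀ (by positivity)]
  have h7 : (99 : ℝ) ^ 2 ≤ ℓ ^ 2 := pow_le_pow_left₀ (by norm_num) (by linarith) 2
  have h8 : (99 : ℝ) ^ 2 * (99 : ℝ) ^ 2 ≤ ℓ ^ 2 * ℓ ^ 2 :=
    mul_le_mul h7 h7 (by norm_num) (by positivity)
  have h9 : ℓ ^ 2 * ((99 : ℝ) ^ 2 * (99 : ℝ) ^ 2) ≤ ℓ ^ 2 * (ℓ ^ 2 * ℓ ^ 2) :=
    mul_le_mul_of_nonneg_left h8 (by positivity)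
  have h10 : ℓ ^ 2 * (ℓ ^ 2 * ℓ ^ 2) = ℓ ^ 6 := by ring
  rw [h10] at h9
  nlinarith

/-- the growth in the adaptive collar is at most `7/2`, for points of smaller or equal index -/
theorem up_of_past (h : Start F C γ k₁ s₁) {k l : ℕ} {s x : ℝ} (hP : Past F C γ k₁ s₁ k s)
    (hk : k₁ ≤ k) (hs : F.Win k s) (hss : s₁ ≤ s) (hlk : l ≤ k) (hl : F.Win l x) (hxs : x ≤ s)
    (hc : s - x ≤ 2 * ((F.L l x)⁻¹) ^ 6) : F.L k s ≤ F.L l x + 7 / 2 := by
  have hMs := h.Ms_ge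
  by_cases hcase : s₁ ≤ x ∧ k₁ ≤ l
  · obtain ⟨hx, hkl⟩ := hcase
    have h1 := h.grow hP hk hs hkl hlk hl hx hxs
    have h2 := (h.deepS l x hl hx).1
    have h3 := h.collar (ℓ := F.L l x) (by linarith)
    have h4 : 6 * Ms F k₁ s₁ * (s - x) ≤ 6 * Ms F k₁ s₁ * (2 * ((F.L l x)⁻¹) ^ 6) :=
      mul_le_mul_of_nonneg_left hc (by linarith)
    linarith
  · -- `x ≤ s₁`
    have hx : x ≤ s₁ := by
      by_contra hcon
      push Not at hcon
      have hlk₁ : l < k₁ := by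
        by_contra h'
        push Not at h'
        exact hcase ⟨hcon.le, h'⟩
      have h1 : F.p (l + 1) ≤ F.p k₁ := h.p_mono.monotone (by omega)
      have h2 := hl.2
      have h3 := h.win.1
      linarith
    have h1 : F.L k₁ s₁ ≤ F.L l x + 1 := h.ric l x hl hx (by linarith)
    have h2 := h.grow hP hk hs le_rfl hk h.win le_rfl hss
    have hC := h.C_nn
    have h3 := h.collar (ℓ := F.L l x) (by linarith)
    have h4 : 6 * Ms F k₁ s₁ * (s - s₁) ≤ 6 * Ms F k₁ s₁ * (2 * ((F.L l x)⁻¹) ^ 6) :=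
      mul_le_mul_of_nonneg_left (by linarith) (by linarith)
    linarith

/-- derivative inequalities at a point where `Up` holds and `M` is bounded -/
theorem deriv_bounds (h : Start F C γ k₁ s₁) {k : ℕ} {s : ℝ} (hk : F.Win k s) (hs : s₁ ≤ s)
    (hU : F.Up k s) (hM : F.M k s + 3 ≤ Ms F k₁ s₁) :
    F.L' k s + (Ms F k₁ s₁)⁻¹ * F.M' k s ≤ 6 * Ms F k₁ s₁ ∧
    F.M' k s ≤ C * (Real.exp (-(γ * s)) + ((F.L k₁ s₁ / 2 - C + γ * (s - s₁))⁻¹) ^ 2) * (F.M k s + 3) ∧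
    1 / 2 ≤ F.M k s := by
  obtain ⟨N, hN⟩ := h.factS k s hk hs hU
  have hlo := hN.Mlo
  have hMs := h.Ms_ge
  have hlam := h.lam_pos
  have hC := h.C_nn
  have hg := h.gs hs
  have hdeep := (h.deepS k s hk hs).2
  set E := C * (Real.exp (-(γ * s)) + ((F.L k₁ s₁ / 2 - C + γ * (s - s₁))⁻¹) ^ 2) with hE
  set E' := C * (Real.exp (-(γ * s)) + ((F.L k s)⁻¹) ^ 2) with hE'
  have hinv : (F.L k s)⁻¹ ≤ (F.L k₁ s₁ / 2 - C + γ * (s - s₁))⁻¹ :=
    inv_anti₀ (by linarith) (by linarith)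
  have hLpos : 0 < F.L k s := by linarith
  have hEE : E' ≤ E := by
    refine mul_le_mul_of_nonneg_left ?_ hC
    have := pow_le_pow_left₀ (by positivity) hinv 2
    linarith
  have hE'0 : 0 ≤ E' := by positivity
  have hE1 : E ≤ 1 := by
    have h1 : Real.exp (-(γ * s)) ≤ Real.exp (-(γ * s₁)) / γ := by
      refine (h.exp_anti hs).trans ?_
      rw [le_div_iff₀ h.γ_pos]
      have h0 := Real.exp_pos (-(γ * s₁))
      have h00 := h.γ_le
      nlinarith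
    have h2 : ((F.L k₁ s₁ / 2 - C + γ * (s - s₁))⁻¹) ^ 2 ≤ (F.L k₁ s₁ / 2 - C)⁻¹ / γ := by
      have h3 : (F.L k₁ s₁ / 2 - C + γ * (s - s₁))⁻¹ ≤ (F.L k₁ s₁ / 2 - C)⁻¹ :=
        inv_anti₀ (by linarith) (by linarith)
      have h4 : (F.L k₁ s₁ / 2 - C)⁻¹ ≤ 1 := inv_le_one_of_one_le₀ (by linarith)
      have h5 : 0 ≤ (F.L k₁ s₁ / 2 - C + γ * (s - s₁))⁻¹ := inv_nonneg.2 (by linarith)
      have h6 : (F.L k₁ s₁ / 2 - C)⁻¹ ≤ (F.L k₁ s₁ / 2 - C)⁻¹ / γ := by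
        rw [le_div_iff₀ h.γ_pos]
        have h0 : 0 ≤ (F.L k₁ s₁ / 2 - C)⁻¹ := inv_nonneg.2 (by linarith)
        have h00 := h.γ_le
        nlinarith
      refine le_trans ?_ h6
      nlinarith
    calc E ≤ C * (Real.exp (-(γ * s₁)) / γ + (F.L k₁ s₁ / 2 - C)⁻¹ / γ) :=
          mul_le_mul_of_nonneg_left (by linarith) hC
      _ ≤ 1 / 2 := h.small
      _ ≤ 1 := by norm_num
  have hM3 : 0 ≤ F.M k s + 3 := by linarith
  set θ := (Ms F k₁ s₁)⁻¹ with hθ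
  have hθ0 : 0 < θ := inv_pos.2 (by linarith)
  have hθM : θ * Ms F k₁ s₁ = 1 := inv_mul_cancel₀ (by linarith)
  rcases le_total (2 * F.M k s + 5) N with hcase | hcase
  · have hq := hN.big hcase
    refine ⟨?_, ?_, hlo⟩
    · have hup := hN.up
      have h1 : θ * F.M' k s ≤ θ * (-(3 / 16) * N ^ 2) := mul_le_mul_of_nonneg_left hq hθ0.le
      -- 2N - (3θ/16)N² ≤ 16/(3θ) = (16/3) Ms
      have h2 : 2 * N + θ * (-(3 / 16) * N ^ 2) ≤ 6 * Ms F k₁ s₁ := by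
        have h3 : 0 ≤ θ * (N - 16 / 3 * Ms F k₁ s₁) ^ 2 := by positivity
        have h4 : θ * (N - 16 / 3 * Ms F k₁ s₁) ^ 2 = θ * N ^ 2
            - 32 / 3 * (θ * Ms F k₁ s₁) * N + 256 / 9 * (θ * Ms F k₁ s₁) * Ms F k₁ s₁ := by ring
        rw [h4, hθM] at h3
        nlinarith
      linarith
    · have h1 : (0 : ℝ) ≤ N ^ 2 := sq_nonneg N
      have h2 : 0 ≤ E * (F.M k s + 3) := mul_nonneg (hE'0.trans hEE) hM3
      linarith
  · have hq := hN.sml hcase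
    have hq2 : F.M' k s ≤ E * (F.M k s + 3) := hq.trans (mul_le_mul_of_nonneg_right hEE hM3)
    refine ⟨?_, hq2, hlo⟩
    have hup := hN.up
    have h1 : θ * F.M' k s ≤ θ * (E * (F.M k s + 3)) := mul_le_mul_of_nonneg_left hq2 hθ0.le
    have h2 : θ * (E * (F.M k s + 3)) ≤ θ * (1 * Ms F k₁ s₁) := by
      refine mul_le_mul_of_nonneg_left ?_ hθ0.le
      exact mul_le_mul hE1 hM hM3 (by norm_num)
    have h3 : θ * (1 * Ms F k₁ s₁) = 1 := by rw [one_mul, hθM]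
    linarith

/-- the Lyapunov functions are antitone as long as `Up` holds -/
theorem anti (h : Start F C γ k₁ s₁) {k : ℕ} {σ τ : ℝ} (hσ : F.Win k σ) (hτ : F.Win k τ)
    (hs : s₁ ≤ σ) (hστ : σ ≤ τ) (hU : ∀ s, σ ≤ s → s < τ → F.Up k s)
    (hT : The F C γ k₁ s₁ k σ ≤ F.M k₁ s₁ + 3) :
    AntitoneOn (Psi F k₁ s₁ k) (Icc σ τ) ∧ AntitoneOn (The F C γ k₁ s₁ k) (Icc σ τ) ∧
      ∀ s ∈ Icc σ τ, σ < τ → 0 ≤ F.M k s := by
  have hwin : ∀ s ∈ Icc σ τ, F.Win k s := fun s hs => ⟨hσ.1.trans hs.1, hs.2.trans hτ.2⟩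
  have hcL : ContinuousOn (F.L k) (Icc σ τ) := fun s hs =>
    (h.derL k s (hwin s hs)).continuousAt.continuousWithinAt
  have hcM : ContinuousOn (F.M k) (Icc σ τ) := fun s hs =>
    (h.derM k s (hwin s hs)).continuousAt.continuousWithinAt
  have hcPhi : ContinuousOn (Phi F C γ k₁ s₁) (Icc σ τ) := fun s hs' =>
    (h.hasDerivAt_Phi (hs.trans hs'.1)).continuousAt.continuousWithinAt
  have hcThe : ContinuousOn (The F C γ k₁ s₁ k) (Icc σ τ) :=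
    (hcM.add continuousOn_const).mul (hcPhi.neg.rexp)
  have hcPsi : ContinuousOn (Psi F k₁ s₁ k) (Icc σ τ) :=
    (hcL.add (continuousOn_const.mul hcM)).sub (continuousOn_const.mul continuousOn_id)
  have hdThe : ∀ s ∈ Icc σ τ, HasDerivAt (The F C γ k₁ s₁ k)
      ((F.M' k s - C * (Real.exp (-(γ * s)) + ((F.L k₁ s₁ / 2 - C + γ * (s - s₁))⁻¹) ^ 2) * (F.M k s + 3))
        * Real.exp (- Phi F C γ k₁ s₁ s)) s := by
    intro s hs'
    have e1 := (h.derM k s (hwin s hs')).add_const 3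
    have e2 := (h.hasDerivAt_Phi (hs.trans hs'.1)).neg.exp
    refine (e1.mul e2).congr_deriv ?_
    simp only [Pi.neg_apply]
    ring
  have hdPsi : ∀ s ∈ Icc σ τ, HasDerivAt (Psi F k₁ s₁ k)
      (F.L' k s + (Ms F k₁ s₁)⁻¹ * F.M' k s - 6 * Ms F k₁ s₁) s := by
    intro s hs'
    have e1 := (h.derL k s (hwin s hs')).add ((h.derM k s (hwin s hs')).const_mul (Ms F k₁ s₁)⁻¹)
    have e2 := (hasDerivAt_id s).const_mul (6 * Ms F k₁ s₁)
    refine (e1.sub e2).congr_deriv ?_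
    simp
  -- `M + 3 > 0`, the sign of the derivative of `The`
  have hThe : ∀ s ∈ Icc σ τ, s < τ → F.M' k s - C * (Real.exp (-(γ * s))
      + ((F.L k₁ s₁ / 2 - C + γ * (s - s₁))⁻¹) ^ 2) * (F.M k s + 3) ≤ 0 := by
    intro s hs' hsτ
    obtain ⟨N, hN⟩ := h.factS k s (hwin s hs') (hs.trans hs'.1) (hU s hs'.1 hsτ)
    -- does not need the bound of `M`
    have hlo := hN.Mlo
    have hlam := h.lam_pos
    have hC := h.C_nn
    have hdeep := (h.deepS k s (hwin s hs') (hs.trans hs'.1)).2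
    have hs1 : s₁ ≤ s := hs.trans hs'.1
    have hg := h.gs hs1
    have hinv : (F.L k s)⁻¹ ≤ (F.L k₁ s₁ / 2 - C + γ * (s - s₁))⁻¹ :=
      inv_anti₀ (by linarith) (by linarith)
    have hLpos : 0 < F.L k s := by linarith
    have hEE : C * (Real.exp (-(γ * s)) + ((F.L k s)⁻¹) ^ 2)
        ≤ C * (Real.exp (-(γ * s)) + ((F.L k₁ s₁ / 2 - C + γ * (s - s₁))⁻¹) ^ 2) := by
      refine mul_le_mul_of_nonneg_left ?_ hC
      have := pow_le_pow_left₀ (by positivity) hinv 2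
      linarith
    have hM3 : 0 ≤ F.M k s + 3 := by linarith
    rcases le_total (2 * F.M k s + 5) N with hcase | hcase
    · have hq := hN.big hcase
      have h1 : (0 : ℝ) ≤ N ^ 2 := sq_nonneg N
      have h2 : 0 ≤ C * (Real.exp (-(γ * s)) + ((F.L k₁ s₁ / 2 - C + γ * (s - s₁))⁻¹) ^ 2) * (F.M k s + 3) := by
        positivity
      linarith
    · have hq := hN.sml hcase
      have := mul_le_mul_of_nonneg_right hEE hM3
      linarith
  have hanti : AntitoneOn (The F C γ k₁ s₁ k) (Icc σ τ) := by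
    refine antitoneOn_of_hasDerivWithinAt_nonpos (convex_Icc σ τ) hcThe
      (f' := fun s => (F.M' k s - C * (Real.exp (-(γ * s)) + ((F.L k₁ s₁ / 2 - C + γ * (s - s₁))⁻¹) ^ 2)
        * (F.M k s + 3)) * Real.exp (- Phi F C γ k₁ s₁ s)) ?_ ?_
    · intro s hs'
      rw [interior_Icc] at hs'
      exact (hdThe s ⟨hs'.1.le, hs'.2.le⟩).hasDerivWithinAt
    · intro s hs'
      rw [interior_Icc] at hs'
      exact mul_nonpos_of_nonpos_of_nonneg (hThe s ⟨hs'.1.le, hs'.2.le⟩ hs'.2) (Real.exp_pos _).le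
  have hMle : ∀ s ∈ Icc σ τ, F.M k s + 3 ≤ Ms F k₁ s₁ := fun s hs' =>
    h.M_le (hs.trans hs'.1) ((hanti (left_mem_Icc.2 hστ) hs' hs'.1).trans hT)
  refine ⟨?_, hanti, ?_⟩
  · refine antitoneOn_of_hasDerivWithinAt_nonpos (convex_Icc σ τ) hcPsi
      (f' := fun s => F.L' k s + (Ms F k₁ s₁)⁻¹ * F.M' k s - 6 * Ms F k₁ s₁) ?_ ?_
    · intro s hs'
      rw [interior_Icc] at hs'
      exact (hdPsi s ⟨hs'.1.le, hs'.2.le⟩).hasDerivWithinAt
    · intro s hs'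
      rw [interior_Icc] at hs'
      have hI : s ∈ Icc σ τ := ⟨hs'.1.le, hs'.2.le⟩
      have := (h.deriv_bounds (hwin s hI) (hs.trans hs'.1.le) (hU s hs'.1.le hs'.2)
        (hMle s hI)).1
      show F.L' k s + (Ms F k₁ s₁)⁻¹ * F.M' k s - 6 * Ms F k₁ s₁ ≤ 0
      linarith
  · intro s hs' hlt
    -- on `[σ, τ)` we have `1/2 ≤ M`; at `τ` by continuity
    have hlt' : ∀ y ∈ Ico σ τ, (0 : ℝ) ≤ F.M k y := by
      intro y hy
      have := (h.deriv_bounds (hwin y ⟨hy.1, hy.2.le⟩) (hs.trans hy.1) (hU y hy.1 hy.2)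
        (hMle y ⟨hy.1, hy.2.le⟩)).2.2
      linarith
    have hcl : closure (Ico σ τ) = Icc σ τ := closure_Ico hlt.ne
    have hmem : s ∈ closure (Ico σ τ) := by rw [hcl]; exact hs'
    have hc : ContinuousOn (F.M k) (closure (Ico σ τ)) := by rw [hcl]; exact hcM
    exact le_on_closure (f := fun _ => (0 : ℝ)) (g := F.M k) hlt' continuousOn_const hc hmem

/-- **window lemma**: the bounds propagate inside a window -/
theorem window (h : Start F C γ k₁ s₁) {k : ℕ} {σ : ℝ} (hk : k₁ ≤ k) (hσ : F.Win k σ)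
    (hs : s₁ ≤ σ) (hσp : σ < F.p (k + 1)) (hP : Past F C γ k₁ s₁ k σ) :
    ∀ s, σ ≤ s → s ≤ F.p (k + 1) → Past F C γ k₁ s₁ k s := by
  have hwin : ∀ s, σ ≤ s → s ≤ F.p (k + 1) → F.Win k s := fun s h1 h2 => ⟨hσ.1.trans h1, h2⟩
  -- `Up` up to `τ` gives `Past` at `τ`
  have hext : ∀ τ, σ ≤ τ → τ ≤ F.p (k + 1) → (∀ s, σ ≤ s → s < τ → F.Up k s) →
      Past F C γ k₁ s₁ k τ := by
    intro τ h1 h2 hU
    rcases h1.eq_or_lt with rfl | hlt
    · exact hP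
    obtain ⟨ha, hb, hc⟩ := h.anti hσ (hwin τ h1 h2) hs h1 hU (hP k σ hk le_rfl hσ hs le_rfl).2.1
    intro i x hki hik hi hx hxτ
    rcases le_or_gt x σ with hxσ | hxσ
    · obtain ⟨h3, h4, h5⟩ := hP i x hki hik hi hx hxσ
      exact ⟨(ha (left_mem_Icc.2 h1) (right_mem_Icc.2 h1) h1).trans h3, h4, h5⟩
    · -- then `i = k`
      have hik' : i = k := by
        by_contra hne
        have h3 : F.p (i + 1) ≤ F.p k := h.p_mono.monotone (by omega)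
        have h4 := hi.2
        have h5 := hσ.1
        linarith
      subst hik'
      refine ⟨ha ⟨hxσ.le, hxτ⟩ (right_mem_Icc.2 h1) hxτ, ?_, hc x ⟨hxσ.le, hxτ⟩ hlt⟩
      exact (hb (left_mem_Icc.2 h1) ⟨hxσ.le, hxτ⟩ hxσ.le).trans
        (hP i σ hk le_rfl hσ hs le_rfl).2.1
  -- `Past` at `τ < p (k+1)` gives `Up` slightly beyond `τ`
  have hup : ∀ τ, σ ≤ τ → τ < F.p (k + 1) → Past F C γ k₁ s₁ k τ →
      ∃ e > 0, ∀ s, τ ≤ s → s < τ + e → s < F.p (k + 1) → F.Up k s := by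
    intro τ h1 h2 hPτ
    have hcont : ContinuousAt (F.L k) τ := (h.derL k τ (hwin τ h1 h2.le)).continuousAt
    obtain ⟨e, he, hcl⟩ := Metric.continuousAt_iff.1 hcont (1 / 2) (by norm_num)
    refine ⟨e, he, ?_⟩
    intro s hτs hse hsp i x hi hxs hcol
    have hLs : |F.L k s - F.L k τ| < 1 / 2 := by
      have := hcl (x := s) (by rw [Real.dist_eq, abs_of_nonneg (by linarith)]; linarith)
      rwa [Real.dist_eq] at this
    have hik : i ≤ k := by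
      by_contra hcon
      push Not at hcon
      have h3 : F.p (k + 1) ≤ F.p i := h.p_mono.monotone (by omega)
      have h4 := hi.1
      linarith
    rcases le_or_gt x τ with hxτ | hxτ
    · have h3 := h.up_of_past hPτ hk (hwin τ h1 h2.le) (hs.trans h1) hik hi hxτ (by linarith)
      have := (abs_lt.1 hLs).2
      linarith
    · have hik' : i = k := by
        by_contra hne
        have h3 : F.p (i + 1) ≤ F.p k := h.p_mono.monotone (by omega)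
        have h4 := hi.2
        have h5 := hσ.1
        linarith
      subst hik'
      have hLx : |F.L i x - F.L i τ| < 1 / 2 := by
        have := hcl (x := x) (by rw [Real.dist_eq, abs_of_nonneg (by linarith)]; linarith)
        rwa [Real.dist_eq] at this
      have h3 := (abs_lt.1 hLs).2
      have h4 := (abs_lt.1 hLx).1
      linarith
  -- first exit
  have hall : ∀ s, σ ≤ s → s < F.p (k + 1) → F.Up k s := by
    by_contra hcon
    push Not at hcon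
    set B : Set ℝ := {s | σ ≤ s ∧ s < F.p (k + 1) ∧ ¬ F.Up k s} with hB
    have hBne : B.Nonempty := by
      obtain ⟨s, h1, h2, h3⟩ := hcon
      exact ⟨s, h1, h2, h3⟩
    have hBb : BddBelow B := ⟨σ, fun s hs' => hs'.1⟩
    set τ := sInf B with hτ
    have hστ : σ ≤ τ := le_csInf hBne fun s hs' => hs'.1
    have hτp : τ < F.p (k + 1) := by
      obtain ⟨s, hs'⟩ := hBne
      exact (csInf_le hBb hs').trans_lt hs'.2.1
    have hbefore : ∀ s, σ ≤ s → s < τ → F.Up k s := by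
      intro s h1 h2
      by_contra h3
      exact absurd (csInf_le hBb (show s ∈ B from ⟨h1, h2.trans hτp, h3⟩)) (not_le.2 h2)
    have hPτ := hext τ hστ hτp.le hbefore
    obtain ⟨e, he, hU⟩ := hup τ hστ hτp hPτ
    obtain ⟨s, hsB, hse⟩ := exists_lt_of_csInf_lt hBne (show sInf B < τ + e by linarith)
    exact hsB.2.2 (hU s (csInf_le hBb hsB) hse hsB.2.1)
  intro s h1 h2
  exact hext s h1 h2 fun y hy1 hy2 => hall y hy1 (hy2.trans_le h2)

/-- **switch lemma**: irregular switches are not met -/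
theorem regular (h : Start F C γ k₁ s₁) {k : ℕ} (hk : k₁ ≤ k) (hs : s₁ ≤ F.p (k + 1))
    (hP : Past F C γ k₁ s₁ k (F.p (k + 1))) :
    F.L (k + 1) (F.p (k + 1)) = F.L k (F.p (k + 1)) ∧
      F.M (k + 1) (F.p (k + 1)) = F.M k (F.p (k + 1)) := by
  rcases h.switch k hs with hr | ⟨l, x, hl, hxp, hc, h1, h2⟩
  · exact hr
  · exfalso
    have hwk : F.Win k (F.p (k + 1)) := ⟨(h.p_mono (Nat.lt_succ_self k)).le, le_rfl⟩
    have hlk : l ≤ k := by
      by_contra hcon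
      push Not at hcon
      have h3 : F.p (k + 1) ≤ F.p l := h.p_mono.monotone (by omega)
      have h4 := hl.1
      have hx : x = F.p (k + 1) := le_antisymm hxp (h3.trans h4)
      have h5 : F.p l = F.p (k + 1) := le_antisymm (by linarith) h3
      have h6 : l = k + 1 := h.p_mono.injective h5
      subst h6
      rw [hx] at h2
      linarith
    have := h.up_of_past hP hk hwk hs hlk hl hxp hc
    linarith

theorem past_switch (h : Start F C γ k₁ s₁) {k : ℕ} (hk : k₁ ≤ k) (hs : s₁ ≤ F.p (k + 1))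
    (hP : Past F C γ k₁ s₁ k (F.p (k + 1))) : Past F C γ k₁ s₁ (k + 1) (F.p (k + 1)) := by
  obtain ⟨h1, h2⟩ := h.regular hk hs hP
  have hwk : F.Win k (F.p (k + 1)) := ⟨(h.p_mono (Nat.lt_succ_self k)).le, le_rfl⟩
  have hPsi : Psi F k₁ s₁ (k + 1) (F.p (k + 1)) = Psi F k₁ s₁ k (F.p (k + 1)) := by
    simp only [Psi, h1, h2]
  intro i x hki hik hi hx hxp
  rcases Nat.lt_or_ge i (k + 1) with hlt | hge
  · obtain ⟨h3, h4, h5⟩ := hP i x hki (by omega) hi hx hxp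
    exact ⟨hPsi.le.trans h3, h4, h5⟩
  · have : i = k + 1 := le_antisymm hik hge
    subst this
    have hx' : x = F.p (k + 1) := le_antisymm hxp hi.1
    subst hx'
    obtain ⟨-, h4, h5⟩ := hP k (F.p (k + 1)) hk le_rfl hwk hs le_rfl
    refine ⟨le_rfl, ?_, by rw [h2]; exact h5⟩
    simpa only [The, h2] using h4

theorem past_start (h : Start F C γ k₁ s₁) : Past F C γ k₁ s₁ k₁ s₁ := by
  intro i x hki hik hi hx hxs
  have h1 : i = k₁ := le_antisymm hik hki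
  have h2 : x = s₁ := le_antisymm hxs hx
  subst h1; subst h2
  refine ⟨le_rfl, ?_, h.Mn⟩
  simp [The, Phi_start]

/-- the bounds hold at all deeper points -/
theorem past (h : Start F C γ k₁ s₁) (n : ℕ) :
    ∀ s, F.Win (k₁ + n) s → s₁ ≤ s → Past F C γ k₁ s₁ (k₁ + n) s := by
  induction n with
  | zero =>
    intro s hs hss
    have hs' : F.Win k₁ s := hs
    rcases eq_or_lt_of_le (hss.trans hs'.2) with heq | hlt
    · have : s = s₁ := le_antisymm (hs'.2.trans heq.symm.le) hss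
      rw [this]; exact h.past_start
    · exact h.window le_rfl h.win le_rfl hlt h.past_start s hss hs'.2
  | succ n ih =>
    intro s hs hss
    have hp1 : s₁ ≤ F.p (k₁ + n + 1) :=
      h.win.2.trans (h.p_mono.monotone (by omega))
    have hwin : F.Win (k₁ + n) (F.p (k₁ + n + 1)) :=
      ⟨(h.p_mono (Nat.lt_succ_self _)).le, le_rfl⟩
    have h1 := h.past_switch (k := k₁ + n) (by omega) hp1 (ih _ hwin hp1)
    have hlt : F.p (k₁ + n + 1) < F.p (k₁ + n + 1 + 1) := h.p_mono (Nat.lt_succ_self _)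
    exact h.window (k := k₁ + n + 1) (by omega) ⟨le_rfl, hlt.le⟩ hp1 hlt h1 s hs.1 hs.2

/-- `Up` holds at all deeper points -/
theorem up (h : Start F C γ k₁ s₁) {k : ℕ} {s : ℝ} (hk : k₁ ≤ k) (hw : F.Win k s) (hs : s₁ ≤ s) :
    F.Up k s := by
  obtain ⟨n, rfl⟩ := Nat.exists_eq_add_of_le hk
  have hP := h.past n s hw hs
  intro i x hi hxs hc
  rcases Nat.lt_or_ge (k₁ + n) i with hlt | hge
  · -- then `x = s = p (k + 1)` and the switch is regular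
    have h3 : F.p (k₁ + n + 1) ≤ F.p i := h.p_mono.monotone (by omega)
    have h4 := hi.1
    have h5 := hw.2
    have hs' : s = F.p (k₁ + n + 1) := le_antisymm h5 (by linarith)
    have hx' : x = F.p (k₁ + n + 1) := le_antisymm (by linarith) (by linarith)
    have h6 : F.p i = F.p (k₁ + n + 1) := le_antisymm (by linarith) h3
    have h7 : i = k₁ + n + 1 := h.p_mono.injective h6
    subst h7
    rw [hs'] at hP
    have := (h.regular (k := k₁ + n) (by omega) (by linarith) hP).1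
    rw [hs', hx', this]
    linarith
  · have := h.up_of_past hP hk hw hs hge hi hxs hc
    linarith

end Start

end

end Vale.Agent.P214.BABS
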