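import Vale.Agent.P214.ABS.Flow

/-!
# P214, block BABS: the flow in the depth variable, without superlinear growth

`ABS.Flow`, `Win`, `Up`, `Pt` are reused.  `FGood` is `ABS.Flow.Good` with the error
`e^{-γ s} + L^{-2}`, with weaker `deep` and without `decay`; `FLimit` is the conclusion.
-/

open Set Filter Topology

namespace Vale.Agent.P214.BABS

open ABS

noncomputable section

/-- properties of the flow -/
structure FGood (F : Flow) (C γ : ℝ) : Prop where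
  C_nn : 0 ≤ C
  γ_pos : 0 < γ
  γ_le : γ ≤ 1
  p_mono : StrictMono F.p
  p_lim : Tendsto F.p atTop atTop
  derL : ∀ k s, F.Win k s → HasDerivAt (F.L k) (F.L' k s) s
  derM : ∀ k s, F.Win k s → HasDerivAt (F.M k) (F.M' k s) s
  L_ge : ∀ k s, F.Win k s → 9 ≤ F.L k s
  L_lim : ∀ B, ∃ s₀, ∀ k s, F.Win k s → s₀ ≤ s → B ≤ F.L k s
  switch : ∃ s₀, ∀ k, s₀ ≤ F.p (k + 1) → (F.L (k + 1) (F.p (k + 1)) = F.L k (F.p (k + 1)) ∧
      F.M (k + 1) (F.p (k + 1)) = F.M k (F.p (k + 1))) ∨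
    ∃ l x, F.Win l x ∧ x ≤ F.p (k + 1) ∧ F.p (k + 1) - x ≤ 2 * ((F.L l x)⁻¹) ^ 6 ∧
      F.L l x + 9 ≤ F.L k (F.p (k + 1)) ∧ F.L l x + 9 ≤ F.L (k + 1) (F.p (k + 1))
  /-- deeper heights are not larger, and decay -/
  deep : ∃ s₀, ∀ k s, F.Win k s → s₀ ≤ s → F.Up k s → ∀ i x, F.Win i x → s ≤ x →
    F.L k s - C ≤ F.L i x ∧ F.L k s / 2 + γ * (x - s) - C ≤ F.L i x
  fact : ∃ s₀, ∀ k s, F.Win k s → s₀ ≤ s → F.Up k s →
    ∃ N, Pt (C * (Real.exp (-(γ * s)) + ((F.L k s)⁻¹) ^ 2)) (F.L' k s) (F.M' k s) (F.M k s) N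

/-- the conclusion for the flow -/
structure FLimit (F : Flow) (R : ℝ) : Prop where
  one_le : 1 ≤ R
  /-- the growth in the collars is bounded at large depth -/
  up : ∃ s₀, ∀ k s, F.Win k s → s₀ ≤ s → F.Up k s
  /-- no irregular switches at large depth -/
  regular : ∃ s₀, ∀ k, s₀ ≤ F.p (k + 1) → F.L (k + 1) (F.p (k + 1)) = F.L k (F.p (k + 1)) ∧
      F.M (k + 1) (F.p (k + 1)) = F.M k (F.p (k + 1))
  /-- linear growth -/
  grow : ∃ s₀, ∀ k s i x, F.Win k s → F.Win i x → s₀ ≤ x → x ≤ s → F.L k s ≤ F.L i x + R + R * (s - x)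
  /-- the frequency is bounded -/
  M_le : ∃ s₀, ∀ k s, F.Win k s → s₀ ≤ s → 1 / 2 ≤ F.M k s ∧ F.M k s ≤ R

end

end Vale.Agent.P214.BABS
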