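import Vale.Agent.P214.BABS.Near
import Vale.Agent.P214.BABS.Flow
import Vale.Agent.P214.ABS.Conv

/-!
# P214, block BABS: from the chain (scales) to the flow (depth)
-/

open Set Filter Topology

namespace Vale.Agent.P214.BABS

open ABS

noncomputable section

variable {X : Chain} {β K : ℝ}

/-! ### the adjustments -/

theorem Good.psi_lim (hX : Good X β K) {η : ℝ} (hη : 0 < η) : ∃ k₀, psi X β K k₀ ≤ η ∧
    ∀ k, k₀ ≤ k → X.e k ^ X.c + psi X β K (k + 1) ≤ psi X β K k := by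
  have hβ := hX.β_pos
  have hc := hX.c_pos
  have hK : 0 < K := by linarith [hX.K_one]
  have hKc : 0 < K ^ X.c := by positivity
  obtain ⟨t₁, ht₁, h₁⟩ := small_t (q := β) hβ
    (show 0 < (1 / 2 : ℝ) ^ (β * β * X.c)⁻¹ / K by positivity)
  obtain ⟨t₂, ht₂, h₂⟩ := small_t (q := β * X.c) (by positivity)
    (show 0 < η / (6 * K ^ X.c) by positivity)
  have h0 := ((hX.T_lim.eventually (gt_mem_nhds ht₁)).and
    (hX.T_lim.eventually (gt_mem_nhds ht₂))).exists_forall_of_atTop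
  obtain ⟨k₀, hk₀⟩ := h0
  refine ⟨k₀, ?_, fun k hk => ?_⟩
  · have h3 := h₂ _ (hX.T_pos k₀) (hk₀ k₀ le_rfl).2.le
    have h4 : X.e k₀ ^ X.c ≤ K ^ X.c * X.T k₀ ^ (β * X.c) := by
      calc X.e k₀ ^ X.c ≤ (K * X.T k₀ ^ β) ^ X.c :=
            Real.rpow_le_rpow (hX.e_pos _).le (hX.e_pow _) hc.le
        _ = _ := by
          rw [Real.mul_rpow hK.le (Real.rpow_nonneg (hX.T_pos _).le _),
            ← Real.rpow_mul (hX.T_pos _).le]
    have h5 : K ^ X.c * X.T k₀ ^ (β * X.c) ≤ η / 6 := by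
      calc K ^ X.c * X.T k₀ ^ (β * X.c) ≤ K ^ X.c * (η / (6 * K ^ X.c)) :=
            mul_le_mul_of_nonneg_left h3 hKc.le
        _ = η / 6 := by field_simp
    unfold psi
    linarith
  · have h3 := h₁ _ (hX.T_pos k) (hk₀ k hk).1.le
    refine hX.psi_step (hX.e_small (t := X.T k) le_rfl ?_)
    calc (K * X.T k ^ β) ^ (β * β * X.c)
        ≤ ((1 / 2 : ℝ) ^ (β * β * X.c)⁻¹) ^ (β * β * X.c) := by
          refine Real.rpow_le_rpow ?_ ?_ (by positivity)
          · exact mul_nonneg hK.le (Real.rpow_nonneg (hX.T_pos _).le _)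
          · rw [le_div_iff₀ hK] at h3
            linarith
      _ = 1 / 2 := by
        rw [← Real.rpow_mul (by positivity), inv_mul_cancel₀ (by positivity), Real.rpow_one]

theorem Good.reg_bounds (hX : Good X β K) {k : ℕ} (hr : X.Reg k) :
    |X.yJ k| ≤ X.e k ^ X.c ∧ |X.xJ k| ≤ X.e k ^ X.c := by
  have hw := hX.win_bot k
  have hT := hX.T_pos (k + 1)
  have hH := hX.H_pos k _ hw
  have hh := hX.h_pos hw
  have hc := hX.c_pos
  have key : X.T (k + 1) ^ 2 * X.h k (X.T (k + 1)) ^ (1 + X.c)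
      ≤ X.e k ^ X.c * X.H k (X.T (k + 1)) := by
    have h1 : X.H k (X.T (k + 1)) = X.T (k + 1) ^ 2 * X.h k (X.T (k + 1)) := by
      rw [Chain.h]; field_simp
    have h2 : X.h k (X.T (k + 1)) ^ X.c ≤ X.e k ^ X.c := Real.rpow_le_rpow hh.le hr.2 hc.le
    rw [Real.rpow_add hh, Real.rpow_one, h1]
    have h3 : 0 ≤ X.T (k + 1) ^ 2 * X.h k (X.T (k + 1)) := by positivity
    nlinarith [mul_le_mul_of_nonneg_left h2 h3]
  constructor
  · rw [Chain.yJ, abs_div, abs_of_pos hH, div_le_iff₀ hH]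
    exact hr.1.1.trans key
  · rw [Chain.xJ, abs_div, abs_of_pos hH, div_le_iff₀ hH]
    exact hr.1.2.trans key

theorem Good.adj_bounds (hX : Good X β K) {k₀ : ℕ} (h0 : psi X β K k₀ ≤ 1 / 800)
    (hstep : ∀ k, k₀ ≤ k → X.e k ^ X.c + psi X β K (k + 1) ≤ psi X β K k) (n : ℕ) :
    |(X.adj k₀ n).1 - 1| ≤ 4 * (psi X β K k₀ - psi X β K (k₀ + n)) ∧
      |(X.adj k₀ n).2| ≤ 4 * (psi X β K k₀ - psi X β K (k₀ + n)) := by
  induction n with
  | zero => simp [Chain.adj]
  | succ n ih =>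
    obtain ⟨h1, h2⟩ := ih
    have hs := hstep (k₀ + n) (by omega)
    have hp := hX.psi_nonneg (k₀ + n)
    have hp' := hX.psi_nonneg (k₀ + n + 1)
    have hepos : 0 < X.e (k₀ + n) ^ X.c := Real.rpow_pos_of_pos (hX.e_pos _) _
    have hkn : k₀ + (n + 1) = k₀ + n + 1 := by ring
    have hα : |(X.adj k₀ n).1| ≤ 2 := by
      have : |(X.adj k₀ n).1| ≤ |(X.adj k₀ n).1 - 1| + |(1 : ℝ)| := by
        have := abs_add_le ((X.adj k₀ n).1 - 1) 1
        simpa using this
      rw [abs_one] at this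
      linarith
    rw [hkn]
    by_cases hr : X.Reg (k₀ + n)
    · obtain ⟨hy, hx⟩ := hX.reg_bounds hr
      simp only [Chain.adj, if_pos hr]
      constructor
      · have : (X.adj k₀ n).1 * (1 + X.yJ (k₀ + n)) - 1
            = ((X.adj k₀ n).1 - 1) + (X.adj k₀ n).1 * X.yJ (k₀ + n) := by ring
        rw [this]
        refine (abs_add_le _ _).trans ?_
        rw [abs_mul]
        have h3 : |(X.adj k₀ n).1| * |X.yJ (k₀ + n)| ≤ 2 * X.e (k₀ + n) ^ X.c :=
          mul_le_mul hα hy (abs_nonneg _) (by norm_num)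
        linarith
      · refine (abs_sub _ _).trans ?_
        rw [abs_mul]
        have h3 : |(X.adj k₀ n).1| * |X.xJ (k₀ + n)| ≤ 2 * X.e (k₀ + n) ^ X.c :=
          mul_le_mul hα hx (abs_nonneg _) (by norm_num)
        linarith
    · simp only [Chain.adj, if_neg hr]
      constructor <;> linarith

theorem Good.exists_adj (hX : Good X β K) : ∃ α ω k₀, Chain.Adj X α ω k₀ := by
  obtain ⟨k₀, h0, hstep⟩ := hX.psi_lim (η := 1 / 800) (by norm_num)
  have hb := hX.adj_bounds h0 hstep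
  have hle : ∀ n : ℕ, 4 * (psi X β K k₀ - psi X β K (k₀ + n)) ≤ 1 / 100 := fun n => by
    have := hX.psi_nonneg (k₀ + n)
    linarith
  refine ⟨fun k => (X.adj k₀ (k - k₀)).1, fun k => (X.adj k₀ (k - k₀)).2, k₀,
    fun k => (hb _).1.trans (hle _), fun k => (hb _).2.trans (hle _), fun k hk hr => ?_⟩
  obtain ⟨n, rfl⟩ := Nat.exists_eq_add_of_le hk
  have h1 : k₀ + n + 1 - k₀ = n + 1 := by omega
  have h2 : k₀ + n - k₀ = n := by omega
  simp only [h1, h2]
  simp [Chain.adj, if_pos hr]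

/-! ### the flow -/

variable {α ω : ℕ → ℝ} {k₀ : ℕ}

theorem Good.winf_iff (hX : Good X β K) {k : ℕ} {s : ℝ} :
    (X.toFlow α ω).Win k s ↔ X.Win k (Real.exp (-s)) := by
  have h1 := hX.T_pos k
  have h2 := hX.T_pos (k + 1)
  simp only [Flow.Win, Chain.toFlow, Chain.Win]
  rw [← Real.log_le_iff_le_exp h2, ← Real.le_log_iff_exp_le h1]
  constructor
  · rintro ⟨h3, h4⟩; exact ⟨by linarith, by linarith⟩
  · rintro ⟨h3, h4⟩; exact ⟨by linarith, by linarith⟩

theorem Good.win_log (hX : Good X β K) {k : ℕ} {t : ℝ} (ht : X.Win k t) :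
    (X.toFlow α ω).Win k (-Real.log t) := by
  rw [hX.winf_iff, neg_neg, Real.exp_log (hX.win_pos ht)]
  exact ht

/-- the collars of the chain are inside the collars of the flow -/
theorem Good.collar (hX : Good X β K) (hA : Chain.Adj X α ω k₀) {i : ℕ} {y t : ℝ}
    (hi : X.Win i y) (ht : 0 < t) (hy : y ≤ t * (1 + ((X.L i y)⁻¹) ^ 6)) :
    -Real.log t - -Real.log y ≤ 2 * (((X.toFlow α ω).L i (-Real.log y))⁻¹) ^ 6 := by
  have hy0 := hX.win_pos hi
  have hL := hX.le_L hi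
  have hLp : 0 < X.L i y := by linarith
  have h1 : Real.log y - Real.log t ≤ ((X.L i y)⁻¹) ^ 6 := by
    rw [← Real.log_div hy0.ne' ht.ne']
    refine (Real.log_le_sub_one_of_pos (by positivity)).trans ?_
    rw [sub_le_iff_le_add, div_le_iff₀ ht]
    linarith
  have h2 : (X.toFlow α ω).L i (-Real.log y) ≤ X.L i y + 1 / 50 := by
    have := hA.L_up i (-Real.log y)
    rwa [neg_neg, Real.exp_log hy0] at this
  have h3 : 0 < (X.toFlow α ω).L i (-Real.log y) := by
    have := hA.L_lo i (-Real.log y)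
    rw [neg_neg, Real.exp_log hy0] at this
    linarith
  set l := (X.toFlow α ω).L i (-Real.log y) with hl
  have h4 : (X.L i y)⁻¹ ≤ 501 / 500 * l⁻¹ := by
    rw [← div_eq_mul_inv, le_div_iff₀ h3, ← div_eq_inv_mul, div_le_iff₀ hLp]
    linarith
  have h5 : ((X.L i y)⁻¹) ^ 6 ≤ (501 / 500 * l⁻¹) ^ 6 :=
    pow_le_pow_left₀ (by positivity) h4 6
  have h6 : (501 / 500 * l⁻¹) ^ 6 ≤ 2 * (l⁻¹) ^ 6 := by
    rw [mul_pow]
    refine mul_le_mul_of_nonneg_right (by norm_num) (by positivity)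
  linarith

theorem Good.hasDerivAt_flowL (hX : Good X β K) {k : ℕ} {s : ℝ} (h : X.Win k (Real.exp (-s))) :
    HasDerivAt ((X.toFlow α ω).L k) ((X.toFlow α ω).L' k s) s := by
  have ht : HasDerivAt (fun s : ℝ => Real.exp (-s)) (-Real.exp (-s)) s := by
    have := (hasDerivAt_neg s).exp
    simpa using this
  have hH := (hX.hasH k _ h).comp s ht
  have hp := hX.H_pos k _ h
  have h1 : HasDerivAt (fun s : ℝ => Real.log (X.H k (Real.exp (-s))))
      (X.H' k (Real.exp (-s)) * -Real.exp (-s) / X.H k (Real.exp (-s))) s :=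
    HasDerivAt.log hH hp.ne'
  have h2 : HasDerivAt (fun s : ℝ => -Real.log (X.H k (Real.exp (-s))) - 2 * s + Real.log (α k))
      (-(X.H' k (Real.exp (-s)) * -Real.exp (-s) / X.H k (Real.exp (-s))) - 2 * 1) s :=
    (h1.neg.sub ((hasDerivAt_id s).const_mul 2)).add_const _
  refine (h2.congr_of_eventuallyEq ?_).congr_deriv ?_
  · -- equality near `s`
    have hc : ContinuousAt (fun s : ℝ => X.H k (Real.exp (-s))) s := hH.continuousAt
    filter_upwards [hc.eventually (lt_mem_nhds hp)] with x hx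
    simp only [Chain.toFlow, Chain.L, Chain.h]
    rw [Real.log_inv, Real.log_div hx.ne' (by positivity), Real.log_pow, Real.log_exp]
    push_cast
    ring
  · simp only [Chain.toFlow]
    ring

theorem Good.hasDerivAt_flowM (hX : Good X β K) {k : ℕ} {s : ℝ} (h : X.Win k (Real.exp (-s))) :
    HasDerivAt ((X.toFlow α ω).M k) ((X.toFlow α ω).M' k s) s := by
  have ht : HasDerivAt (fun s : ℝ => Real.exp (-s)) (-Real.exp (-s)) s := by
    have := (hasDerivAt_neg s).exp
    simpa using this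
  have hH := (hX.hasH k _ h).comp s ht
  have ha := (hX.hasa k _ h).comp s ht
  have hp := hX.H_pos k _ h
  have h1 := ((ha.div hH hp.ne').const_mul (α k)).add_const (ω k)
  refine h1.congr_deriv ?_
  simp only [Chain.toFlow, Function.comp]
  have := hp.ne'
  field_simp
  ring

theorem Good.exp_le (hX : Good X β K) {k : ℕ} {s : ℝ} (hk : (X.toFlow α ω).Win k s) : 0 ≤ s := by
  have h := hX.le_one (hX.winf_iff.1 hk)
  rw [Real.exp_le_one_iff] at h
  linarith

theorem Good.eventually_lim (hX : Good X β K) (α ω : ℕ → ℝ) {η : ℝ} (hη : 0 < η) :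
    ∃ s₀ : ℝ, ∀ k s, (X.toFlow α ω).Win k s → s₀ ≤ s →
      Real.exp (-s) ≤ η ∧ X.h k (Real.exp (-s)) ≤ η := by
  have hK : 0 < K := by linarith [hX.K_one]
  obtain ⟨t₀, ht₀, hlim⟩ := small_t hX.β_pos (show 0 < η / K by positivity)
  refine ⟨-Real.log (min t₀ η), fun k s hk hs => ?_⟩
  have h1 : Real.exp (-s) ≤ min t₀ η := by
    rw [← Real.le_log_iff_exp_le (by positivity)]
    linarith
  refine ⟨h1.trans (min_le_right _ _), ?_⟩
  have h2 := hlim _ (Real.exp_pos _) (h1.trans (min_le_left _ _))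
  calc X.h k (Real.exp (-s)) ≤ K * Real.exp (-s) ^ β := hX.power k _ (hX.winf_iff.1 hk)
    _ ≤ K * (η / K) := mul_le_mul_of_nonneg_left h2 hK.le
    _ = η := by field_simp

/-- `Up` gives `Bdd` -/
theorem Good.up (hX : Good X β K) (hA : Chain.Adj X α ω k₀) : ∃ D : ℝ, 1 ≤ D ∧ ∀ τ > 0,
    ∃ s₀ : ℝ, ∀ k s, (X.toFlow α ω).Win k s → s₀ ≤ s → (X.toFlow α ω).Up k s →
      X.Win k (Real.exp (-s)) ∧ Real.exp (-s) ≤ τ ∧ X.h k (Real.exp (-s)) ≤ τ ∧
        0 < D * X.h k (Real.exp (-s)) ∧ D * X.h k (Real.exp (-s)) ≤ τ ∧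
        X.Bdd (Real.exp (-s)) (D * X.h k (Real.exp (-s))) := by
  obtain ⟨t₀, ht₀, habove⟩ := hX.bdd_of_above
  obtain ⟨E, hE⟩ : ∃ E, E = Real.exp (51 / 10) := ⟨_, rfl⟩
  have hE1 : 1 ≤ E := by rw [hE]; exact Real.one_le_exp (by norm_num)
  refine ⟨2 * E, by linarith, fun τ hτ => ?_⟩
  obtain ⟨s₀, hs₀⟩ := hX.eventually_lim α ω (η := min (min t₀ τ / (2 * E)) (min t₀ τ))
    (by positivity)
  refine ⟨s₀, fun k s hk hs hup => ?_⟩
  obtain ⟨h1, h2⟩ := hs₀ k s hk hs
  have hw := hX.winf_iff.1 hk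
  set t := Real.exp (-s) with ht
  have hh := hX.h_pos hw
  have h3 : 2 * E * X.h k t ≤ min t₀ τ := by
    have := h2.trans (min_le_left _ _)
    rw [le_div_iff₀ (by positivity)] at this
    linarith
  have h4 : E * X.h k t ≤ 2 * E * X.h k t := by
    have : 0 < E * X.h k t := by positivity
    nlinarith
  have h5 := h1.trans (min_le_right _ _)
  refine ⟨hw, h5.trans (min_le_right _ _), (h2.trans (min_le_right _ _)).trans (min_le_right _ _),
    by positivity, h3.trans (min_le_right _ _), ?_⟩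
  rw [mul_assoc]
  refine habove k t (E * X.h k t) hw (h5.trans (min_le_left _ _)) (by positivity)
    ((h4.trans h3).trans (min_le_left _ _)) ?_
  intro i y hi hty hy
  have hy0 := hX.win_pos hi
  have ht0 : 0 < t := hX.win_pos hw
  have hc := hX.collar hA hi ht0 hy
  have hlt : -Real.log t = s := by rw [ht, Real.log_exp, neg_neg]
  rw [hlt] at hc
  have h6 := hup i (-Real.log y) (hX.win_log hi) (by
    rw [← hlt]; exact neg_le_neg (Real.log_le_log ht0 hty)) hc
  have h7 := hA.L_up i (-Real.log y)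
  rw [neg_neg, Real.exp_log hy0] at h7
  have h8 := hA.L_lo k s
  rw [← ht] at h8
  have h9 : X.L k t - 51 / 10 ≤ X.L i y := by linarith
  rw [← hX.exp_neg_L hi, ← hX.exp_neg_L hw, hE, ← Real.exp_add]
  exact Real.exp_le_exp.2 (by linarith)

theorem Good.L_ge_of_h_le (hX : Good X β K) {i k : ℕ} {x t u : ℝ} (hi : X.Win i x)
    (hk : X.Win k t) (hu : 0 < u) (h : X.h i x ≤ u * X.h k t) :
    X.L k t - Real.log u ≤ X.L i x := by
  have h1 := Real.log_le_log (hX.h_pos hi) h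
  rw [Real.log_mul hu.ne' (hX.h_pos hk).ne'] at h1
  rw [Chain.L, Chain.L, Real.log_inv, Real.log_inv]
  linarith

/-- lower bound of `L` from the power decay -/
theorem Good.L_ge_pow (hX : Good X β K) {i : ℕ} {x : ℝ} (hi : X.Win i (Real.exp (-x))) :
    β * x - Real.log K ≤ X.L i (Real.exp (-x)) := by
  have hK : 0 < K := by linarith [hX.K_one]
  have h1 := Real.log_le_log (hX.h_pos hi) (hX.power i _ hi)
  rw [Real.log_mul hK.ne' (by positivity), Real.log_rpow (Real.exp_pos _), Real.log_exp] at h1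
  rw [Chain.L, Real.log_inv]
  linarith

/-- the pointwise facts of the raw quantities -/
structure Raw (k1 ρ r N R B l' q' : ℝ) : Prop where
  cs : N ^ 2 ≤ B
  dH : |l' - 2 * N| ≤ k1 + ρ
  da : 2 * (R - N) + 2 * B - k1 * (1 + |N| + √B + max (N - R) 0) - ρ ≤ q'
  gap : R - N ≤ k1 + ρ
  low : 1 - r ≤ R

/-- division of the `Ode` by `H` -/
theorem raw_of_ode {q ρ r t H j a b H' a' : ℝ}
    (ho : Ode q (ρ * H) t H j a b H' a') (hlow : H - r * H ≤ a) :
    Raw (q * t) ρ r (j / H) (a / H) (b / H) (t * H' / H) (t * a' / H) := by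
  have hH := ho.pos
  have hb := ho.bnn
  have hsqrt : √(b * H) = H * √(b / H) := by
    have : b * H = H ^ 2 * (b / H) := by field_simp
    rw [this, Real.sqrt_mul (by positivity), Real.sqrt_sq hH.le]
  refine ⟨?_, ?_, ?_, ?_, ?_⟩
  · rw [div_pow, div_le_div_iff₀ (by positivity) hH]
    have := ho.cs
    nlinarith
  · have := ho.dH
    have h1 : t * H' / H - 2 * (j / H) = (t * H' - 2 * j) / H := by field_simp
    rw [h1, abs_div, abs_of_pos hH, div_le_iff₀ hH]
    linarith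
  · have := ho.da
    rw [hsqrt] at this
    have hm : max (j - a) 0 = H * max (j / H - a / H) 0 := by
      rw [mul_max_of_nonneg _ _ hH.le, mul_zero, mul_sub, mul_div_cancel₀ _ hH.ne',
        mul_div_cancel₀ _ hH.ne']
    have hj : |j| = H * |j / H| := by
      rw [abs_div, abs_of_pos hH, mul_div_cancel₀ _ hH.ne']
    rw [hm, hj] at this
    rw [le_div_iff₀ hH]
    refine le_trans (le_of_eq ?_) this
    field_simp
  · have := ho.gap
    rw [← sub_div, div_le_iff₀ hH]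
    linarith
  · rw [le_div_iff₀ hH]
    linarith

/-- the facts at one scale, under a bound `D h` for all deeper heights -/
theorem Good.raw (hX : Good X β K) {D : ℝ} (hD : 1 ≤ D) : ∃ C ≥ 1, ∀ τ > 0, ∃ t₀ > 0,
    ∀ k t, X.Win k t → t ≤ t₀ →
    X.Bdd t (D * X.h k t) →
      ∃ k1 ρ r, Raw k1 ρ r (X.j k t / X.H k t) (X.a k t / X.H k t) (X.b k t / X.H k t)
        (t * X.H' k t / X.H k t) (t * X.a' k t / X.H k t) ∧ 0 ≤ k1 ∧ 0 ≤ ρ ∧ 0 ≤ r ∧
        k1 + ρ + r ≤ C * (t ^ gam X β + ((X.L k t)⁻¹) ^ 2) ∧ k1 + ρ + r ≤ τ := by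
  obtain ⟨tA, htA, hode⟩ := hX.ode
  obtain ⟨C₁, hC₁, tB, htB, hlow⟩ := hX.low
  have hβ := hX.β_pos
  have hγ := hX.gam_pos
  have hκ := hX.κ_nn
  have hK : 0 < K := by linarith [hX.K_one]
  have hlogD : 0 ≤ Real.log D := Real.log_nonneg hD
  obtain ⟨C, hC⟩ : ∃ C, C = X.κ + 4 * D + 4 * (C₁ * D) := ⟨_, rfl⟩
  have hCD : D ≤ C₁ * D := by nlinarith
  have hC0 : 1 ≤ C := by rw [hC]; linarith
  refine ⟨C, hC0, fun τ hτ => ?_⟩
  -- smallness
  obtain ⟨t₁, ht₁, h₁⟩ := small_t hγ (show 0 < τ / (2 * C) by positivity)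
  obtain ⟨t₂, ht₂, h₂⟩ := small_t hβ (show 0 < min (min tA tB / D)
    (Real.exp (-(2 * Real.log D + 1 + 2 * C / τ + 1))) / K by positivity)
  refine ⟨min (min tA tB) (min t₁ t₂), by positivity, fun k t hw ht hB => ?_⟩
  have ht0 := hX.win_pos hw
  have ht1 := hX.le_one hw
  have hh := hX.h_pos hw
  have hH := hX.H_pos k t hw
  have e1 := h₁ t ht0 (ht.trans ((min_le_right _ _).trans (min_le_left _ _)))
  have e2 := h₂ t ht0 (ht.trans ((min_le_right _ _).trans (min_le_right _ _)))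
  have e3 : X.h k t ≤ min (min tA tB / D)
      (Real.exp (-(2 * Real.log D + 1 + 2 * C / τ + 1))) := by
    calc X.h k t ≤ K * t ^ β := hX.power k t hw
      _ ≤ K * _ := mul_le_mul_of_nonneg_left e2 hK.le
      _ = _ := by field_simp
  have e4 : D * X.h k t ≤ min tA tB := by
    have := e3.trans (min_le_left _ _)
    rw [le_div_iff₀ (by linarith)] at this
    linarith
  have e5 : 2 * Real.log D + 1 + 2 * C / τ + 1 ≤ X.L k t := by
    have := e3.trans (min_le_right _ _)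
    rw [← hX.exp_neg_L hw] at this
    linarith [Real.exp_le_exp.1 this]
  have hCτ : 0 < 2 * C / τ := by positivity
  have hDh : 0 < D * X.h k t := by positivity
  have o := hode k t _ hw (ht.trans ((min_le_left _ _).trans (min_le_left _ _))) hDh
    (e4.trans (min_le_left _ _)) hB
  have lo := hlow k t _ hw (ht.trans ((min_le_left _ _).trans (min_le_right _ _))) hDh
    (e4.trans (min_le_right _ _)) hB
  set Λ := (Real.log (D * X.h k t)⁻¹)⁻¹ with hΛ
  have hΛlog : Real.log (D * X.h k t)⁻¹ = X.L k t - Real.log D := by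
    rw [Real.log_inv, Real.log_mul (by positivity) hh.ne', Chain.L, Real.log_inv]; ring
  have hΛ0 : 0 < Λ := by rw [hΛ, hΛlog]; exact inv_pos.2 (by linarith)
  have hLp : 0 < X.L k t := by linarith
  have hΛ2 : Λ ≤ 2 * (X.L k t)⁻¹ := by
    rw [hΛ, hΛlog, ← div_eq_mul_inv, inv_eq_one_div, div_le_div_iff₀ (by linarith) (by linarith)]
    linarith
  have hLi : (X.L k t)⁻¹ ≤ 1 := inv_le_one_of_one_le₀ (by linarith)
  have hL10 := hX.le_L hw
  have hΛ1 : Λ ≤ 1 := by
    refine hΛ2.trans ?_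
    rw [← div_eq_mul_inv, div_le_one hLp]
    linarith
  have hΛsq : Λ ^ 2 ≤ 4 * ((X.L k t)⁻¹) ^ 2 := by
    calc Λ ^ 2 ≤ (2 * (X.L k t)⁻¹) ^ 2 := pow_le_pow_left₀ hΛ0.le hΛ2 2
      _ = _ := by ring
  have hht : X.h k t * t ^ 2 = X.H k t := by rw [Chain.h]; field_simp
  have hδ : Λ ^ 3 * (D * X.h k t) * t ^ 2 = (D * Λ ^ 3) * X.H k t := by rw [← hht]; ring
  rw [hδ] at o
  have lo' : X.H k t - (C₁ * D * (t ^ gam X β + Λ ^ 2)) * X.H k t ≤ X.a k t := by
    have : C₁ * (t ^ gam X β + Λ ^ 2) * (D * X.h k t) * t ^ 2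
        = (C₁ * D * (t ^ gam X β + Λ ^ 2)) * X.H k t := by rw [← hht]; ring
    rw [this] at lo; exact lo
  have hq : X.κ * t ^ (β - 1) * t = X.κ * t ^ β := by
    rw [Real.rpow_sub ht0, Real.rpow_one]; field_simp
  have hraw := raw_of_ode o lo'
  rw [hq] at hraw
  have htγ0 : 0 < t ^ gam X β := by positivity
  have htγ : t ^ β ≤ t ^ gam X β := Real.rpow_le_rpow_of_exponent_ge ht0 ht1 hX.gam_le
  have hsum : X.κ * t ^ β + D * Λ ^ 3 + C₁ * D * (t ^ gam X β + Λ ^ 2)
      ≤ C * (t ^ gam X β + ((X.L k t)⁻¹) ^ 2) := by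
    have g1 : X.κ * t ^ β ≤ X.κ * t ^ gam X β := mul_le_mul_of_nonneg_left htγ hκ
    have g2 : D * Λ ^ 3 ≤ D * (4 * ((X.L k t)⁻¹) ^ 2) := by
      refine mul_le_mul_of_nonneg_left ?_ (by linarith)
      refine le_trans ?_ hΛsq
      exact pow_le_pow_of_le_one hΛ0.le hΛ1 (by norm_num)
    have g3 : C₁ * D * (t ^ gam X β + Λ ^ 2)
        ≤ C₁ * D * (t ^ gam X β + 4 * ((X.L k t)⁻¹) ^ 2) :=
      mul_le_mul_of_nonneg_left (by linarith) (by positivity)
    have g4 : C * (t ^ gam X β + ((X.L k t)⁻¹) ^ 2)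
        = X.κ * t ^ gam X β + D * (4 * ((X.L k t)⁻¹) ^ 2)
          + C₁ * D * (t ^ gam X β + 4 * ((X.L k t)⁻¹) ^ 2)
          + (X.κ * ((X.L k t)⁻¹) ^ 2 + 4 * D * t ^ gam X β + 3 * (C₁ * D * t ^ gam X β)) := by
      rw [hC]; ring
    have g5 : 0 ≤ X.κ * ((X.L k t)⁻¹) ^ 2 + 4 * D * t ^ gam X β
        + 3 * (C₁ * D * t ^ gam X β) := by positivity
    rw [g4]
    linarith
  refine ⟨_, _, _, hraw, by positivity, by positivity, by positivity, hsum, hsum.trans ?_⟩
  have f1 : ((X.L k t)⁻¹) ^ 2 ≤ τ / (2 * C) := by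
    have g1 : (X.L k t)⁻¹ ≤ τ / (2 * C) := by
      have g2 : 2 * C / τ ≤ X.L k t := by linarith
      have := inv_anti₀ hCτ g2
      rwa [inv_div] at this
    have g3 : 0 < (X.L k t)⁻¹ := by positivity
    nlinarith
  calc C * (t ^ gam X β + ((X.L k t)⁻¹) ^ 2) ≤ C * (τ / (2 * C) + τ / (2 * C)) :=
        mul_le_mul_of_nonneg_left (add_le_add e1 f1) (by linarith)
    _ = τ := by field_simp; ring

/-- **Conversion**: a good chain gives a good flow. -/
theorem Good.flow (hX : Good X β K) (hA : Chain.Adj X α ω k₀) :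
    ∃ C γ, FGood (X.toFlow α ω) C γ := by
  obtain ⟨D, hD, hup⟩ := hX.up hA
  obtain ⟨C₁, hC₁, hraw⟩ := hX.raw hD
  have hκ := hX.κ_nn
  have hβ := hX.β_pos
  have hβ1 := hX.β_le
  have hγ := hX.gam_pos
  have hγβ := hX.gam_le
  have hlog : 0 ≤ Real.log D := Real.log_nonneg (by linarith)
  have hlogK : 0 ≤ Real.log K := Real.log_nonneg hX.K_one
  set C : ℝ := 48 * C₁ + Real.log D + Real.log K + 1 with hC
  have hC0 : 0 ≤ C := by positivity
  refine ⟨C, gam X β / 2, ?_⟩
  refine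
    { C_nn := hC0
      γ_pos := by positivity
      γ_le := by linarith
      p_mono := ?_
      p_lim := ?_
      derL := fun k s h => hX.hasDerivAt_flowL (hX.winf_iff.1 h)
      derM := fun k s h => hX.hasDerivAt_flowM (hX.winf_iff.1 h)
      L_ge := ?_
      L_lim := ?_
      switch := ?_
      deep := ?_
      fact := ?_ }
  · intro i k hik
    exact neg_lt_neg (Real.log_lt_log (hX.T_pos k) (hX.T_anti hik))
  · have h1 : Tendsto X.T atTop (𝓝[>] 0) :=
      tendsto_nhdsWithin_iff.2 ⟨hX.T_lim, Eventually.of_forall fun k => hX.T_pos k⟩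
    exact tendsto_neg_atBot_atTop.comp (Real.tendsto_log_nhdsGT_zero.comp h1)
  · intro k s h
    have h1 := hX.le_L (hX.winf_iff.1 h)
    have h2 := hA.L_lo k s
    linarith
  · intro B
    obtain ⟨s₀, hs₀⟩ := hX.eventually_lim α ω (η := Real.exp (-(B + 1))) (Real.exp_pos _)
    refine ⟨s₀, fun k s hk hs => ?_⟩
    have hw := hX.winf_iff.1 hk
    have h1 := (hs₀ k s hk hs).2
    have h2 := hA.L_lo k s
    rw [← hX.exp_neg_L hw] at h1
    have h3 := Real.exp_le_exp.1 h1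
    linarith
  · -- switch
    refine ⟨-Real.log (X.T (k₀ + 1)), fun k hk => ?_⟩
    have hkk : k₀ ≤ k := by
      by_contra hcon
      push Not at hcon
      have h1 : X.T (k₀ + 1) < X.T (k + 1) := hX.T_anti (by omega)
      have h2 := Real.log_lt_log (hX.T_pos _) h1
      have h3 : (X.toFlow α ω).p (k + 1) = -Real.log (X.T (k + 1)) := rfl
      rw [h3] at hk
      linarith
    have hp : (X.toFlow α ω).p (k + 1) = -Real.log (X.T (k + 1)) := rfl
    have hT := hX.T_pos (k + 1)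
    have hw := hX.win_bot k
    have hw' := hX.win_top (k + 1)
    have hH := hX.H_pos k _ hw
    have hH' := hX.H_pos (k + 1) _ hw'
    have hexp : Real.exp (-(-Real.log (X.T (k + 1)))) = X.T (k + 1) := by
      rw [neg_neg, Real.exp_log hT]
    by_cases hr : X.Reg k
    · left
      obtain ⟨h1, h2⟩ := hA.step k hkk hr
      have hα := hA.α_pos k
      have hy : 1 + X.yJ k = X.H (k + 1) (X.T (k + 1)) / X.H k (X.T (k + 1)) := by
        rw [Chain.yJ]; field_simp; ring
      constructor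
      · rw [hp]
        simp only [Chain.toFlow]
        rw [hexp, h1, hy, Real.log_mul (by linarith) (by positivity),
          Real.log_div hH'.ne' hH.ne', Chain.L, Chain.L, Chain.h, Chain.h, Real.log_inv,
          Real.log_inv, Real.log_div hH'.ne' (by positivity), Real.log_div hH.ne' (by positivity)]
        ring
      · rw [hp]
        simp only [Chain.toFlow]
        rw [hexp, h1, h2, hy, Chain.xJ]
        field_simp
        ring
    · right
      rcases hX.switch k with h | ⟨l, y, h1, h2, h3, h4, h5⟩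
      · exact absurd h hr
      · have hy0 := hX.win_pos h1.1
        refine ⟨l, -Real.log y, hX.win_log h1.1, ?_, ?_, ?_, ?_⟩
        · rw [hp]; exact neg_le_neg (Real.log_le_log hT h1.2.1)
        · rw [hp]; exact hX.collar hA h1.1 hT h1.2.2
        · have h6 := hX.L_ge_of_h_le hw h1.1 (u := Real.exp (-10)) (Real.exp_pos _) (by
            rw [Real.exp_neg, ← div_eq_inv_mul, le_div_iff₀ (Real.exp_pos _)]
            linarith)
          rw [Real.log_exp] at h6
          have h7 := hA.L_up l (-Real.log y)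
          rw [neg_neg, Real.exp_log hy0] at h7
          have h8 := hA.L_lo k (-Real.log (X.T (k + 1)))
          rw [hexp] at h8
          rw [hp]
          linarith
        · have h6 := hX.L_ge_of_h_le hw' h1.1 (u := Real.exp (-10)) (Real.exp_pos _) (by
            rw [Real.exp_neg, ← div_eq_inv_mul, le_div_iff₀ (Real.exp_pos _)]
            linarith)
          rw [Real.log_exp] at h6
          have h7 := hA.L_up l (-Real.log y)
          rw [neg_neg, Real.exp_log hy0] at h7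
          have h8 := hA.L_lo (k + 1) (-Real.log (X.T (k + 1)))
          rw [hexp] at h8
          rw [hp]
          linarith
  · -- deep
    obtain ⟨s₀, hs₀⟩ := hup 1 one_pos
    refine ⟨s₀, fun k s hk hs hU i x hi hsx => ?_⟩
    obtain ⟨hw, -, -, h2, h3, h4⟩ := hs₀ k s hk hs hU
    have hwi := hX.winf_iff.1 hi
    have hs0 := hX.exp_le hk
    have hxt : Real.exp (-x) ≤ Real.exp (-s) := Real.exp_le_exp.2 (by linarith)
    have h6 := hX.bdd_of_le h4 hwi hxt
    have h8 := hX.L_ge_of_h_le hwi hw (u := D) (by linarith) h6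
    have h9 := hA.L_up k s
    have h10 := hA.L_lo i x
    have h11 := hX.L_ge_pow hwi
    have h12 : gam X β * (x - s) ≤ β * (x - s) :=
      mul_le_mul_of_nonneg_right hγβ (by linarith)
    have h13 : 0 ≤ β * s := mul_nonneg hβ.le hs0
    constructor
    · linarith
    · have h14 : 0 ≤ (X.toFlow α ω).L k s := by
        have := hX.le_L hw
        have := hA.L_lo k s
        linarith
      linarith
  · -- fact
    obtain ⟨t₀, ht₀, hraw'⟩ := hraw (1 / 200) (by norm_num)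
    obtain ⟨s₀, hs₀⟩ := hup t₀ ht₀
    refine ⟨s₀, fun k s hk hs hU => ?_⟩
    obtain ⟨hw, h1, -, h2, h3, h4⟩ := hs₀ k s hk hs hU
    obtain ⟨k1, ρ, r, hR, a1, a2, a3, a4, a5⟩ := hraw' k _ hw h1 h4
    have hs0 := hX.exp_le hk
    set t := Real.exp (-s) with ht
    have hLlo := hA.L_lo k s
    have hLup := hA.L_up k s
    rw [← ht] at hLlo hLup
    have hL10 := hX.le_L hw
    set Lf := (X.toFlow α ω).L k s with hLf
    have hLf0 : 0 < Lf := by linarith
    have hLinv : ((X.L k t)⁻¹) ^ 2 ≤ 2 * (Lf⁻¹) ^ 2 := by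
      have g1 : (X.L k t)⁻¹ ≤ 501 / 500 * Lf⁻¹ := by
        rw [← div_eq_mul_inv, le_div_iff₀ hLf0, ← div_eq_inv_mul, div_le_iff₀ (by linarith)]
        linarith
      have g2 : ((X.L k t)⁻¹) ^ 2 ≤ (501 / 500 * Lf⁻¹) ^ 2 :=
        pow_le_pow_left₀ (inv_nonneg.2 (by linarith)) g1 2
      rw [mul_pow] at g2
      have g3 : 0 ≤ (Lf⁻¹) ^ 2 := by positivity
      linarith
    have htγ : t ^ gam X β ≤ Real.exp (-(gam X β / 2 * s)) := by
      rw [ht, ← Real.exp_mul]
      refine Real.exp_le_exp.2 ?_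
      have : 0 ≤ gam X β * s := mul_nonneg hγ.le hs0
      linarith
    refine ⟨X.j k t / X.H k t, ?_⟩
    refine pt_alg (ε := C * (Real.exp (-(gam X β / 2 * s)) + (Lf⁻¹) ^ 2)) a1 a2 a3
      (by linarith) (by linarith) hR.cs hR.dH hR.da hR.gap hR.low (hA.αb k) (hA.βb k) ?_
    have e0 : 0 ≤ (Lf⁻¹) ^ 2 := by positivity
    have e0' : 0 < Real.exp (-(gam X β / 2 * s)) := Real.exp_pos _
    have e1 : 24 * k1 + 16 * ρ + 8 * r ≤ 24 * (k1 + ρ + r) := by linarith
    have e2 : C₁ * (t ^ gam X β + ((X.L k t)⁻¹) ^ 2)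
        ≤ C₁ * (Real.exp (-(gam X β / 2 * s)) + 2 * (Lf⁻¹) ^ 2) :=
      mul_le_mul_of_nonneg_left (add_le_add htγ hLinv) (by linarith)
    have e3 : 48 * C₁ ≤ C := by rw [hC]; linarith
    have e4 : 48 * C₁ * (Real.exp (-(gam X β / 2 * s)) + (Lf⁻¹) ^ 2)
        ≤ C * (Real.exp (-(gam X β / 2 * s)) + (Lf⁻¹) ^ 2) :=
      mul_le_mul_of_nonneg_right e3 (by positivity)
    have e5 : 0 ≤ C₁ * Real.exp (-(gam X β / 2 * s)) := by positivity
    linarith

end

end Vale.Agent.P214.BABS
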