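import Vale.Agent.P214.ABS.Defs

/-!
# P214, block BABS (target B): the abstract data at a point with power decay

The same abstract chains as in `ABS/Defs`.  Differences to `ABS.Chain.Good`: the curvature error
`κ t` is replaced by `κ t ^ β`; there is no superpolynomial decay, but the heights are `≤ K t ^ β`;
a window either ends because the height has dropped to its power `1 + β`, or because it is long
(`growth`).  Conclusion (`Limit`): the frequency converges along the chain to a finite number.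
-/

open Set Filter Topology

namespace Vale.Agent.P214.BABS

open ABS

noncomputable section

/-- What the geometric part has to deliver. `β` is the exponent of all power bounds. -/
structure Good (X : Chain) (β K : ℝ) : Prop where
  β_pos : 0 < β
  β_le : β ≤ 1
  K_one : 1 ≤ K
  κ_nn : 0 ≤ X.κ
  c_pos : 0 < X.c
  T_pos : ∀ k, 0 < X.T k
  T_anti : StrictAnti X.T
  T_lim : Tendsto X.T atTop (𝓝 0)
  T_one : X.T 0 ≤ 1
  hasH : ∀ k t, X.Win k t → HasDerivAt (X.H k) (X.H' k t) t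
  hasa : ∀ k t, X.Win k t → HasDerivAt (X.a k) (X.a' k t) t
  H_pos : ∀ k t, X.Win k t → 0 < X.H k t
  /-- all active heights are small (so the adaptive collars are thin) -/
  h_le : ∀ k t, X.Win k t → X.h k t ≤ Real.exp (-10)
  /-- the differential inequalities at small scales; the curvature error is `κ t ^ β` -/
  ode : ∃ t₀ > 0, ∀ k t S, X.Win k t → t ≤ t₀ → 0 < S → S ≤ t₀ → X.Bdd t S →
    Ode (X.κ * t ^ (β - 1)) (((Real.log S⁻¹)⁻¹) ^ 3 * S * t ^ 2) t (X.H k t) (X.j k t) (X.a k t)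
      (X.b k t) (X.H' k t) (X.a' k t)
  /-- power decay of the heights -/
  power : ∀ k t, X.Win k t → X.h k t ≤ K * t ^ β
  /-- the area excess tends to zero -/
  alim : ∀ η > 0, ∃ t₀ > 0, ∀ k t, X.Win k t → t ≤ t₀ → |X.a k t| ≤ η * t ^ 2
  /-- the switches, as in `ABS.Chain.Good` -/
  switch : ∀ k, X.Jump k (X.h k (X.T (k + 1))) ∧ X.h k (X.T (k + 1)) ≤ X.e k ∨
    ∃ l y, X.Near k l y ∧ X.Jump k (X.h l y) ∧ X.h l y ≤ X.e k ∧
      Real.exp 10 * X.h k (X.T (k + 1)) ≤ X.h l y ∧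
      Real.exp 10 * X.h (k + 1) (X.T (k + 1)) ≤ X.h l y
  e_pos : ∀ k, 0 < X.e k
  e_pow : ∀ k, X.e k ≤ K * X.T k ^ β
  /-- either the heights drop, or the window is long -/
  growth : ∀ k, X.e (k + 1) ≤ X.e k ^ (1 + β) ∨ X.T (k + 1) ≤ X.T k * X.e k ^ β
  /-- e.g. `e (k+1)` is the power `1/2` of a height at an active point of the collar above
  `T (k+1)` -/
  e_le : ∀ k t S, X.T (k + 1) ≤ t → X.Bdd t S → X.e (k + 1) ≤ S ^ (1 / 4 : ℝ)

/-- The conclusion: the frequency tends to `M₀`, the heights are doubling and almost monotone, and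
every dyadic interval of scales contains a pinched scale. -/
structure Limit (X : Chain) (M₀ Λ : ℝ) : Prop where
  one_lt : 1 < M₀
  le : M₀ ≤ Λ
  /-- deeper heights (and those in the collar) are not larger -/
  bdd : ∃ t₀ > 0, ∀ k t, X.Win k t → t ≤ t₀ → X.Bdd t (Λ * X.h k t)
  /-- doubling -/
  grow : ∃ t₀ > 0, ∀ k t l x, X.Win k t → t ≤ t₀ → X.Win l x → x ≤ t →
    X.h k t ≤ Λ * (t / x) ^ Λ * X.h l x
  /-- pinched scales -/
  pinch : ∀ δ > 0, ∃ t₀ > 0, ∀ t, 0 < t → t ≤ t₀ → ∃ k s, X.Win k s ∧ t ≤ s ∧ s ≤ 2 * t ∧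
    |X.a k s / X.H k s - M₀| ≤ δ ∧ |X.j k s / X.H k s - M₀| ≤ δ ∧
    X.b k s * X.H k s - X.j k s ^ 2 ≤ δ * X.H k s ^ 2
  /-- long windows: above every small scale `t`, at a bounded factor, there is a scale `t'` whose
  neighbourhood `[t'/A, A t']` lies in one window -/
  room : ∀ A ≥ 1, ∃ B ≥ 1, ∃ t₀ > 0, ∀ t, 0 < t → t ≤ t₀ → ∃ k t', t ≤ t' ∧ t' ≤ B * t ∧
    X.Win k (t' / A) ∧ X.Win k (A * t')

/-- **[B2]** -/
def B2Stmt : Prop := ∀ (X : Chain) (β K : ℝ), Good X β K → ∃ M₀ Λ, Limit X M₀ Λ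

end

end Vale.Agent.P214.BABS
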