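import Vale.Agent.P214.BABS.Max

/-!
# P214, block BABS: the flow at large depth
-/

open Set Filter Topology

namespace Vale.Agent.P214.BABS

open ABS

noncomputable section

variable {F : Flow} {C γ : ℝ} {k₁ : ℕ} {s₁ : ℝ}

theorem Start.idx (h : Start F C γ k₁ s₁) {k : ℕ} {s : ℝ} (hw : F.Win k s) (hs : s₁ < s) :
    k₁ ≤ k := by
  by_contra hcon
  push Not at hcon
  have h1 : F.p (k + 1) ≤ F.p k₁ := h.p_mono.monotone (by omega)
  have h2 := hw.2
  have h3 := h.win.1
  linarith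

theorem Start.past' (h : Start F C γ k₁ s₁) {k : ℕ} {s : ℝ} (hw : F.Win k s) (hs : s₁ < s) :
    Past F C γ k₁ s₁ k s := by
  obtain ⟨n, rfl⟩ := Nat.exists_eq_add_of_le (h.idx hw hs)
  exact h.past n s hw hs.le

theorem Start.regular' (h : Start F C γ k₁ s₁) {k : ℕ} (hs : s₁ < F.p (k + 1)) :
    F.L (k + 1) (F.p (k + 1)) = F.L k (F.p (k + 1)) ∧
      F.M (k + 1) (F.p (k + 1)) = F.M k (F.p (k + 1)) := by
  have hwk : F.Win k (F.p (k + 1)) := ⟨(h.p_mono (Nat.lt_succ_self k)).le, le_rfl⟩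
  exact h.regular (h.idx hwk hs) hs.le (h.past' hwk hs)

theorem Start.grow' (h : Start F C γ k₁ s₁) {k i : ℕ} {s x : ℝ} (hk : F.Win k s)
    (hi : F.Win i x) (hx : s₁ < x) (hxs : x ≤ s) :
    F.L k s ≤ F.L i x + 1 + 6 * Ms F k₁ s₁ * (s - x) := by
  have hs : s₁ < s := hx.trans_le hxs
  rcases Nat.lt_or_ge k i with hlt | hge
  · have h3 : F.p (k + 1) ≤ F.p i := h.p_mono.monotone (by omega)
    have h4 := hi.1
    have h5 := hk.2
    have hs' : s = F.p (k + 1) := le_antisymm h5 (by linarith)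
    have hx' : x = F.p (k + 1) := le_antisymm (by linarith) (by linarith)
    have h6 : F.p i = F.p (k + 1) := le_antisymm (by linarith) h3
    have h7 : i = k + 1 := h.p_mono.injective h6
    subst h7
    have h8 := (h.regular' (k := k) (by linarith)).1
    rw [hs', hx', h8]
    simp
  · exact h.grow (h.past' hk hs) (h.idx hk hs) hk (h.idx hi hx) hge hi hx.le hxs

/-- **the flow at large depth** -/
theorem FGood.limit (hF : FGood F C γ) : ∃ R, FLimit F R := by
  obtain ⟨k₁, s₁, -, h⟩ := hF.start 0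
  have hMs := h.Ms_ge
  refine ⟨6 * Start.Ms F k₁ s₁, by linarith, ⟨s₁ + 1, ?_⟩, ⟨s₁ + 1, ?_⟩, ⟨s₁ + 1, ?_⟩, ⟨s₁ + 1, ?_⟩⟩
  · intro k s hw hs
    exact h.up (h.idx hw (by linarith)) hw (by linarith)
  · intro k hs
    exact h.regular' (by linarith)
  · intro k s i x hk hi hx hxs
    have := h.grow' hk hi (by linarith) hxs
    linarith
  · intro k s hw hs
    have h1 := h.past' hw (by linarith)
    obtain ⟨-, h2, -⟩ := h1 k s (h.idx hw (by linarith)) le_rfl hw (by linarith) le_rfl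
    have h3 := h.M_le (by linarith) h2
    have h4 := h.up (h.idx hw (by linarith)) hw (by linarith)
    obtain ⟨N, hN⟩ := h.factS k s hw (by linarith) h4
    exact ⟨hN.Mlo, by linarith⟩

end

end Vale.Agent.P214.BABS
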