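import Vale.Agent.P214.BABS.Conv
import Vale.Agent.P214.BABS.End

/-!
# P214, block BABS: back from the flow to the chain
-/

open Set Filter Topology

namespace Vale.Agent.P214.BABS

open ABS

noncomputable section

variable {X : Chain} {β K : ℝ}

/-- the conclusions which do not need the limit of the frequency -/
structure Pre (X : Chain) (Λ : ℝ) : Prop where
  one_le : 1 ≤ Λ
  bdd : ∃ t₀ > 0, ∀ k t, X.Win k t → t ≤ t₀ → X.Bdd t (Λ * X.h k t)
  a_le : ∃ t₀ > 0, ∀ k t, X.Win k t → t ≤ t₀ → X.a k t ≤ Λ * X.H k t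
  grow : ∃ t₀ > 0, ∀ k t l x, X.Win k t → t ≤ t₀ → X.Win l x → x ≤ t →
    X.h k t ≤ Λ * (t / x) ^ Λ * X.h l x
  reg : ∃ k₁, ∀ k, k₁ ≤ k → X.Reg k

theorem le_neg_log {s₀ t : ℝ} (ht : 0 < t) (h : t ≤ Real.exp (-s₀)) : s₀ ≤ -Real.log t := by
  have := Real.log_le_log ht h
  rw [Real.log_exp] at this
  linarith

theorem Good.pre (hX : Good X β K) : ∃ Λ, Pre X Λ := by
  obtain ⟨α, ω, k₀, hA⟩ := hX.exists_adj
  obtain ⟨C, γ, hF⟩ := hX.flow hA
  obtain ⟨R, hR⟩ := hF.limit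
  obtain ⟨D, hD, hup⟩ := hX.up hA
  obtain ⟨s₁, hs₁⟩ := hR.up
  obtain ⟨s₂, hs₂⟩ := hup 1 one_pos
  obtain ⟨s₃, hs₃⟩ := hR.M_le
  obtain ⟨s₄, hs₄⟩ := hR.grow
  have hR1 := hR.one_le
  have hexp : Real.exp R ≤ Real.exp (R + 1) := Real.exp_le_exp.2 (by linarith)
  have hRexp : 1 ≤ Real.exp (R + 1) := Real.one_le_exp (by linarith)
  obtain ⟨Λ, hΛ⟩ : ∃ Λ, Λ = D + 2 * R + Real.exp (R + 1) := ⟨_, rfl⟩
  have hΛ1 : 1 ≤ Λ := by rw [hΛ]; linarith
  refine ⟨Λ, hΛ1, ⟨min (Real.exp (-s₁)) (Real.exp (-s₂)), by positivity, ?_⟩,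
    ⟨Real.exp (-s₃), Real.exp_pos _, ?_⟩, ⟨Real.exp (-s₄), Real.exp_pos _, ?_⟩, ?_⟩
  · intro k t hw ht
    have ht0 := hX.win_pos hw
    have hh := hX.h_pos hw
    have hwf : (X.toFlow α ω).Win k (-Real.log t) := hX.win_log hw
    have hU := hs₁ k _ hwf (le_neg_log ht0 (ht.trans (min_le_left _ _)))
    obtain ⟨-, -, -, -, -, h6⟩ := hs₂ k _ hwf (le_neg_log ht0 (ht.trans (min_le_right _ _))) hU
    rw [neg_neg, Real.exp_log ht0] at h6
    refine h6.mono le_rfl (mul_le_mul_of_nonneg_right ?_ hh.le)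
    rw [hΛ]; linarith
  · intro k t hw ht
    have ht0 := hX.win_pos hw
    have hH := hX.H_pos k t hw
    have hwf : (X.toFlow α ω).Win k (-Real.log t) := hX.win_log hw
    obtain ⟨-, h1⟩ := hs₃ k _ hwf (le_neg_log ht0 ht)
    simp only [Chain.toFlow] at h1
    rw [neg_neg, Real.exp_log ht0] at h1
    have hα := hA.α_pos k
    have hω := (abs_le.1 (hA.βb k)).1
    have h2 : X.a k t / X.H k t ≤ 2 * R := by
      by_contra hcon
      push Not at hcon
      have : 99 / 100 * (X.a k t / X.H k t) ≤ α k * (X.a k t / X.H k t) :=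
        mul_le_mul_of_nonneg_right hα (by linarith)
      linarith
    rw [div_le_iff₀ hH] at h2
    refine h2.trans (mul_le_mul_of_nonneg_right ?_ hH.le)
    rw [hΛ]; linarith
  · intro k t l x hk ht hl hxt
    have hx0 := hX.win_pos hl
    have ht0 := hX.win_pos hk
    have h1 := hs₄ l _ k _ (hX.win_log (α := α) (ω := ω) hl) (hX.win_log (α := α) (ω := ω) hk)
      (le_neg_log ht0 ht) (neg_le_neg (Real.log_le_log hx0 hxt))
    have h2 := hA.L_lo l (-Real.log x)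
    have h3 := hA.L_up k (-Real.log t)
    rw [neg_neg, Real.exp_log hx0] at h2
    rw [neg_neg, Real.exp_log ht0] at h3
    have h4 : X.L l x ≤ X.L k t + (R + 1) + R * (Real.log t - Real.log x) := by
      have e : -Real.log x - -Real.log t = Real.log t - Real.log x := by ring
      rw [e] at h1
      linarith
    have hq : 1 ≤ t / x := (one_le_div hx0).2 hxt
    have hq0 : 0 < t / x := by positivity
    have h5 : X.h k t ≤ Real.exp (R + 1) * (t / x) ^ R * X.h l x := by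
      rw [← hX.exp_neg_L hk, ← hX.exp_neg_L hl, Real.rpow_def_of_pos hq0, ← Real.exp_add,
        ← Real.exp_add, Real.log_div ht0.ne' hx0.ne']
      refine Real.exp_le_exp.2 ?_
      linarith
    refine h5.trans ?_
    have hh := hX.h_pos hl
    refine mul_le_mul_of_nonneg_right ?_ hh.le
    refine mul_le_mul ?_ (Real.rpow_le_rpow_of_exponent_le hq ?_) (by positivity) (by linarith)
    · rw [hΛ]; linarith
    · rw [hΛ]; linarith
  · obtain ⟨k₁, hk₁⟩ := (hX.T_lim.eventually (gt_mem_nhds (Real.exp_pos (-s₁)))).exists_forall_of_atTop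
    refine ⟨k₁, fun k hk => ?_⟩
    by_contra hr
    rcases hX.switch k with h | ⟨l, y, h1, h2, h3, h4, h5⟩
    · exact hr h
    · have hT := hX.T_pos (k + 1)
      have hw := hX.win_bot k
      have hy0 := hX.win_pos h1.1
      have hwf : (X.toFlow α ω).Win k (-Real.log (X.T (k + 1))) := hX.win_log hw
      have hU := hs₁ k _ hwf (le_neg_log hT (hk₁ (k + 1) (by omega)).le)
      have h6 := hU l (-Real.log y) (hX.win_log h1.1)
        (neg_le_neg (Real.log_le_log hT h1.2.1)) (hX.collar hA h1.1 hT h1.2.2)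
      have h7 := hX.L_ge_of_h_le hw h1.1 (u := Real.exp (-10)) (Real.exp_pos _) (by
        rw [Real.exp_neg, ← div_eq_inv_mul, le_div_iff₀ (Real.exp_pos _)]
        linarith)
      rw [Real.log_exp] at h7
      have h8 := hA.L_up l (-Real.log y)
      rw [neg_neg, Real.exp_log hy0] at h8
      have h9 := hA.L_lo k (-Real.log (X.T (k + 1)))
      rw [neg_neg, Real.exp_log hT] at h9
      linarith

/-! ### long windows -/

theorem Good.e_lim (hX : Good X β K) : Tendsto X.e atTop (𝓝 0) := by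
  have hK : 0 < K := by linarith [hX.K_one]
  have h1 : Tendsto (fun k => X.T k ^ β) atTop (𝓝 0) := by
    have := hX.T_lim.rpow_const (p := β) (Or.inr hX.β_pos.le)
    rwa [Real.zero_rpow hX.β_pos.ne'] at this
  have h2 : Tendsto (fun k => K * X.T k ^ β) atTop (𝓝 0) := by
    simpa using h1.const_mul K
  exact squeeze_zero (fun k => (hX.e_pos k).le) (fun k => hX.e_pow k) h2

/-- only boundedly many switches in a dyadic range of scales -/
theorem Good.few (hX : Good X β K) {Λ : ℝ} (hP : Pre X Λ) :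
    ∃ N : ℕ, ∀ A : ℝ, 1 ≤ A → ∃ k₀, ∀ k, k₀ ≤ k → A * X.T (k + N) ≤ X.T k := by
  have hβ := hX.β_pos
  obtain ⟨N', hN'⟩ : ∃ n : ℕ, 5 < (1 + β) ^ n :=
    pow_unbounded_of_one_lt 5 (by linarith)
  refine ⟨N' + 1, fun A hA => ?_⟩
  have hA0 : 0 < A := by linarith
  have hΛ := hP.one_le
  have hΛ0 : 0 < Λ := by linarith
  obtain ⟨t₁, ht₁, h₁⟩ := hP.bdd
  obtain ⟨t₂, ht₂, h₂⟩ := hP.grow
  obtain ⟨k₁, hk₁⟩ := hP.reg
  have hC : 0 < Λ * (Λ * A ^ Λ) := by positivity
  have he1 : Tendsto (fun k => A * X.e k ^ β) atTop (𝓝 0) := by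
    have := hX.e_lim.rpow_const (p := β) (Or.inr hβ.le)
    rw [Real.zero_rpow hβ.ne'] at this
    simpa using this.const_mul A
  have hev := ((((hX.e_lim.eventually (gt_mem_nhds one_pos)).and
    (he1.eventually (gt_mem_nhds one_pos))).and
    (hX.e_lim.eventually (gt_mem_nhds (show 0 < (Λ * (Λ * A ^ Λ))⁻¹ by positivity)))).and
    (hX.T_lim.eventually (gt_mem_nhds (show 0 < min t₁ t₂ by positivity)))).exists_forall_of_atTop
  obtain ⟨k₂, hk₂⟩ := hev
  refine ⟨max k₁ k₂ + 1, fun k hk => ?_⟩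
  obtain ⟨q, rfl⟩ : ∃ q, k = q + 1 := ⟨k - 1, by omega⟩
  have hq1 : k₁ ≤ q := by have := le_max_left k₁ k₂; omega
  have hq2 : k₂ ≤ q := by have := le_max_right k₁ k₂; omega
  by_contra hcon
  push Not at hcon
  -- all windows end by a drop
  have hdrop : ∀ n, n ≤ N' → X.e (q + 1 + n + 1) ≤ X.e (q + 1 + n) ^ (1 + β) := by
    intro n hn
    rcases hX.growth (q + 1 + n) with h | h
    · exact h
    · exfalso
      have h3 := (hk₂ (q + 1 + n) (by omega)).1.1.2
      have hT := hX.T_pos (q + 1 + n)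
      have h4 : X.T (q + 1 + (N' + 1)) ≤ X.T (q + 1 + n + 1) := hX.T_anti.antitone (by omega)
      have h5 : X.T (q + 1 + n) ≤ X.T (q + 1) := hX.T_anti.antitone (by omega)
      have h6 : A * X.T (q + 1 + (N' + 1)) ≤ X.T (q + 1 + n) * (A * X.e (q + 1 + n) ^ β) := by
        calc A * X.T (q + 1 + (N' + 1)) ≤ A * (X.T (q + 1 + n) * X.e (q + 1 + n) ^ β) :=
              mul_le_mul_of_nonneg_left (h4.trans h) hA0.le
          _ = _ := by ring
      nlinarith
  have hpow : ∀ n, n ≤ N' → X.e (q + 1 + n) ≤ X.e (q + 1) ^ ((1 + β) ^ n) := by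
    intro n
    induction n with
    | zero => intro _; simp
    | succ n ih =>
      intro hn
      have h3 := hdrop n (by omega)
      have h4 := ih (by omega)
      calc X.e (q + 1 + (n + 1)) ≤ X.e (q + 1 + n) ^ (1 + β) := h3
        _ ≤ (X.e (q + 1) ^ ((1 + β) ^ n)) ^ (1 + β) :=
          Real.rpow_le_rpow (hX.e_pos _).le h4 (by linarith)
        _ = X.e (q + 1) ^ ((1 + β) ^ (n + 1)) := by
          rw [← Real.rpow_mul (hX.e_pos _).le, pow_succ]
  have he := hX.e_pos (q + 1)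
  have h5 : X.e (q + 1 + N') ≤ X.e (q + 1) ^ 5 := by
    refine (hpow N' le_rfl).trans ?_
    rw [← Real.rpow_natCast (X.e (q + 1)) 5]
    exact Real.rpow_le_rpow_of_exponent_ge he (hk₂ (q + 1) (by omega)).1.1.1.le
      (by norm_num; exact hN'.le)
  have h6 : X.h (q + 1 + N') (X.T (q + 1 + N' + 1)) ≤ X.e (q + 1) ^ 5 :=
    ((hk₁ (q + 1 + N') (by omega)).2).trans h5
  have hT := hX.T_pos (q + 1)
  have hT' := hX.T_pos (q + 1 + N' + 1)
  have hTs := (hk₂ (q + 1) (by omega)).2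
  have hwq := hX.win_bot q
  have hB := h₁ q (X.T (q + 1)) hwq (hTs.le.trans (min_le_left _ _))
  have hhq := hX.h_pos hwq
  have h7 : X.e (q + 1) ≤ (Λ * X.h q (X.T (q + 1))) ^ (1 / 4 : ℝ) :=
    hX.e_le q _ _ le_rfl hB
  have h8 : X.e (q + 1) ^ 4 ≤ Λ * X.h q (X.T (q + 1)) := by
    calc X.e (q + 1) ^ 4 ≤ ((Λ * X.h q (X.T (q + 1))) ^ (1 / 4 : ℝ)) ^ 4 :=
          pow_le_pow_left₀ he.le h7 4
      _ = Λ * X.h q (X.T (q + 1)) := by
        rw [← Real.rpow_natCast, ← Real.rpow_mul (by positivity)]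
        norm_num
  have h9 := h₂ q (X.T (q + 1)) (q + 1 + N') (X.T (q + 1 + N' + 1)) hwq
    (hTs.le.trans (min_le_right _ _)) (hX.win_bot _) (hX.T_anti.antitone (by omega))
  have h10 : (X.T (q + 1) / X.T (q + 1 + N' + 1)) ^ Λ ≤ A ^ Λ := by
    refine Real.rpow_le_rpow (by positivity) ?_ hΛ0.le
    rw [div_le_iff₀ hT']
    exact hcon.le
  have h11 : X.e (q + 1) ^ 4 ≤ Λ * (Λ * A ^ Λ) * (X.e (q + 1) ^ 4 * X.e (q + 1)) := by
    calc X.e (q + 1) ^ 4 ≤ Λ * X.h q (X.T (q + 1)) := h8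
      _ ≤ Λ * (Λ * (X.T (q + 1) / X.T (q + 1 + N' + 1)) ^ Λ
          * X.h (q + 1 + N') (X.T (q + 1 + N' + 1))) := mul_le_mul_of_nonneg_left h9 hΛ0.le
      _ ≤ Λ * (Λ * A ^ Λ * X.e (q + 1) ^ 5) := by
        refine mul_le_mul_of_nonneg_left ?_ hΛ0.le
        refine mul_le_mul (mul_le_mul_of_nonneg_left h10 hΛ0.le) h6 ?_ (by positivity)
        exact (hX.h_pos (hX.win_bot _)).le
      _ = _ := by ring
  have h12 := (hk₂ (q + 1) (by omega)).1.2
  have h13 : Λ * (Λ * A ^ Λ) * X.e (q + 1) < 1 := by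
    calc Λ * (Λ * A ^ Λ) * X.e (q + 1) < Λ * (Λ * A ^ Λ) * (Λ * (Λ * A ^ Λ))⁻¹ :=
          mul_lt_mul_of_pos_left h12 hC
      _ = 1 := mul_inv_cancel₀ hC.ne'
  have h14 : 0 < X.e (q + 1) ^ 4 := by positivity
  nlinarith

/-- the steps between the switches -/
theorem Good.room_step (hX : Good X β K) {A t : ℝ} (hA : 1 ≤ A) (ht : 0 < t) :
    ∀ n q, X.T (q + n + 1) ≤ t → t ≤ X.T (q + n) →
      (∃ k t', t ≤ t' ∧ t' ≤ A ^ (2 * n + 1) * t ∧ X.Win k (t' / A) ∧ X.Win k (A * t')) ∨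
        X.T q ≤ A ^ (2 * (n + 1)) * t := by
  have hA0 : 0 < A := by linarith
  intro n
  induction n with
  | zero =>
    intro q h1 h2
    simp only [Nat.add_zero] at h1 h2
    by_cases h : A ^ 2 * t ≤ X.T q
    · left
      refine ⟨q, A * t, by nlinarith, by simp, ?_, ?_⟩
      · rw [mul_div_cancel_left₀ _ hA0.ne']
        exact ⟨h1, h2⟩
      · rw [← mul_assoc, ← sq]
        refine ⟨h1.trans ?_, h⟩
        have : 1 ≤ A ^ 2 := one_le_pow₀ hA
        nlinarith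
    · right
      push Not at h
      simpa using h.le
  | succ n ih =>
    intro q h1 h2
    have e1 : q + (n + 1) = q + 1 + n := by ring
    rw [e1] at h1 h2
    rcases ih (q + 1) h1 h2 with ⟨k, t', g1, g2, g3, g4⟩ | h3
    · left
      refine ⟨k, t', g1, g2.trans ?_, g3, g4⟩
      exact mul_le_mul_of_nonneg_right (pow_le_pow_right₀ hA (by omega)) ht.le
    · have hTq := hX.T_pos (q + 1)
      have htT : t ≤ X.T (q + 1) := h2.trans (hX.T_anti.antitone (by omega))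
      by_cases h : A ^ 2 * X.T (q + 1) ≤ X.T q
      · left
        refine ⟨q, A * X.T (q + 1), by nlinarith, ?_, ?_, ?_⟩
        · calc A * X.T (q + 1) ≤ A * (A ^ (2 * (n + 1)) * t) :=
                mul_le_mul_of_nonneg_left h3 hA0.le
            _ = A ^ (2 * (n + 1) + 1) * t := by ring
        · rw [mul_div_cancel_left₀ _ hA0.ne']
          exact hX.win_bot q
        · rw [← mul_assoc, ← sq]
          refine ⟨?_, h⟩
          have : 1 ≤ A ^ 2 := one_le_pow₀ hA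
          nlinarith
      · right
        push Not at h
        calc X.T q ≤ A ^ 2 * X.T (q + 1) := h.le
          _ ≤ A ^ 2 * (A ^ (2 * (n + 1)) * t) := mul_le_mul_of_nonneg_left h3 (by positivity)
          _ = A ^ (2 * (n + 1 + 1)) * t := by ring

theorem Good.room (hX : Good X β K) {Λ : ℝ} (hP : Pre X Λ) :
    ∀ A ≥ 1, ∃ B ≥ 1, ∃ t₀ > 0, ∀ t, 0 < t → t ≤ t₀ → ∃ k t', t ≤ t' ∧ t' ≤ B * t ∧
      X.Win k (t' / A) ∧ X.Win k (A * t') := by
  intro A hA
  have hA0 : 0 < A := by linarith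
  obtain ⟨N, hN⟩ := hX.few hP
  have hB : 1 ≤ A ^ (2 * (N + 1)) := one_le_pow₀ hA
  obtain ⟨k₀, hk₀⟩ := hN (A ^ (2 * (N + 1)) + 1) (by linarith)
  refine ⟨A ^ (2 * (N + 1)), hB, X.T (k₀ + N + 1), hX.T_pos _, fun t ht htT => ?_⟩
  obtain ⟨k, hk⟩ := hX.exists_win ht (htT.trans (hX.T_anti.antitone (Nat.zero_le _)))
  have hkN : k₀ + N ≤ k := by
    by_contra hcon
    push Not at hcon
    have h1 : X.T (k₀ + N) ≤ X.T (k + 1) := hX.T_anti.antitone (by omega)
    have h2 : X.T (k₀ + N + 1) < X.T (k₀ + N) := hX.T_anti (Nat.lt_succ_self _)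
    have h3 := hk.1
    linarith
  obtain ⟨q, rfl⟩ : ∃ q, k = q + N := ⟨k - N, by omega⟩
  rcases hX.room_step hA ht N q hk.1 hk.2 with ⟨l, t', g1, g2, g3, g4⟩ | h3
  · refine ⟨l, t', g1, g2.trans ?_, g3, g4⟩
    exact mul_le_mul_of_nonneg_right (pow_le_pow_right₀ hA (by omega)) ht.le
  · exfalso
    have h4 := hk₀ q (by omega)
    have h5 : A ^ (2 * (N + 1)) * t ≤ A ^ (2 * (N + 1)) * X.T (q + N) :=
      mul_le_mul_of_nonneg_left hk.2 (by positivity)
    have h6 := hX.T_pos (q + N)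
    linarith

end

end Vale.Agent.P214.BABS
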