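import Mathlib.Analysis.SpecialFunctions.Pow.Real
import Mathlib.Analysis.Calculus.Deriv.Basic
import Mathlib.Analysis.Calculus.Deriv.Inv
import Mathlib.Analysis.Calculus.MeanValue
import Mathlib.Analysis.SpecialFunctions.Log.Basic
import Mathlib.Analysis.SpecialFunctions.Exp
import Mathlib.Analysis.Complex.ExponentialBounds
import Mathlib.Topology.Algebra.InfiniteSum.NatInt
import Mathlib.Topology.Algebra.InfiniteSum.Order
import Mathlib.Tactic

/-!
# P214, block BABS: convergence of the frequency (real analysis)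

`M` is (up to summable errors and jumps) decreasing in the depth variable; its limit `M₀` is larger
than `1` because the heights decay like a power, and every depth interval of a given length contains
a point at which the derivative of `M` is small (a pinched scale).
-/

open Set Filter Topology

namespace Vale.Agent.P214.BABS

noncomputable section

/-- the facts at one depth; `l`, `q` are the derivatives of `L`, `M` -/
structure LPt (r Λ l q M N B : ℝ) : Prop where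
  M_le : M ≤ Λ
  M_ge : 1 - r ≤ M
  N_ge : M - r ≤ N
  B_ge : N ^ 2 ≤ B
  dL : l ≤ 2 * N - 2 + r
  dM : q ≤ -(2 * (N - M) * (N - 1)) - (B - N ^ 2) + r * (N + 1)

/-- the chain in the depth variable -/
structure LData (p : ℕ → ℝ) (L M L' M' N B : ℕ → ℝ → ℝ) (J : ℕ → ℝ) (C γ Λ : ℝ) : Prop where
  C_nn : 0 ≤ C
  γ_pos : 0 < γ
  p_mono : StrictMono p
  p_lim : Tendsto p atTop atTop
  J_nn : ∀ k, 0 ≤ J k
  J_sum : Summable J
  ev : ∃ s₁, ∀ k s, p k ≤ s → s ≤ p (k + 1) → s₁ ≤ s →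
    HasDerivAt (L k) (L' k s) s ∧ HasDerivAt (M k) (M' k s) s ∧ γ * s - C ≤ L k s ∧
    LPt (C * (Real.exp (-(γ * s)) + ((L k s)⁻¹) ^ 2)) Λ (L' k s) (M' k s) (M k s) (N k s) (B k s)
  jump : ∃ s₁, ∀ k, s₁ ≤ p (k + 1) →
    M (k + 1) (p (k + 1)) ≤ M k (p (k + 1)) + J k ∧
    L (k + 1) (p (k + 1)) ≤ L k (p (k + 1)) + J k

/-- the differential inequality with the defect -/
theorem LPt.star {r Λ l q M N B : ℝ} (h : LPt r Λ l q M N B) (hr : 0 ≤ r) (hr1 : r ≤ 1 / 4) :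
    q ≤ -((B - N ^ 2) + (N - M) ^ 2) + (3 * Λ + 4) * r := by
  have h1 := h.M_le
  have h2 := h.M_ge
  have h3 := h.N_ge
  have h4 := h.dM
  obtain ⟨y, hy⟩ : ∃ y, y = N - M := ⟨_, rfl⟩
  have hN : N = M + y := by rw [hy]; ring
  subst hN
  have e : -(2 * (M + y - M) * (M + y - 1)) = -(2 * y ^ 2) - 2 * y * (M - 1) := by ring
  rw [e] at h4
  have e2 : (M + y - M) ^ 2 = y ^ 2 := by ring
  rw [e2]
  have hrΛ : r * M ≤ r * Λ := mul_le_mul_of_nonneg_left h1 hr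
  have hΛ : 3 / 4 ≤ Λ := by linarith
  rcases le_total 0 y with hy0 | hy0
  · have h5 : 0 ≤ y * (M - 1 + r) := mul_nonneg hy0 (by linarith)
    nlinarith [sq_nonneg (y - 3 / 2 * r), mul_nonneg hr (sub_nonneg.2 hr1)]
  · have h6 : 0 ≤ (y + r) := by linarith
    have h7 : -(2 * y * (M - 1)) ≤ 2 * r * Λ := by
      rcases le_total 1 M with hM | hM
      · nlinarith [mul_nonneg h6 (sub_nonneg.2 hM)]
      · have : 0 ≤ (-y) * (1 - M) := mul_nonneg (by linarith) (by linarith)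
        have h8 : 0 ≤ r * Λ := mul_nonneg hr (by linarith)
        nlinarith
    nlinarith [mul_nonneg hr (neg_nonneg.2 hy0), sq_nonneg y]

/-- tails of a summable sequence -/
theorem exists_tail {J : ℕ → ℝ} (h0 : ∀ k, 0 ≤ J k) (h : Summable J) :
    ∃ T : ℕ → ℝ, (∀ k, T k = J k + T (k + 1)) ∧ (∀ k, 0 ≤ T k) ∧ Tendsto T atTop (𝓝 0) := by
  refine ⟨fun k => ∑' i, J (i + k), ?_, ?_, ?_⟩
  · intro k
    have h1 : Summable fun i => J (i + k) := (summable_nat_add_iff k).2 h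
    show ∑' i, J (i + k) = J k + ∑' i, J (i + (k + 1))
    rw [h1.tsum_eq_zero_add]
    simp only [zero_add]
    congr 1
    refine tsum_congr fun i => ?_
    congr 1
    ring
  · exact fun k => tsum_nonneg fun i => h0 _
  · exact tendsto_sum_nat_add J

section chain

variable {p : ℕ → ℝ}

/-- the index of a later point is larger -/
theorem idx_le (hp : StrictMono p) {k l : ℕ} {s x : ℝ} (hk : p k ≤ s) (hl : x ≤ p (l + 1))
    (h : s < x) : k ≤ l := by
  by_contra hcon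
  push Not at hcon
  have h1 : p (l + 1) ≤ p k := hp.monotone (by omega)
  linarith

theorem exists_win (hl : Tendsto p atTop atTop) {s : ℝ} (hs : p 0 ≤ s) :
    ∃ k, p k ≤ s ∧ s ≤ p (k + 1) := by
  classical
  have hex : ∃ l, s ≤ p (l + 1) := by
    obtain ⟨N, hN⟩ := (hl.eventually_ge_atTop s).exists_forall_of_atTop
    exact ⟨N, hN _ (by omega)⟩
  refine ⟨Nat.find hex, ?_, Nat.find_spec hex⟩
  rcases Nat.eq_zero_or_pos (Nat.find hex) with h0 | h0
  · rw [h0]; exact hs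
  · obtain ⟨n, hn⟩ := Nat.exists_eq_succ_of_ne_zero h0.ne'
    have := Nat.find_min hex (m := n) (by omega)
    push Not at this
    rw [hn]
    exact this.le

/-- a function which is decreasing on the windows and at the switches is decreasing -/
theorem chain_anti (hp : StrictMono p) {W W' : ℕ → ℝ → ℝ} {a b : ℝ}
    (hd : ∀ k s, p k ≤ s → s ≤ p (k + 1) → a ≤ s → s ≤ b → HasDerivAt (W k) (W' k s) s ∧ W' k s ≤ 0)
    (hj : ∀ k, a ≤ p (k + 1) → p (k + 1) ≤ b → W (k + 1) (p (k + 1)) ≤ W k (p (k + 1))) :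
    ∀ n k s x, p k ≤ s → s ≤ p (k + 1) → p (k + n) ≤ x → x ≤ p (k + n + 1) → a ≤ s → s ≤ x →
      x ≤ b → W (k + n) x ≤ W k s := by
  have base : ∀ k s x, p k ≤ s → s ≤ x → x ≤ p (k + 1) → a ≤ s → x ≤ b → W k x ≤ W k s := by
    intro k s x h1 h2 h3 h4 h5
    have hanti : AntitoneOn (W k) (Icc s x) := by
      refine antitoneOn_of_hasDerivWithinAt_nonpos (convex_Icc s x) (f' := W' k) ?_ ?_ ?_
      · intro z hz
        exact ((hd k z (h1.trans hz.1) (hz.2.trans h3) (h4.trans hz.1)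
          (hz.2.trans h5)).1).continuousAt.continuousWithinAt
      · intro z hz
        rw [interior_Icc] at hz
        exact ((hd k z (h1.trans hz.1.le) (hz.2.le.trans h3) (h4.trans hz.1.le)
          (hz.2.le.trans h5)).1).hasDerivWithinAt
      · intro z hz
        rw [interior_Icc] at hz
        exact (hd k z (h1.trans hz.1.le) (hz.2.le.trans h3) (h4.trans hz.1.le)
          (hz.2.le.trans h5)).2
    exact hanti (left_mem_Icc.2 h2) (right_mem_Icc.2 h2) h2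
  intro n
  induction n with
  | zero =>
    intro k s x h1 h2 h3 h4 h5 h6 h7
    exact base k s x h1 h6 h4 h5 h7
  | succ n ih =>
    intro k s x h1 h2 h3 h4 h5 h6 h7
    have h3' : p (k + n + 1) ≤ x := h3
    have hpk : s ≤ p (k + n + 1) := h2.trans (hp.monotone (by omega))
    have h8 := ih k s (p (k + n + 1)) h1 h2 (hp.monotone (by omega)) le_rfl h5 hpk (h3'.trans h7)
    have h9 := hj (k + n) (h5.trans hpk) (h3'.trans h7)
    have h10 := base (k + n + 1) (p (k + n + 1)) x le_rfl h3' h4 (h5.trans hpk) h7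
    exact h10.trans (h9.trans h8)

/-- the same for `s < x` -/
theorem chain_anti' (hp : StrictMono p) {W W' : ℕ → ℝ → ℝ} {a b : ℝ}
    (hd : ∀ k s, p k ≤ s → s ≤ p (k + 1) → a ≤ s → s ≤ b → HasDerivAt (W k) (W' k s) s ∧ W' k s ≤ 0)
    (hj : ∀ k, a ≤ p (k + 1) → p (k + 1) ≤ b → W (k + 1) (p (k + 1)) ≤ W k (p (k + 1)))
    {k l : ℕ} {s x : ℝ} (hk1 : p k ≤ s) (hk2 : s ≤ p (k + 1)) (hl1 : p l ≤ x)
    (hl2 : x ≤ p (l + 1)) (has : a ≤ s) (hsx : s < x) (hxb : x ≤ b) : W l x ≤ W k s := by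
  obtain ⟨n, rfl⟩ := Nat.exists_eq_add_of_le (idx_le hp hk1 hl2 hsx)
  exact chain_anti hp hd hj n k s x hk1 hk2 hl1 hl2 has hsx.le hxb

end chain

/-- the error form -/
theorem err_le {C γ : ℝ} (hC : 0 ≤ C) (hγ : 0 < γ) : ∃ K s₂ : ℝ, 0 ≤ K ∧ ∀ s l : ℝ, s₂ ≤ s →
    γ * s - C ≤ l → 0 ≤ C * (Real.exp (-(γ * s)) + (l⁻¹) ^ 2) ∧
      C * (Real.exp (-(γ * s)) + (l⁻¹) ^ 2) ≤ K * ((s - s₂ + 1)⁻¹) ^ 2 := by
  set g := min γ 1 with hg
  have hg0 : 0 < g := lt_min hγ one_pos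
  have hgγ : g ≤ γ := min_le_left _ _
  have hg1 : g ≤ 1 := min_le_right _ _
  refine ⟨C * (7 * (g⁻¹) ^ 2), (C + 1) / γ, by positivity, ?_⟩
  intro s l hs hl
  have hs2 : 0 ≤ (C + 1) / γ := by positivity
  set s₂ := (C + 1) / γ with hs₂
  have e1 : γ * s₂ = C + 1 := by rw [hs₂]; field_simp
  have hss : 0 ≤ s - s₂ := by linarith
  set y := g * (s - s₂ + 1) with hy
  have hy0 : 0 < y := by positivity
  have hly : y ≤ l := by
    have h1 : γ * s = γ * (s - s₂) + γ * s₂ := by ring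
    have h2 : g * (s - s₂) ≤ γ * (s - s₂) := mul_le_mul_of_nonneg_right hgγ hss
    rw [hy]
    linarith
  have h3 : (l⁻¹) ^ 2 ≤ (y⁻¹) ^ 2 :=
    pow_le_pow_left₀ (inv_nonneg.2 (hy0.le.trans hly)) (inv_anti₀ hy0 hly) 2
  have h4 : Real.exp (-(γ * s)) ≤ 6 * (y⁻¹) ^ 2 := by
    have h5 : Real.exp (-(γ * s)) ≤ Real.exp g * Real.exp (-y) := by
      rw [← Real.exp_add]
      apply Real.exp_le_exp.2
      have h6 : g * (s - s₂) ≤ γ * s := by
        calc g * (s - s₂) ≤ γ * (s - s₂) := mul_le_mul_of_nonneg_right hgγ hss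
          _ ≤ γ * s := mul_le_mul_of_nonneg_left (by linarith) hγ.le
      rw [hy]
      linarith
    have h7 : Real.exp g ≤ 3 := by
      have := Real.exp_le_exp.2 hg1
      have h8 := Real.exp_one_lt_d9
      linarith
    have h9 : Real.exp (-y) ≤ 2 * (y⁻¹) ^ 2 := by
      have h10 : y ^ 2 / 2 ≤ Real.exp y := by
        have := Real.quadratic_le_exp_of_nonneg hy0.le
        linarith
      rw [Real.exp_neg, inv_pow]
      calc (Real.exp y)⁻¹ ≤ (y ^ 2 / 2)⁻¹ := inv_anti₀ (by positivity) h10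
        _ = 2 * (y ^ 2)⁻¹ := by field_simp
    calc Real.exp (-(γ * s)) ≤ Real.exp g * Real.exp (-y) := h5
      _ ≤ 3 * (2 * (y⁻¹) ^ 2) := mul_le_mul h7 h9 (Real.exp_pos _).le (by norm_num)
      _ = 6 * (y⁻¹) ^ 2 := by ring
  have e2 : (y⁻¹) ^ 2 = (g⁻¹) ^ 2 * ((s - s₂ + 1)⁻¹) ^ 2 := by
    rw [hy, mul_inv, mul_pow]
  refine ⟨by positivity, ?_⟩
  calc C * (Real.exp (-(γ * s)) + (l⁻¹) ^ 2) ≤ C * (6 * (y⁻¹) ^ 2 + (y⁻¹) ^ 2) :=
        mul_le_mul_of_nonneg_left (by linarith) hC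
    _ = C * (7 * (g⁻¹) ^ 2) * ((s - s₂ + 1)⁻¹) ^ 2 := by rw [e2]; ring

variable {p : ℕ → ℝ} {L M L' M' N B : ℕ → ℝ → ℝ} {J : ℕ → ℝ} {C γ Λ : ℝ}

/-- the prepared chain: explicit integrable error `ρ`, its tail `E`, and the tail `T` of the jumps -/
structure Prep (p : ℕ → ℝ) (L M L' M' N B : ℕ → ℝ → ℝ) (C γ Λ a : ℝ) (E ρ : ℝ → ℝ) (T : ℕ → ℝ) :
    Prop where
  p_mono : StrictMono p
  p_lim : Tendsto p atTop atTop
  p_zero : p 0 ≤ a
  derE : ∀ s, a ≤ s → HasDerivAt E (-ρ s) s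
  E_nn : ∀ s, a ≤ s → 0 ≤ E s
  E_lim : Tendsto E atTop (𝓝 0)
  ρ_lim : Tendsto ρ atTop (𝓝 0)
  T_nn : ∀ k, 0 ≤ T k
  T_anti : Antitone T
  T_lim : Tendsto T atTop (𝓝 0)
  derL : ∀ k s, p k ≤ s → s ≤ p (k + 1) → a ≤ s → HasDerivAt (L k) (L' k s) s
  derM : ∀ k s, p k ≤ s → s ≤ p (k + 1) → a ≤ s → HasDerivAt (M k) (M' k s) s
  L_ge : ∀ k s, p k ≤ s → s ≤ p (k + 1) → a ≤ s → γ * s - C ≤ L k s
  M_ge : ∀ k s, p k ≤ s → s ≤ p (k + 1) → a ≤ s → 1 / 2 ≤ M k s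
  M_le : ∀ k s, p k ≤ s → s ≤ p (k + 1) → a ≤ s → M k s ≤ Λ
  B_ge : ∀ k s, p k ≤ s → s ≤ p (k + 1) → a ≤ s → N k s ^ 2 ≤ B k s
  dL : ∀ k s, p k ≤ s → s ≤ p (k + 1) → a ≤ s → L' k s ≤ 2 * N k s - 2 + ρ s
  dM : ∀ k s, p k ≤ s → s ≤ p (k + 1) → a ≤ s →
    M' k s ≤ -((B k s - N k s ^ 2) + (N k s - M k s) ^ 2) + ρ s
  jM : ∀ k, a ≤ p (k + 1) → M (k + 1) (p (k + 1)) + T (k + 1) ≤ M k (p (k + 1)) + T k
  jL : ∀ k, a ≤ p (k + 1) → L (k + 1) (p (k + 1)) + T (k + 1) ≤ L k (p (k + 1)) + T k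

theorem LData.prep (h : LData p L M L' M' N B J C γ Λ) :
    ∃ a E ρ T, Prep p L M L' M' N B C γ Λ a E ρ T := by
  obtain ⟨s₁, hs₁⟩ := h.ev
  obtain ⟨sj, hsj⟩ := h.jump
  obtain ⟨K, s₂, hK, herr⟩ := err_le h.C_nn h.γ_pos
  obtain ⟨T, hT1, hT2, hT3⟩ := exists_tail h.J_nn h.J_sum
  have hTa : Antitone T := antitone_nat_of_succ_le fun k => by
    have := hT1 k; have := h.J_nn k; linarith
  set K' := (3 * |Λ| + 5) * K with hK'
  have hK'0 : 0 ≤ K' := by positivity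
  have hlin : Tendsto (fun s : ℝ => s - s₂ + 1) atTop atTop :=
    tendsto_atTop_add_const_right _ _ (tendsto_atTop_add_const_right _ (-s₂) tendsto_id)
  have hinv : Tendsto (fun s : ℝ => (s - s₂ + 1)⁻¹) atTop (𝓝 0) := tendsto_inv_atTop_zero.comp hlin
  have hsm : ∀ᶠ s in atTop, K * ((s - s₂ + 1)⁻¹) ^ 2 < 1 / 4 := by
    have h1 : Tendsto (fun s : ℝ => K * ((s - s₂ + 1)⁻¹) ^ 2) atTop (𝓝 (K * 0 ^ 2)) :=
      (hinv.pow 2).const_mul K
    rw [zero_pow two_ne_zero, mul_zero] at h1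
    exact h1.eventually (gt_mem_nhds (by norm_num))
  obtain ⟨a₀, ha₀⟩ := hsm.exists_forall_of_atTop
  set a := max (max (max s₁ sj) (max s₂ a₀)) (p 0) with ha
  have has1 : s₁ ≤ a := (le_max_left _ _).trans ((le_max_left _ _).trans (le_max_left _ _))
  have hasj : sj ≤ a := (le_max_right _ _).trans ((le_max_left _ _).trans (le_max_left _ _))
  have has2 : s₂ ≤ a := (le_max_left _ _).trans ((le_max_right _ _).trans (le_max_left _ _))
  have haa : a₀ ≤ a := (le_max_right _ _).trans ((le_max_right _ _).trans (le_max_left _ _))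
  have hr : ∀ k s, p k ≤ s → s ≤ p (k + 1) → a ≤ s →
      0 ≤ C * (Real.exp (-(γ * s)) + ((L k s)⁻¹) ^ 2) ∧
      C * (Real.exp (-(γ * s)) + ((L k s)⁻¹) ^ 2) ≤ K * ((s - s₂ + 1)⁻¹) ^ 2 ∧
      C * (Real.exp (-(γ * s)) + ((L k s)⁻¹) ^ 2) ≤ 1 / 4 := by
    intro k s h1 h2 h3
    obtain ⟨-, -, h4, -⟩ := hs₁ k s h1 h2 (has1.trans h3)
    obtain ⟨h5, h6⟩ := herr s (L k s) (has2.trans h3) h4
    exact ⟨h5, h6, h6.trans (ha₀ s (haa.trans h3)).le⟩
  refine ⟨a, fun s => K' * (s - s₂ + 1)⁻¹, fun s => K' * ((s - s₂ + 1)⁻¹) ^ 2, T, ?_⟩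
  have hpos : ∀ s, a ≤ s → 0 < s - s₂ + 1 := fun s hs => by linarith
  have hΛ : Λ ≤ |Λ| := le_abs_self _
  exact
    { p_mono := h.p_mono
      p_lim := h.p_lim
      p_zero := le_max_right _ _
      derE := by
        intro s hs
        have e3 : HasDerivAt (fun s : ℝ => s - s₂ + 1) 1 s :=
          ((hasDerivAt_id s).sub_const s₂).add_const 1
        have e4 := (e3.fun_inv (hpos s hs).ne').const_mul K'
        refine e4.congr_deriv ?_
        rw [inv_pow]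
        field_simp
      E_nn := fun s hs => mul_nonneg hK'0 (inv_nonneg.2 (hpos s hs).le)
      E_lim := by simpa using hinv.const_mul K'
      ρ_lim := by simpa using (hinv.pow 2).const_mul K'
      T_nn := hT2
      T_anti := hTa
      T_lim := hT3
      derL := fun k s h1 h2 h3 => (hs₁ k s h1 h2 (has1.trans h3)).1
      derM := fun k s h1 h2 h3 => (hs₁ k s h1 h2 (has1.trans h3)).2.1
      L_ge := fun k s h1 h2 h3 => (hs₁ k s h1 h2 (has1.trans h3)).2.2.1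
      M_ge := by
        intro k s h1 h2 h3
        have h4 := (hs₁ k s h1 h2 (has1.trans h3)).2.2.2.M_ge
        have h5 := (hr k s h1 h2 h3).2.2
        linarith
      M_le := fun k s h1 h2 h3 => (hs₁ k s h1 h2 (has1.trans h3)).2.2.2.M_le
      B_ge := fun k s h1 h2 h3 => (hs₁ k s h1 h2 (has1.trans h3)).2.2.2.B_ge
      dL := by
        intro k s h1 h2 h3
        have h4 := (hs₁ k s h1 h2 (has1.trans h3)).2.2.2.dL
        have h5 := (hr k s h1 h2 h3).2.1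
        have h6 : K * ((s - s₂ + 1)⁻¹) ^ 2 ≤ K' * ((s - s₂ + 1)⁻¹) ^ 2 := by
          refine mul_le_mul_of_nonneg_right ?_ (sq_nonneg _)
          rw [hK']
          nlinarith [abs_nonneg Λ]
        show _ ≤ 2 * N k s - 2 + K' * ((s - s₂ + 1)⁻¹) ^ 2
        linarith
      dM := by
        intro k s h1 h2 h3
        have h4 := (hs₁ k s h1 h2 (has1.trans h3)).2.2.2
        obtain ⟨h5, h6, h7⟩ := hr k s h1 h2 h3
        have h8 := h4.star h5 h7
        have h9 : (3 * Λ + 4) * (C * (Real.exp (-(γ * s)) + ((L k s)⁻¹) ^ 2)) ≤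
            K' * ((s - s₂ + 1)⁻¹) ^ 2 := by
          rw [hK', mul_assoc]
          refine mul_le_mul (by linarith) h6 h5 ?_
          positivity
        show _ ≤ _ + K' * ((s - s₂ + 1)⁻¹) ^ 2
        linarith
      jM := by
        intro k hk
        have h1 := (hsj k (hasj.trans hk)).1
        have h2 := hT1 k
        linarith
      jL := by
        intro k hk
        have h1 := (hsj k (hasj.trans hk)).2
        have h2 := hT1 k
        linarith }

namespace Prep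

variable {a : ℝ} {E ρ : ℝ → ℝ} {T : ℕ → ℝ}

/-- the Lyapunov function -/
def V (M : ℕ → ℝ → ℝ) (E : ℝ → ℝ) (T : ℕ → ℝ) (k : ℕ) (s : ℝ) : ℝ := M k s + E s + T k

theorem hasDerivAt_V (h : Prep p L M L' M' N B C γ Λ a E ρ T) {k : ℕ} {s : ℝ} (h1 : p k ≤ s)
    (h2 : s ≤ p (k + 1)) (h3 : a ≤ s) : HasDerivAt (V M E T k) (M' k s - ρ s) s := by
  have := ((h.derM k s h1 h2 h3).add (h.derE s h3)).add_const (T k)
  exact this

theorem V_der (h : Prep p L M L' M' N B C γ Λ a E ρ T) {k : ℕ} {s : ℝ} (h1 : p k ≤ s)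
    (h2 : s ≤ p (k + 1)) (h3 : a ≤ s) :
    M' k s - ρ s ≤ -((B k s - N k s ^ 2) + (N k s - M k s) ^ 2) := by
  have := h.dM k s h1 h2 h3
  linarith

theorem V_anti (h : Prep p L M L' M' N B C γ Λ a E ρ T) {k l : ℕ} {s x : ℝ} (hk1 : p k ≤ s)
    (hk2 : s ≤ p (k + 1)) (hl1 : p l ≤ x) (hl2 : x ≤ p (l + 1)) (has : a ≤ s) (hsx : s < x) :
    V M E T l x ≤ V M E T k s := by
  refine chain_anti' h.p_mono (W := V M E T) (W' := fun k s => M' k s - ρ s) (a := a) (b := x)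
    ?_ ?_ hk1 hk2 hl1 hl2 has hsx le_rfl
  · intro k s h1 h2 h3 _
    refine ⟨h.hasDerivAt_V h1 h2 h3, (h.V_der h1 h2 h3).trans ?_⟩
    have := h.B_ge k s h1 h2 h3
    nlinarith [sq_nonneg (N k s - M k s)]
  · intro k h1 _
    have := h.jM k h1
    simp only [V]
    linarith

/-- **the limit** -/
theorem exists_lim (h : Prep p L M L' M' N B C γ Λ a E ρ T) : ∃ M₀,
    (∀ k s, p k ≤ s → s ≤ p (k + 1) → a ≤ s → M₀ ≤ V M E T k s) ∧
    ∀ ε > 0, ∃ s₀, a ≤ s₀ ∧ ∀ k s, p k ≤ s → s ≤ p (k + 1) → s₀ ≤ s → V M E T k s ≤ M₀ + ε := by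
  set S : Set ℝ := {v | ∃ k s, p k ≤ s ∧ s ≤ p (k + 1) ∧ a ≤ s ∧ v = V M E T k s} with hS
  have hbdd : BddBelow S := by
    refine ⟨0, ?_⟩
    rintro v ⟨k, s, h1, h2, h3, rfl⟩
    have h4 := h.M_ge k s h1 h2 h3
    have h5 := h.E_nn s h3
    have h6 := h.T_nn k
    simp only [V]
    linarith
  obtain ⟨k₀, hk1, hk2⟩ := exists_win h.p_lim h.p_zero
  have hne : S.Nonempty := ⟨_, k₀, a, hk1, hk2, le_rfl, rfl⟩
  refine ⟨sInf S, fun k s h1 h2 h3 => csInf_le hbdd ⟨k, s, h1, h2, h3, rfl⟩, ?_⟩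
  intro ε hε
  obtain ⟨v, ⟨k, s, h1, h2, h3, rfl⟩, hv⟩ := exists_lt_of_csInf_lt hne
    (show sInf S < sInf S + ε by linarith)
  refine ⟨s + 1, by linarith, fun l x hl1 hl2 hx => ?_⟩
  exact (h.V_anti h1 h2 hl1 hl2 h3 (by linarith)).trans hv.le

/-- `V - M` is small -/
theorem V_sub (h : Prep p L M L' M' N B C γ Λ a E ρ T) {ε : ℝ} (hε : 0 < ε) : ∃ s₀, a ≤ s₀ ∧
    ∀ k s, p k ≤ s → s ≤ p (k + 1) → s₀ ≤ s →
      M k s ≤ V M E T k s ∧ V M E T k s ≤ M k s + ε ∧ ρ s ≤ ε := by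
  obtain ⟨k₀, hk₀⟩ := (h.T_lim.eventually (gt_mem_nhds (half_pos hε))).exists_forall_of_atTop
  obtain ⟨a₁, ha₁⟩ := (h.E_lim.eventually (gt_mem_nhds (half_pos hε))).exists_forall_of_atTop
  obtain ⟨a₂, ha₂⟩ := (h.ρ_lim.eventually (gt_mem_nhds hε)).exists_forall_of_atTop
  refine ⟨max (max a a₁) (max a₂ (p k₀ + 1)), (le_max_left _ _).trans (le_max_left _ _), ?_⟩
  intro k s h1 h2 h3
  have g1 : a ≤ s := ((le_max_left _ _).trans (le_max_left _ _)).trans h3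
  have g2 : a₁ ≤ s := ((le_max_right _ _).trans (le_max_left _ _)).trans h3
  have g3 : a₂ ≤ s := ((le_max_left _ _).trans (le_max_right _ _)).trans h3
  have g4 : p k₀ + 1 ≤ s := ((le_max_right _ _).trans (le_max_right _ _)).trans h3
  have hk : k₀ ≤ k := idx_le h.p_mono (s := p k₀) le_rfl h2 (by linarith)
  have e1 := hk₀ k hk
  have e2 := ha₁ s g2
  have e3 := ha₂ s g3
  have e4 := h.E_nn s g1
  have e5 := h.T_nn k
  refine ⟨?_, ?_, e3.le⟩
  · simp only [V]; linarith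
  · simp only [V]; linarith

end Prep

/-- **[B2], real analysis part.** -/
theorem LData.lim (h : LData p L M L' M' N B J C γ Λ) : ∃ M₀, 1 + γ / 2 ≤ M₀ ∧ M₀ ≤ Λ ∧
    (∀ ε > 0, ∃ s₀, ∀ k s, p k ≤ s → s ≤ p (k + 1) → s₀ ≤ s → |M k s - M₀| ≤ ε) ∧
    (∀ ℓ > 0, ∀ δ > 0, ∃ s₀, ∀ s, s₀ ≤ s → ∃ k x, p k ≤ x ∧ x ≤ p (k + 1) ∧ s ≤ x ∧ x ≤ s + ℓ ∧
      |M k x - M₀| ≤ δ ∧ |N k x - M₀| ≤ δ ∧ B k x - N k x ^ 2 ≤ δ) := by
  obtain ⟨a, E, ρ, T, P⟩ := h.prep
  obtain ⟨M₀, hM1, hM2⟩ := P.exists_lim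
  -- convergence, with more information
  have hconv : ∀ ε > 0, ∃ s₀, a ≤ s₀ ∧ ∀ k s, p k ≤ s → s ≤ p (k + 1) → s₀ ≤ s →
      |M k s - M₀| ≤ ε ∧ Prep.V M E T k s ≤ M₀ + ε ∧ ρ s ≤ ε := by
    intro ε hε
    obtain ⟨s₀, hs₀, h1⟩ := hM2 ε hε
    obtain ⟨s₁, hs₁, h2⟩ := P.V_sub hε
    refine ⟨max s₀ s₁, hs₀.trans (le_max_left _ _), fun k s g1 g2 g3 => ?_⟩
    have e1 := h1 k s g1 g2 ((le_max_left _ _).trans g3)
    obtain ⟨e2, e3, e4⟩ := h2 k s g1 g2 ((le_max_right _ _).trans g3)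
    have e5 := hM1 k s g1 g2 (hs₀.trans ((le_max_left _ _).trans g3))
    refine ⟨abs_le.2 ⟨by linarith, by linarith⟩, e1, e4⟩
  have hex : ∀ s, a ≤ s → ∃ k, p k ≤ s ∧ s ≤ p (k + 1) := fun s hs =>
    exists_win P.p_lim (P.p_zero.trans hs)
  refine ⟨M₀, ?_, ?_, ?_, ?_⟩
  · -- the limit is larger than one
    by_contra hcon
    push Not at hcon
    set ε := (γ - 2 * (M₀ - 1)) / 6 with hε
    have hε0 : 0 < ε := by rw [hε]; linarith
    have hγε : γ = 2 * (M₀ - 1) + 6 * ε := by rw [hε]; ring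
    obtain ⟨s₀, has₀, hs₀⟩ := hconv ε hε0
    obtain ⟨k, hk1, hk2⟩ := hex s₀ has₀
    set c := 2 * (M₀ - 1) + 4 * ε with hc
    set G : ℕ → ℝ → ℝ := fun k s => (L k s + T k) + ε⁻¹ * Prep.V M E T k s - c * s with hG
    have hanti : ∀ l x, p l ≤ x → x ≤ p (l + 1) → s₀ < x → G l x ≤ G k s₀ := by
      intro l x hl1 hl2 hx
      refine chain_anti' P.p_mono (W := G) (a := s₀) (b := x)
        (W' := fun k s => L' k s + ε⁻¹ * (M' k s - ρ s) - c) ?_ ?_ hk1 hk2 hl1 hl2 le_rfl hx le_rfl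
      · intro i z g1 g2 g3 _
        have g3' : a ≤ z := has₀.trans g3
        constructor
        · have d1 := (P.derL i z g1 g2 g3').add_const (T i)
          have d2 := (P.hasDerivAt_V g1 g2 g3').const_mul ε⁻¹
          have d3 := (hasDerivAt_id z).const_mul c
          refine ((d1.add d2).sub d3).congr_deriv ?_
          ring
        · obtain ⟨f1, f2, f3⟩ := hs₀ i z g1 g2 g3
          have f4 := P.dL i z g1 g2 g3'
          have f5 := P.V_der g1 g2 g3'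
          have f6 := P.B_ge i z g1 g2 g3'
          have f7 := (abs_le.1 f1).2
          have f8 : ε⁻¹ * (M' i z - ρ z) ≤ ε⁻¹ * (-(N i z - M i z) ^ 2) :=
            mul_le_mul_of_nonneg_left (by linarith) (inv_nonneg.2 hε0.le)
          have f9 : 2 * (N i z - M i z) + ε⁻¹ * (-(N i z - M i z) ^ 2) ≤ ε := by
            have f10 : 0 ≤ ε⁻¹ * (N i z - M i z - ε) ^ 2 := by positivity
            have f11 : ε⁻¹ * (N i z - M i z - ε) ^ 2 = ε⁻¹ * (N i z - M i z) ^ 2 -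
                2 * (N i z - M i z) + ε := by
              field_simp
              ring
            linarith
          show L' i z + ε⁻¹ * (M' i z - ρ z) - c ≤ 0
          rw [hc]
          linarith
      · intro i g1 g2
        have f1 := P.jM i (has₀.trans g1)
        have f2 := P.jL i (has₀.trans g1)
        have f3 : ε⁻¹ * Prep.V M E T (i + 1) (p (i + 1)) ≤ ε⁻¹ * Prep.V M E T i (p (i + 1)) := by
          refine mul_le_mul_of_nonneg_left ?_ (inv_nonneg.2 hε0.le)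
          simp only [Prep.V]
          linarith
        simp only [hG]
        linarith
    -- contradiction at large depth
    obtain ⟨x, hx1, hx2⟩ : ∃ x, s₀ < x ∧ (G k s₀ + C) / (2 * ε) < x := by
      refine ⟨max s₀ ((G k s₀ + C) / (2 * ε)) + 1, ?_, ?_⟩
      · have := le_max_left s₀ ((G k s₀ + C) / (2 * ε)); linarith
      · have := le_max_right s₀ ((G k s₀ + C) / (2 * ε)); linarith
    have hax : a ≤ x := has₀.trans hx1.le
    obtain ⟨l, hl1, hl2⟩ := hex x hax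
    have e1 := hanti l x hl1 hl2 hx1
    have e2 := P.L_ge l x hl1 hl2 hax
    have e3 := P.T_nn l
    have e4 : 0 ≤ ε⁻¹ * Prep.V M E T l x := by
      refine mul_nonneg (inv_nonneg.2 hε0.le) ?_
      have f1 := P.M_ge l x hl1 hl2 hax
      have f2 := P.E_nn x hax
      simp only [Prep.V]
      linarith
    have e5 : G l x = (L l x + T l) + ε⁻¹ * Prep.V M E T l x - c * x := rfl
    rw [div_lt_iff₀ (by positivity)] at hx2
    have e6 : γ * x = c * x + 2 * ε * x := by rw [hγε, hc]; ring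
    linarith
  · -- the upper bound
    by_contra hcon
    push Not at hcon
    obtain ⟨s₀, has₀, hs₀⟩ := hconv ((M₀ - Λ) / 2) (by linarith)
    obtain ⟨k, hk1, hk2⟩ := hex s₀ has₀
    have e1 := (abs_le.1 (hs₀ k s₀ hk1 hk2 le_rfl).1).1
    have e2 := P.M_le k s₀ hk1 hk2 has₀
    linarith
  · intro ε hε
    obtain ⟨s₀, -, hs₀⟩ := hconv ε hε
    exact ⟨s₀, fun k s h1 h2 h3 => (hs₀ k s h1 h2 h3).1⟩
  · intro ℓ hℓ δ hδ
    set δ₁ := min δ ((δ / 2) ^ 2) with hδ₁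
    have hδ₁0 : 0 < δ₁ := lt_min hδ (by positivity)
    set η := min (δ₁ * ℓ / 2) (δ / 2) with hη
    have hη0 : 0 < η := lt_min (by positivity) (by positivity)
    obtain ⟨s₀, has₀, hs₀⟩ := hconv η hη0
    refine ⟨s₀, fun s hs => ?_⟩
    have has : a ≤ s := has₀.trans hs
    have key : ∃ k x, p k ≤ x ∧ x ≤ p (k + 1) ∧ s ≤ x ∧ x ≤ s + ℓ ∧
        (B k x - N k x ^ 2) + (N k x - M k x) ^ 2 ≤ δ₁ := by
      by_contra hcon
      push Not at hcon
      obtain ⟨k, hk1, hk2⟩ := hex s has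
      obtain ⟨l, hl1, hl2⟩ := hex (s + ℓ) (by linarith)
      have hW := chain_anti' P.p_mono (W := fun k s => Prep.V M E T k s + δ₁ * s) (a := s)
        (b := s + ℓ) (W' := fun k s => (M' k s - ρ s) + δ₁) ?_ ?_ hk1 hk2 hl1 hl2 le_rfl
        (by linarith) le_rfl
      · have e1 := hM1 l (s + ℓ) hl1 hl2 (by linarith)
        have e2 := (hs₀ k s hk1 hk2 hs).2.1
        have e3 : η ≤ δ₁ * ℓ / 2 := min_le_left _ _
        have e4 : 0 < δ₁ * ℓ := by positivity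
        linarith
      · intro i z g1 g2 g3 g4
        refine ⟨?_, ?_⟩
        · have d1 := P.hasDerivAt_V g1 g2 (has.trans g3)
          have d2 := (hasDerivAt_id z).const_mul δ₁
          refine (d1.add d2).congr_deriv ?_
          ring
        · have f1 := P.V_der g1 g2 (has.trans g3)
          have f2 := hcon i z g1 g2 g3 g4
          show (M' i z - ρ z) + δ₁ ≤ 0
          linarith
      · intro i g1 g2
        have f1 := P.jM i (has.trans g1)
        simp only [Prep.V]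
        linarith
    obtain ⟨k, x, hk1, hk2, hx1, hx2, hD⟩ := key
    have e1 := (hs₀ k x hk1 hk2 (hs.trans hx1)).1
    have e2 := P.B_ge k x hk1 hk2 (has.trans hx1)
    have e3 : η ≤ δ / 2 := min_le_right _ _
    have e4 : δ₁ ≤ δ := min_le_left _ _
    have e5 : δ₁ ≤ (δ / 2) ^ 2 := min_le_right _ _
    have e6 : |N k x - M k x| ≤ δ / 2 := by
      apply abs_le_of_sq_le_sq _ (by positivity)
      linarith
    refine ⟨k, x, hk1, hk2, hx1, hx2, by linarith, ?_, ?_⟩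
    · have := abs_add_le (N k x - M k x) (M k x - M₀)
      have e7 : N k x - M k x + (M k x - M₀) = N k x - M₀ := by ring
      rw [e7] at this
      linarith
    · have := sq_nonneg (N k x - M k x)
      linarith

end

end Vale.Agent.P214.BABS
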