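import Vale.Agent.P214.BABS.Defs
import Mathlib.Analysis.SpecialFunctions.Pow.Continuity

/-!
# P214, Target B: windows are longer than any constant factor

`long_of_drop`: from doubling (`Limit.grow`), if every window ends by a drop of the height to its
power `1 + γ`, or is long, then `T k / T (k+1) → ∞`.
`exists_window`: consequently every small scale `t` can be enlarged to `t' ∈ [t, a b t]` such that
`[t'/a, b t']` lies in one window.
-/

open Set Filter Topology

namespace Vale.Agent.P214.BABS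

open ABS

/-- windows longer than any constant factor -/
def Long (X : Chain) : Prop := ∀ A : ℝ, ∀ᶠ k in atTop, A * X.T (k + 1) ≤ X.T k

lemma exists_window {X : Chain} (hpos : ∀ k, 0 < X.T k) (hanti : StrictAnti X.T)
    (hlim : Tendsto X.T atTop (𝓝 0)) (hlong : Long X) {a b : ℝ} (ha : 1 ≤ a) (hb : 1 ≤ b) :
    ∃ t₀ > 0, ∀ t, 0 < t → t ≤ t₀ → ∃ k t', t ≤ t' ∧ t' ≤ a * b * t ∧ X.T (k + 1) ≤ t' / a ∧
      b * t' ≤ X.T k := by
  obtain ⟨n, hn⟩ := eventually_atTop.1 ((hlong (a * a * b)).and (hlong (a * b * b)))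
  have ha0 : 0 < a := by linarith
  have hb0 : 0 < b := by linarith
  refine ⟨X.T (n + 2), hpos _, fun t ht htn => ?_⟩
  -- the window of `t`
  have hex : ∃ k, X.T k ≤ t := by
    have := (hlim.eventually (gt_mem_nhds ht)).exists
    obtain ⟨k, hk⟩ := this
    exact ⟨k, hk.le⟩
  classical
  have hj1 : X.T (Nat.find hex) ≤ t := Nat.find_spec hex
  have hmin : ∀ l, l < Nat.find hex → t < X.T l := fun l hl => not_le.1 (Nat.find_min hex hl)
  generalize Nat.find hex = j at hj1 hmin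
  have hjn : n + 2 ≤ j := by
    by_contra hc
    have hc' : j < n + 2 := not_le.1 hc
    have h2 := hanti hc'
    linarith
  obtain ⟨i, rfl⟩ : ∃ i, j = i + 2 := ⟨j - 2, by omega⟩
  have hti : t < X.T (i + 1) := hmin _ (by omega)
  have hni : n ≤ i := by omega
  have h1 := hn i hni
  have h2 := hn (i + 1) (by omega)
  have hab : 1 ≤ a * b := by nlinarith
  by_cases hc2 : t / a < X.T (i + 2)
  · refine ⟨i + 1, a * t, by nlinarith, ?_, ?_, ?_⟩
    · have : 0 < a * t := by positivity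
      nlinarith
    · rw [mul_div_cancel_left₀ _ ha0.ne']; exact hj1
    · rw [div_lt_iff₀ ha0] at hc2
      calc b * (a * t) ≤ b * (a * (X.T (i + 2) * a)) := by gcongr
        _ = a * a * b * X.T (i + 1 + 1) := by ring
        _ ≤ _ := h2.1
  · by_cases hc3 : b * t ≤ X.T (i + 1)
    · exact ⟨i + 1, t, le_rfl, by nlinarith, not_lt.1 hc2, hc3⟩
    · refine ⟨i, a * b * t, by nlinarith, le_rfl, ?_, ?_⟩
      · rw [mul_assoc, mul_div_cancel_left₀ _ ha0.ne']; exact (not_le.1 hc3).le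
      · calc b * (a * b * t) ≤ b * (a * b * X.T (i + 1)) := by gcongr
          _ = a * b * b * X.T (i + 1) := by ring
          _ ≤ _ := h1.2

/-- **Windows are long** -/
theorem long_of_drop {X : Chain} {β K M₀ Λ γ : ℝ} (hX : Good X β K) (hL : Limit X M₀ Λ)
    (hγ : 0 < γ)
    (hdrop : ∀ᶠ k in atTop, (∃ t, X.Win k t ∧ X.h k (X.T (k + 1)) ≤ X.h k t ^ (1 + γ)) ∨
      X.T (k + 1) ≤ X.T k * X.e k ^ γ) : Long X := by
  intro A₀
  set A := max A₀ 1 with hA
  have hA1 : 1 ≤ A := le_max_right _ _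
  have hA0 : 0 < A := by linarith
  have hΛ : 1 ≤ Λ := hL.one_lt.le.trans hL.le
  have hΛ0 : 0 < Λ := by linarith
  have hK0 : 0 < K := lt_of_lt_of_le one_pos hX.K_one
  obtain ⟨t₀, ht₀, hgrow⟩ := hL.grow
  -- the power bound at the top of the window tends to zero
  have hlim1 : Tendsto (fun k => (K * X.T k ^ β) ^ γ) atTop (𝓝 0) := by
    have h1 : Tendsto (fun k => X.T k ^ β) atTop (𝓝 (0 ^ β)) :=
      hX.T_lim.rpow_const (Or.inr hX.β_pos.le)
    rw [Real.zero_rpow hX.β_pos.ne'] at h1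
    have h2 := (h1.const_mul K).rpow_const (p := γ) (Or.inr hγ.le)
    rwa [mul_zero, Real.zero_rpow hγ.ne'] at h2
  have hC : 0 < Λ * A ^ Λ := by positivity
  have hev1 : ∀ᶠ k in atTop, (K * X.T k ^ β) ^ γ < (Λ * A ^ Λ)⁻¹ :=
    hlim1.eventually (gt_mem_nhds (by positivity))
  have hev2 : ∀ᶠ k in atTop, (K * X.T k ^ β) ^ γ < A⁻¹ :=
    hlim1.eventually (gt_mem_nhds (by positivity))
  have hev3 : ∀ᶠ k in atTop, X.T k < t₀ := hX.T_lim.eventually (gt_mem_nhds ht₀)
  filter_upwards [hdrop, hev1, hev2, hev3] with k h1 h2 h3 h4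
  have hTk := hX.T_pos k
  have hTk1 := hX.T_pos (k + 1)
  suffices h : A * X.T (k + 1) ≤ X.T k from
    (mul_le_mul_of_nonneg_right (le_max_left _ _) hTk1.le).trans h
  by_contra hc
  have hc' : X.T k < A * X.T (k + 1) := not_le.1 hc
  rcases h1 with ⟨t, ht, hdt⟩ | hlong
  · have hw : X.Win k (X.T (k + 1)) := ⟨le_rfl, (hX.T_anti (Nat.lt_succ_self k)).le⟩
    have htk : t ≤ t₀ := ht.2.trans h4.le
    have ht0 : 0 < t := hTk1.trans_le ht.1
    have h5 := hgrow k t k (X.T (k + 1)) ht htk hw ht.1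
    have hH := hX.H_pos k t ht
    have hh : 0 < X.h k t := div_pos hH (by positivity)
    have h6 : X.h k t ≤ K * t ^ β := hX.power k t ht
    have h7 : t ^ β ≤ X.T k ^ β := Real.rpow_le_rpow ht0.le ht.2 hX.β_pos.le
    have h8 : X.h k t ^ γ ≤ (K * X.T k ^ β) ^ γ :=
      Real.rpow_le_rpow hh.le (h6.trans (by gcongr)) hγ.le
    have h9 : (t / X.T (k + 1)) ^ Λ ≤ A ^ Λ := by
      refine Real.rpow_le_rpow (by positivity) ?_ hΛ0.le
      rw [div_le_iff₀ hTk1]
      exact ht.2.trans hc'.le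
    have h10 : X.h k t ≤ Λ * A ^ Λ * (X.h k t * X.h k t ^ γ) := by
      calc X.h k t ≤ Λ * (t / X.T (k + 1)) ^ Λ * X.h k (X.T (k + 1)) := h5
        _ ≤ Λ * A ^ Λ * (X.h k t ^ (1 + γ)) := by
            have h0 : 0 ≤ X.h k t ^ (1 + γ) := Real.rpow_nonneg hh.le _
            exact mul_le_mul (mul_le_mul_of_nonneg_left h9 hΛ0.le) hdt
              (div_nonneg (hX.H_pos k _ hw).le (by positivity)) hC.le
        _ = _ := by rw [Real.rpow_add hh, Real.rpow_one]
    have h11 : Λ * A ^ Λ * X.h k t ^ γ < 1 := by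
      calc Λ * A ^ Λ * X.h k t ^ γ ≤ Λ * A ^ Λ * (K * X.T k ^ β) ^ γ := by gcongr
        _ < Λ * A ^ Λ * (Λ * A ^ Λ)⁻¹ := by gcongr
        _ = 1 := mul_inv_cancel₀ hC.ne'
    have h12 : Λ * A ^ Λ * (X.h k t * X.h k t ^ γ) = X.h k t * (Λ * A ^ Λ * X.h k t ^ γ) := by
      ring
    rw [h12] at h10
    nlinarith
  · have h5 : X.e k ^ γ ≤ (K * X.T k ^ β) ^ γ :=
      Real.rpow_le_rpow (hX.e_pos k).le (hX.e_pow k) hγ.le
    have h6 : A * X.e k ^ γ < 1 := by
      calc A * X.e k ^ γ ≤ A * (K * X.T k ^ β) ^ γ := by gcongr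
        _ < A * A⁻¹ := by gcongr
        _ = 1 := mul_inv_cancel₀ hA0.ne'
    have h7 : A * X.T (k + 1) ≤ X.T k := by
      calc A * X.T (k + 1) ≤ A * (X.T k * X.e k ^ γ) := by gcongr
        _ = X.T k * (A * X.e k ^ γ) := by ring
        _ ≤ X.T k * 1 := by gcongr
        _ = X.T k := mul_one _
    exact hc h7

end Vale.Agent.P214.BABS
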