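import Vale.Agent.P214.BABS.Base
import Mathlib.Analysis.SpecialFunctions.Pow.Deriv

/-!
# P214, block BABS: the lower bound of the area excess, `a ≥ H - C (t^γ + (log 1/S)⁻²) S t²`
-/

open Set Filter Topology

namespace Vale.Agent.P214.BABS

open ABS

noncomputable section

variable {X : Chain} {β K : ℝ}

namespace Good

theorem hasDerivAt_f (hX : Good X β K) {i : ℕ} {x : ℝ} (hix : X.Win i x) :
    HasDerivAt (X.f i) (X.f' i x) x := by
  have hx : 0 < x := hX.win_pos hix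
  have h0 : HasDerivAt (fun x => X.H i x - X.a i x) (X.H' i x - X.a' i x) x :=
    (hX.hasH i x hix).sub (hX.hasa i x hix)
  have h1 := h0.div (hasDerivAt_pow 2 x) (by positivity)
  refine h1.congr_deriv ?_
  simp only [Chain.f', Nat.cast_ofNat, Nat.add_one_sub_one, pow_one]
  field_simp

/-- pointwise inequality -/
theorem f'_le (hX : Good X β K) {i : ℕ} {z δ Y q : ℝ} (hw : X.Win i z) (hq0 : 0 ≤ q * z)
    (hq : q * z ≤ 1) (ho : Ode q δ z (X.H i z) (X.j i z) (X.a i z) (X.b i z) (X.H' i z) (X.a' i z))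
    (hδ : δ ≤ Y * z ^ 2) (hf0 : 0 ≤ X.f i z) :
    z * X.f' i z ≤ 7 * (q * z) * (X.h i z + X.f i z) + 2 * Y := by
  have hz0 : 0 < z := hX.win_pos hw
  have hz2 : 0 < z ^ 2 := by positivity
  have h1 := Chain.ode_W hz0 hq0 hq ho
  have e1 : z * X.f' i z = (z * (X.H' i z - X.a' i z) - 2 * (X.H i z - X.a i z)) / z ^ 2 := by
    simp only [Chain.f']
    field_simp
  have e2 : X.f i z * z ^ 2 = X.H i z - X.a i z := by
    simp only [Chain.f]
    rw [div_mul_cancel₀ _ hz2.ne']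
  have e3 : max (X.H i z - X.a i z) 0 = X.f i z * z ^ 2 := by
    rw [← e2]
    exact max_eq_left (mul_nonneg hf0 hz2.le)
  have e5 : X.H i z = X.h i z * z ^ 2 := by
    simp only [Chain.h]
    rw [div_mul_cancel₀ _ hz2.ne']
  rw [e1, div_le_iff₀ hz2]
  rw [e3] at h1
  calc z * (X.H' i z - X.a' i z) - 2 * (X.H i z - X.a i z)
      ≤ 7 * (q * z) * (X.H i z + X.f i z * z ^ 2) + 2 * δ := h1
    _ ≤ 7 * (q * z) * (X.H i z + X.f i z * z ^ 2) + 2 * (Y * z ^ 2) := by linarith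
    _ = 7 * (q * z) * (X.h i z * z ^ 2 + X.f i z * z ^ 2) + 2 * (Y * z ^ 2) := by rw [e5]
    _ = _ := by ring

/-- jumps of `f` -/
theorem f_jump (hX : Good X β K) {i : ℕ} {g : ℝ} (hg : X.Jump i g) :
    X.f i (X.T (i + 1)) ≤ X.f (i + 1) (X.T (i + 1)) + 2 * g ^ (1 + X.c) := by
  have hT := hX.T_pos (i + 1)
  have hT2 : 0 < X.T (i + 1) ^ 2 := by positivity
  have e1 := (abs_le.1 hg.1).1
  have e2 := (abs_le.1 hg.2).2
  simp only [Chain.f]
  calc (X.H i (X.T (i + 1)) - X.a i (X.T (i + 1))) / X.T (i + 1) ^ 2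
      ≤ (X.H (i + 1) (X.T (i + 1)) - X.a (i + 1) (X.T (i + 1))
        + 2 * (X.T (i + 1) ^ 2 * g ^ (1 + X.c))) / X.T (i + 1) ^ 2 := by
        gcongr
        linarith
    _ = _ := by field_simp

end Good

/-- the barrier -/
def bar (β K t S D₁ D₂ x : ℝ) : ℝ := D₁ * x ^ β + D₂ * ((ell β K t S x)⁻¹) ^ 2

/-- its derivative -/
def bar' (β K t S D₁ D₂ x : ℝ) : ℝ :=
  D₁ * (β * x ^ (β - 1)) + D₂ * (2 * ((ell β K t S x)⁻¹) * ((β / x) / (ell β K t S x) ^ 2))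

theorem hasDerivAt_bar {t S D₁ D₂ x : ℝ} (hx : 0 < x) (hl : 0 < ell β K t S x) :
    HasDerivAt (bar β K t S D₁ D₂) (bar' β K t S D₁ D₂ x) x := by
  have h1 := (Real.hasDerivAt_rpow_const (x := x) (p := β) (Or.inl hx.ne')).const_mul D₁
  have h2 := (((hasDerivAt_ell (β := β) (K := K) (t := t) (S := S) hx).inv hl.ne').pow 2).const_mul D₂
  have h3 := h1.add h2
  refine h3.congr_deriv ?_
  unfold bar'
  simp only [Pi.inv_apply, Nat.cast_ofNat, Nat.add_one_sub_one, pow_one, neg_neg]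

theorem mul_bar' {t S D₁ D₂ x : ℝ} (hx : 0 < x) (hl : 0 < ell β K t S x) :
    x * bar' β K t S D₁ D₂ x
      = β * D₁ * x ^ β + 2 * (β * D₂) * ((ell β K t S x)⁻¹) ^ 3 := by
  have h1 : x * x ^ (β - 1) = x ^ β := by
    rw [Real.rpow_sub hx, Real.rpow_one]; field_simp
  unfold bar'
  rw [← h1]
  field_simp

/-- the induction over the windows -/
theorem Good.induct (hX : Good X β K) {t S ζ D₁ D₂ Jm : ℝ} {J : ℕ → ℝ} {k N : ℕ}
    (hkt : X.Win k t) (hS : 0 < S) (hlam : 0 < ell β K t S t) (hκt : X.κ * t ^ β ≤ 1)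
    (hD₁ : β * D₁ = (14 * X.κ + 1) * S) (hD₂ : β * D₂ = 8 * S) (hζ : 0 < ζ)
    (hsum : D₁ * t ^ β + D₂ * ((ell β K t S t)⁻¹) ^ 2 + Jm + ζ ≤ S)
    (herr : ∀ i x, X.Win i x → x ≤ t → ∃ δ,
      Ode (X.κ * x ^ (β - 1)) δ x (X.H i x) (X.j i x) (X.a i x) (X.b i x) (X.H' i x) (X.a' i x) ∧
      δ ≤ 8 * ((ell β K t S x)⁻¹) ^ 3 * S * x ^ 2)
    (hnear : ∀ i x, X.Win i x → x ≤ t → X.h i x ≤ S)
    (hJ0 : ∀ i, 0 ≤ J i) (hJm : ∀ i, k ≤ i → J i ≤ Jm)
    (hjump : ∀ i, k ≤ i → ∃ g, 0 < g ∧ X.Jump i g ∧ J (i + 1) + 2 * g ^ (1 + X.c) ≤ J i)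
    (hdeep : ∀ x, X.Win N x → X.f N x ≤ ζ) :
    ∀ n i, k ≤ i → i + n = N → ∀ x, X.Win i x → x ≤ t →
      X.f i x ≤ bar β K t S D₁ D₂ x + (J i + ζ) := by
  have hβ := hX.β_pos
  have hκ := hX.κ_nn
  have ht : 0 < t := hX.win_pos hkt
  have hD₁0 : 0 < D₁ := by
    have : 0 < β * D₁ := by rw [hD₁]; positivity
    exact (mul_pos_iff_of_pos_left hβ).1 this
  have hD₂0 : 0 < D₂ := by
    have : 0 < β * D₂ := by rw [hD₂]; positivity
    exact (mul_pos_iff_of_pos_left hβ).1 this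
  have hTt : ∀ i, k ≤ i → X.T (i + 1) ≤ t := fun i hi =>
    (hX.T_anti.antitone (Nat.succ_le_succ hi)).trans hkt.1
  have hell : ∀ x, 0 < x → x ≤ t → 0 < ell β K t S x := fun x hx hxt =>
    hlam.trans_le (ell_anti hβ.le hx hxt)
  intro n
  induction n with
  | zero =>
    intro i hi hin x hx hxt
    have hiN : i = N := by omega
    subst hiN
    have hx0 : 0 < x := hX.win_pos hx
    have h1 := hdeep x hx
    have h2 : 0 ≤ bar β K t S D₁ D₂ x := by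
      have := hell x hx0 hxt
      unfold bar
      positivity
    have h3 := hJ0 i
    linarith
  | succ n ih =>
    intro i hi hin x hx hxt
    have hxb : 0 < X.T (i + 1) := hX.T_pos _
    refine window (x₀ := X.T (i + 1)) (x₁ := x) (f := X.f i) (f' := X.f' i)
      (g := fun x => bar β K t S D₁ D₂ x + (J i + ζ)) (g' := bar' β K t S D₁ D₂) hxb ?_ ?_ ?_ ?_
      x hx.1 le_rfl
    · intro z hz1 hz2
      exact hX.hasDerivAt_f ⟨hz1, hz2.trans hx.2⟩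
    · intro z hz1 hz2
      exact (hasDerivAt_bar (hxb.trans_le hz1)
        (hell z (hxb.trans_le hz1) (hz2.trans hxt))).add_const _
    · have h1 := ih (i + 1) (by omega) (by omega) (X.T (i + 1)) (hX.win_top _) (hTt i hi)
      obtain ⟨g, -, hg1, hg2⟩ := hjump i hi
      have h2 := hX.f_jump hg1
      show X.f i (X.T (i + 1)) ≤ bar β K t S D₁ D₂ (X.T (i + 1)) + (J i + ζ)
      linarith
    · intro z hz1 hz2 hz3
      have hz0 : 0 < z := hxb.trans_le hz1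
      have hzt : z ≤ t := hz2.trans hxt
      have hw : X.Win i z := ⟨hz1, hz2.trans hx.2⟩
      have hl := hell z hz0 hzt
      obtain ⟨δ, ho, hδ⟩ := herr i z hw hzt
      have hzβ : z ^ β ≤ t ^ β := Real.rpow_le_rpow hz0.le hzt hβ.le
      have hzβ0 : 0 < z ^ β := by positivity
      have hq : X.κ * z ^ (β - 1) * z = X.κ * z ^ β := by
        rw [Real.rpow_sub hz0, Real.rpow_one]; field_simp
      have hbar0 : 0 ≤ bar β K t S D₁ D₂ z := by unfold bar; positivity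
      have hf0 : 0 ≤ X.f i z := by
        rw [hz3]; have := hJ0 i; positivity
      have hfS : X.f i z ≤ S := by
        rw [hz3]
        have h1 := hJm i hi
        have h2 : bar β K t S D₁ D₂ z ≤ D₁ * t ^ β + D₂ * ((ell β K t S t)⁻¹) ^ 2 := by
          unfold bar
          have h3 : D₁ * z ^ β ≤ D₁ * t ^ β := mul_le_mul_of_nonneg_left hzβ hD₁0.le
          have h4 : ((ell β K t S z)⁻¹) ^ 2 ≤ ((ell β K t S t)⁻¹) ^ 2 :=
            pow_le_pow_left₀ (by positivity) (inv_anti₀ hlam (ell_anti hβ.le hz0 hzt)) 2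
          have h5 := mul_le_mul_of_nonneg_left h4 hD₂0.le
          linarith
        linarith
      have hκz : X.κ * z ^ β ≤ 1 := (mul_le_mul_of_nonneg_left hzβ hκ).trans hκt
      have h2 := hX.f'_le (Y := 8 * ((ell β K t S z)⁻¹) ^ 3 * S) hw (by rw [hq]; positivity)
        (by rw [hq]; exact hκz) ho hδ hf0
      rw [hq] at h2
      rw [mul_bar' hz0 hl, hD₁, hD₂]
      have h3 : 7 * (X.κ * z ^ β) * (X.h i z + X.f i z) ≤ 7 * (X.κ * z ^ β) * (S + S) :=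
        mul_le_mul_of_nonneg_left (add_le_add (hnear i z hw hzt) hfS) (by positivity)
      have h4 : 0 < S * z ^ β := by positivity
      linarith

/-- smallness of powers -/
theorem small_t {q η : ℝ} (hq : 0 < q) (hη : 0 < η) : ∃ t₀ > 0, ∀ t : ℝ, 0 < t → t ≤ t₀ →
    t ^ q ≤ η := by
  refine ⟨η ^ q⁻¹, by positivity, fun t ht h => ?_⟩
  calc t ^ q ≤ (η ^ q⁻¹) ^ q := Real.rpow_le_rpow ht.le h hq.le
    _ = η := by rw [← Real.rpow_mul hη.le, inv_mul_cancel₀ hq.ne', Real.rpow_one]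

/-- smallness of the height -/
theorem small_S {q : ℝ} (hq : 0 < q) (A : ℝ) : ∃ s₀ > 0, ∀ S : ℝ, 0 < S → S ≤ s₀ →
    A ≤ Real.log S⁻¹ ∧ 8 * S ^ q ≤ ((Real.log S⁻¹)⁻¹) ^ 2 := by
  have hlog : Tendsto (fun S : ℝ => Real.log S⁻¹) (𝓝[>] 0) atTop :=
    Real.tendsto_log_atTop.comp tendsto_inv_nhdsGT_zero
  have h5 : ∀ᶠ S in 𝓝[>] (0:ℝ), Real.log S⁻¹ ^ 2 * 8 ≤ S⁻¹ ^ q := by
    have h : (fun x : ℝ => Real.log x ^ 2) =o[atTop] fun x => x ^ q :=
      (isLittleO_log_rpow_rpow_atTop (2:ℝ) hq).congr_left fun x => by norm_cast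
    have h2 := h.bound (show (0:ℝ) < (8)⁻¹ by positivity)
    have h3 := tendsto_inv_nhdsGT_zero.eventually h2
    filter_upwards [h3, self_mem_nhdsWithin] with S h4 hS
    have hS' : (0:ℝ) < S := hS
    rw [Real.norm_eq_abs, Real.norm_eq_abs, abs_of_nonneg (show 0 ≤ S⁻¹ ^ q by positivity)] at h4
    have h5 := (le_abs_self _).trans h4
    linarith
  have hall := ((hlog.eventually_ge_atTop A).and (hlog.eventually_ge_atTop 1)).and h5
  obtain ⟨s₀, hs₀, hsub⟩ := mem_nhdsGT_iff_exists_Ioc_subset.1 hall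
  refine ⟨s₀, hs₀, fun S hS hSs => ?_⟩
  obtain ⟨⟨g1, g2⟩, g3⟩ := hsub ⟨hS, hSs⟩
  refine ⟨g1, ?_⟩
  have hl : 0 < Real.log S⁻¹ := by linarith
  have hSc : 0 < S ^ q := by positivity
  rw [Real.inv_rpow hS.le] at g3
  rw [inv_pow, ← one_div, le_div_iff₀ (by positivity)]
  calc 8 * S ^ q * Real.log S⁻¹ ^ 2 = (Real.log S⁻¹ ^ 2 * 8) * S ^ q := by ring
    _ ≤ (S ^ q)⁻¹ * S ^ q := by gcongr
    _ = 1 := inv_mul_cancel₀ hSc.ne'

/-- the exponent of the errors -/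
def gam (X : Chain) (β : ℝ) : ℝ := β * min 1 X.c

theorem Good.gam_pos (hX : Good X β K) : 0 < gam X β :=
  mul_pos hX.β_pos (lt_min one_pos hX.c_pos)

theorem Good.gam_le (hX : Good X β K) : gam X β ≤ β := by
  have := mul_le_mul_of_nonneg_left (min_le_left 1 X.c) hX.β_pos.le
  unfold gam
  linarith

theorem Good.gam_le' (hX : Good X β K) : gam X β ≤ β * X.c :=
  mul_le_mul_of_nonneg_left (min_le_right 1 X.c) hX.β_pos.le

theorem Good.deep_f (hX : Good X β K) {ζ : ℝ} (hζ : 0 < ζ) (k : ℕ) :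
    ∃ N, k ≤ N ∧ ∀ i, N ≤ i → ∀ x, X.Win i x → X.f i x ≤ ζ ∧ X.h i x ≤ ζ := by
  have hK : 0 < K := by linarith [hX.K_one]
  obtain ⟨τ, hτ, hlim⟩ := hX.alim (ζ / 2) (by positivity)
  obtain ⟨τ', hτ', hpow⟩ := small_t hX.β_pos (show 0 < ζ / 2 / K by positivity)
  have h0 := ((hX.T_lim.eventually (gt_mem_nhds hτ)).and
    (hX.T_lim.eventually (gt_mem_nhds hτ'))).exists_forall_of_atTop
  obtain ⟨N, hN⟩ := h0
  refine ⟨max k N, le_max_left _ _, fun i hi x hx => ?_⟩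
  obtain ⟨h1, h2⟩ := hN i ((le_max_right _ _).trans hi)
  have hx0 := hX.win_pos hx
  have h3 := hlim i x hx (hx.2.trans h1.le)
  have h4 := hpow x hx0 (hx.2.trans h2.le)
  have h5 : X.h i x ≤ ζ / 2 := by
    refine (hX.power i x hx).trans ?_
    calc K * x ^ β ≤ K * (ζ / 2 / K) := mul_le_mul_of_nonneg_left h4 hK.le
      _ = ζ / 2 := by field_simp
  have h6 : X.H i x ≤ ζ / 2 * x ^ 2 := by
    rwa [Chain.h, div_le_iff₀ (by positivity)] at h5
  have h7 : -(X.a i x) ≤ ζ / 2 * x ^ 2 := (neg_le_abs _).trans h3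
  refine ⟨?_, by linarith⟩
  simp only [Chain.f]
  rw [div_le_iff₀ (by positivity)]
  linarith

/-- the data at all scales below `t`, with the bound `S` of `Bdd t S` -/
theorem Good.ode_deep (hX : Good X β K) : ∃ t₀ > 0, ∀ t S, t ≤ t₀ → t ≤ 1 → 0 < S → S ≤ t₀ →
    X.Bdd t S → 0 < ell β K t S t → ∀ i x, X.Win i x → x ≤ t →
      ∃ δ, Ode (X.κ * x ^ (β - 1)) δ x (X.H i x) (X.j i x) (X.a i x) (X.b i x) (X.H' i x)
        (X.a' i x) ∧ δ ≤ 8 * ((ell β K t S x)⁻¹) ^ 3 * S * x ^ 2 := by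
  obtain ⟨tA, htA, hode⟩ := hX.ode
  refine ⟨tA, htA, fun t S ht ht1 hS hSA hB hlam i x hix hxt => ?_⟩
  have hx0 := hX.win_pos hix
  have ht0 : 0 < t := hx0.trans_le hxt
  have hp := hX.sig_pos hS hx0
  have hB' := hX.bdd_deep hB hx0 hxt
  have hle : min S (2 * K * x ^ β) ≤ S := min_le_left _ _
  refine ⟨_, hode i x _ hix (hxt.trans ht) hp (hle.trans hSA) hB', ?_⟩
  have h1 := hX.log_sig hS hx0 ht0 ht1
  have hl : 0 < ell β K t S x := hlam.trans_le (ell_anti hX.β_pos.le hx0 hxt)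
  have h2 : (Real.log (min S (2 * K * x ^ β))⁻¹)⁻¹ ≤ 2 * (ell β K t S x)⁻¹ := by
    calc (Real.log (min S (2 * K * x ^ β))⁻¹)⁻¹ ≤ (ell β K t S x / 2)⁻¹ :=
          inv_anti₀ (by positivity) h1
      _ = 2 * (ell β K t S x)⁻¹ := by rw [inv_div, div_eq_mul_inv]
  have h3 : 0 < Real.log (min S (2 * K * x ^ β))⁻¹ := by linarith
  calc ((Real.log (min S (2 * K * x ^ β))⁻¹)⁻¹) ^ 3 * min S (2 * K * x ^ β) * x ^ 2
      ≤ (2 * (ell β K t S x)⁻¹) ^ 3 * S * x ^ 2 := by gcongr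
    _ = _ := by ring

/-- smallness of all sizes at `(t, S)` -/
theorem Good.params (hX : Good X β K) {η : ℝ} (hη : 0 < η) (A : ℝ) :
    ∃ t₀ > 0, ∀ k t S, X.Win k t → t ≤ t₀ →
    0 < S → S ≤ t₀ → X.Bdd t S → (K * t ^ β) ^ (β * β * X.c) ≤ 1 / 2 ∧ t ^ gam X β ≤ η ∧
      Real.log S⁻¹ / 2 ≤ ell β K t S t ∧ A ≤ Real.log S⁻¹ ∧ 1 ≤ Real.log S⁻¹ ∧
      2 * S * psi X β K (k + 1) + 2 * S ^ (1 + X.c)
        ≤ S * ((Real.log S⁻¹)⁻¹) ^ 2 + 8 * K ^ X.c * S * t ^ gam X β := by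
  have hβ := hX.β_pos
  have hc := hX.c_pos
  have hK : 0 < K := by linarith [hX.K_one]
  obtain ⟨t₁, ht₁, h₁⟩ := small_t (q := β) hβ
    (show 0 < (1 / 2 : ℝ) ^ (β * β * X.c)⁻¹ / K by positivity)
  obtain ⟨t₂, ht₂, h₂⟩ := small_t hX.gam_pos hη
  obtain ⟨s₀, hs₀, h₃⟩ := small_S (show 0 < X.c / 4 by linarith)
    (max (max A 1) (2 * Real.log (2 * K)))
  refine ⟨min (min t₁ t₂) (min s₀ 1), by positivity, fun k t S hkt ht hS hSs hB => ?_⟩
  have ht0 := hX.win_pos hkt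
  have e1 := h₁ t ht0 (ht.trans ((min_le_left _ _).trans (min_le_left _ _)))
  have e2 := h₂ t ht0 (ht.trans ((min_le_left _ _).trans (min_le_right _ _)))
  obtain ⟨e3, e4⟩ := h₃ S hS (hSs.trans ((min_le_right _ _).trans (min_le_left _ _)))
  have ht1 : t ≤ 1 := ht.trans ((min_le_right _ _).trans (min_le_right _ _))
  have hS1 : S ≤ 1 := hSs.trans ((min_le_right _ _).trans (min_le_right _ _))
  have e5 : A ≤ Real.log S⁻¹ := ((le_max_left _ _).trans (le_max_left _ _)).trans e3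
  have e6 : 1 ≤ Real.log S⁻¹ := ((le_max_right _ _).trans (le_max_left _ _)).trans e3
  have e7 : 2 * Real.log (2 * K) ≤ Real.log S⁻¹ := (le_max_right _ _).trans e3
  refine ⟨?_, e2, ?_, e5, e6, ?_⟩
  · calc (K * t ^ β) ^ (β * β * X.c) ≤ ((1 / 2 : ℝ) ^ (β * β * X.c)⁻¹) ^ (β * β * X.c) := by
          refine Real.rpow_le_rpow (by positivity) ?_ (by positivity)
          rw [le_div_iff₀ hK] at e1
          linarith
      _ = 1 / 2 := by
        rw [← Real.rpow_mul (by positivity), inv_mul_cancel₀ (by positivity), Real.rpow_one]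
  · rw [ell_self]; linarith
  · have hek := hX.e_le k t S hkt.1 hB
    have f1 : X.e (k + 1) ^ X.c ≤ S ^ (X.c / 4) := by
      calc X.e (k + 1) ^ X.c ≤ (S ^ (1 / 4 : ℝ)) ^ X.c :=
            Real.rpow_le_rpow (hX.e_pos _).le hek hc.le
        _ = S ^ (X.c / 4) := by rw [← Real.rpow_mul hS.le]; ring_nf
    have f2 : X.T (k + 1) ^ (β * X.c) ≤ t ^ gam X β := by
      calc X.T (k + 1) ^ (β * X.c) ≤ t ^ (β * X.c) :=
            Real.rpow_le_rpow (hX.T_pos _).le hkt.1 (by positivity)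
        _ ≤ t ^ gam X β := Real.rpow_le_rpow_of_exponent_ge ht0 ht1 hX.gam_le'
    have f3 : S ^ (1 + X.c) ≤ S * S ^ (X.c / 4) := by
      rw [Real.rpow_add hS, Real.rpow_one]
      refine mul_le_mul_of_nonneg_left ?_ hS.le
      exact Real.rpow_le_rpow_of_exponent_ge hS hS1 (by linarith)
    have f4 : 2 * S * psi X β K (k + 1)
        ≤ 2 * S * (2 * S ^ (X.c / 4) + 4 * K ^ X.c * t ^ gam X β) := by
      refine mul_le_mul_of_nonneg_left ?_ (by positivity)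
      have hKc : 0 < K ^ X.c := by positivity
      have := mul_le_mul_of_nonneg_left f2 (show 0 ≤ 4 * K ^ X.c by positivity)
      unfold psi
      linarith
    have f5 : S * (8 * S ^ (X.c / 4)) ≤ S * ((Real.log S⁻¹)⁻¹) ^ 2 :=
      mul_le_mul_of_nonneg_left e4 hS.le
    have f6 : 0 < S * S ^ (X.c / 4) := by positivity
    linarith

/-- **(I) for target B** -/
theorem Good.low (hX : Good X β K) : ∃ C ≥ 1, ∃ t₀ > 0, ∀ k t S, X.Win k t → t ≤ t₀ → 0 < S →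
    S ≤ t₀ → X.Bdd t S →
      X.H k t - C * (t ^ gam X β + ((Real.log S⁻¹)⁻¹) ^ 2) * S * t ^ 2 ≤ X.a k t := by
  have hβ := hX.β_pos
  have hβ1 := hX.β_le
  have hc := hX.c_pos
  have hκ := hX.κ_nn
  have hK : 0 < K := by linarith [hX.K_one]
  have hKc : 0 < K ^ X.c := by positivity
  obtain ⟨D, hD⟩ : ∃ D, D = (14 * X.κ + 1) / β + 8 * K ^ X.c + 32 / β + 2 := ⟨_, rfl⟩
  have hD0 : 0 < D := by rw [hD]; positivity
  obtain ⟨t₁, ht₁, h₁⟩ := hX.ode_deep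
  obtain ⟨t₂, ht₂, h₂⟩ := hX.params (η := 1 / (2 * D)) (by positivity) (2 * D)
  have hD1 : 1 ≤ D := by
    have : 0 ≤ (14 * X.κ + 1) / β + 8 * K ^ X.c + 32 / β := by positivity
    rw [hD]; linarith
  refine ⟨D, hD1, min t₁ t₂, by positivity, ?_⟩
  intro k t S hkt ht hS hSs hB
  have ht0 := hX.win_pos hkt
  have ht1 := hX.le_one hkt
  obtain ⟨e1, e2, e3, e4, e5, e6⟩ := h₂ k t S hkt (ht.trans (min_le_right _ _)) hS
    (hSs.trans (min_le_right _ _)) hB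
  set l := Real.log S⁻¹ with hl
  have hl0 : 0 < l := by linarith
  have hlam : 0 < ell β K t S t := by linarith
  have herr := h₁ t S (ht.trans (min_le_left _ _)) ht1 hS (hSs.trans (min_le_left _ _)) hB hlam
  obtain ⟨J, hJ0, hJm, hjump⟩ := hX.jumps hkt hS hB e1
  have hγ := hX.gam_le
  have htγ : t ^ β ≤ t ^ gam X β := Real.rpow_le_rpow_of_exponent_ge ht0 ht1 hγ
  have htγ0 : 0 < t ^ gam X β := by positivity
  have hlinv : (l⁻¹) ^ 2 ≤ 1 / (2 * D) := by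
    have h3 : l⁻¹ ≤ 1 := inv_le_one_of_one_le₀ e5
    have h4 : l⁻¹ ≤ (2 * D)⁻¹ := inv_anti₀ (by positivity) e4
    have h5 : 0 < l⁻¹ := by positivity
    rw [one_div]
    nlinarith
  have hl2 : ((ell β K t S t)⁻¹) ^ 2 ≤ 4 * (l⁻¹) ^ 2 := by
    have h3 : (ell β K t S t)⁻¹ ≤ 2 * l⁻¹ := by
      calc (ell β K t S t)⁻¹ ≤ (l / 2)⁻¹ := inv_anti₀ (by positivity) e3
        _ = 2 * l⁻¹ := by rw [inv_div, div_eq_mul_inv]
    calc ((ell β K t S t)⁻¹) ^ 2 ≤ (2 * l⁻¹) ^ 2 := pow_le_pow_left₀ (by positivity) h3 2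
      _ = _ := by ring
  -- the sum
  have hsum : (14 * X.κ + 1) * S / β * t ^ β + 8 * S / β * ((ell β K t S t)⁻¹) ^ 2
      + (2 * S * psi X β K (k + 1) + 2 * S ^ (1 + X.c)) + S * (l⁻¹) ^ 2
      ≤ D * (t ^ gam X β + (l⁻¹) ^ 2) * S := by
    have g1 : (14 * X.κ + 1) * S / β * t ^ β ≤ (14 * X.κ + 1) * S / β * t ^ gam X β :=
      mul_le_mul_of_nonneg_left htγ (by positivity)
    have g2 : 8 * S / β * ((ell β K t S t)⁻¹) ^ 2 ≤ 8 * S / β * (4 * (l⁻¹) ^ 2) :=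
      mul_le_mul_of_nonneg_left hl2 (by positivity)
    have g3 : D * (t ^ gam X β + (l⁻¹) ^ 2) * S
        = (14 * X.κ + 1) * S / β * t ^ gam X β + 8 * S / β * (4 * (l⁻¹) ^ 2)
          + (S * (l⁻¹) ^ 2 + 8 * K ^ X.c * S * t ^ gam X β) + S * (l⁻¹) ^ 2
          + (2 + 32 / β) * S * t ^ gam X β + ((14 * X.κ + 1) / β + 8 * K ^ X.c) * S * (l⁻¹) ^ 2 := by
      rw [hD]; ring
    have g4 : 0 ≤ (2 + 32 / β) * S * t ^ gam X β := by positivity
    have g5 : 0 ≤ ((14 * X.κ + 1) / β + 8 * K ^ X.c) * S * (l⁻¹) ^ 2 := by positivity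
    rw [g3]
    linarith
  have hsumS : D * (t ^ gam X β + (l⁻¹) ^ 2) * S ≤ S := by
    have g1 : D * (t ^ gam X β + (l⁻¹) ^ 2) ≤ D * (1 / (2 * D) + 1 / (2 * D)) :=
      mul_le_mul_of_nonneg_left (by linarith) hD0.le
    have g2 : D * (1 / (2 * D) + 1 / (2 * D)) = 1 := by field_simp; norm_num
    rw [g2] at g1
    calc D * (t ^ gam X β + (l⁻¹) ^ 2) * S ≤ 1 * S := mul_le_mul_of_nonneg_right g1 hS.le
      _ = S := one_mul S
  have hκt : X.κ * t ^ β ≤ 1 := by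
    have g0 : X.κ ≤ D := by
      have : 14 * X.κ + 1 ≤ (14 * X.κ + 1) / β := by
        rw [le_div_iff₀ hβ]; nlinarith
      have g : 0 ≤ 8 * K ^ X.c + 32 / β := by positivity
      rw [hD]; linarith
    calc X.κ * t ^ β ≤ D * (1 / (2 * D)) :=
          mul_le_mul g0 (htγ.trans e2) (by positivity) hD0.le
      _ ≤ 1 := by
        have : D * (1 / (2 * D)) = 1 / 2 := by field_simp
        rw [this]; norm_num
  have hζ : 0 < S * (l⁻¹) ^ 2 := by positivity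
  obtain ⟨N, hkN, hN⟩ := hX.deep_f hζ k
  have hmain := hX.induct (D₁ := (14 * X.κ + 1) * S / β) (D₂ := 8 * S / β)
    (Jm := 2 * S * psi X β K (k + 1) + 2 * S ^ (1 + X.c)) hkt hS hlam hκt (by field_simp)
    (by field_simp) hζ (hsum.trans hsumS) herr
    (fun i x hi hx => hX.bdd_of_le hB hi hx) hJ0 hJm hjump
    (fun x hx => (hN N le_rfl x hx).1) (N - k) k le_rfl (Nat.add_sub_cancel' hkN) t hkt le_rfl
  have hJk := hJm k le_rfl
  have hfin : X.f k t ≤ D * (t ^ gam X β + (l⁻¹) ^ 2) * S := by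
    refine hmain.trans (le_trans ?_ hsum)
    unfold bar
    linarith
  have ht2 : 0 < t ^ 2 := by positivity
  simp only [Chain.f] at hfin
  rw [div_le_iff₀ ht2] at hfin
  linarith

end

end Vale.Agent.P214.BABS
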