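import Vale.Agent.P214.BABS.Lim
import Vale.Agent.P214.ABS.Defs

/-!
# P214, block BABS: the pointwise facts for the unadjusted frequency, and summability of the jumps
-/

open Set Filter Topology

namespace Vale.Agent.P214.BABS

open ABS

noncomputable section

theorem LPt.mono {r r' Λ l q M N B : ℝ} (h : LPt r Λ l q M N B) (hr : r ≤ r') (hr1 : r ≤ 1) :
    LPt r' Λ l q M N B where
  M_le := h.M_le
  M_ge := by have := h.M_ge; linarith
  N_ge := by have := h.N_ge; linarith
  B_ge := h.B_ge
  dL := by have := h.dL; linarith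
  dM := by
    have h1 := h.dM
    have h2 := h.M_ge
    have h3 := h.N_ge
    have : r * (N + 1) ≤ r' * (N + 1) := mul_le_mul_of_nonneg_right hr (by linarith)
    linarith

/-- the differential inequalities at one scale, for `M = a/H`, `N = j/H`, `B = b/H`,
`L = log (t²/H)` as functions of the depth `s = -log t`. -/
theorem ode_lpt {κ δ t H j a b H' a' e Λ : ℝ} (o : Ode κ δ t H j a b H' a') (he : κ * t ≤ e)
    (he0 : 0 ≤ e) (he1 : e ≤ 1 / 8) (hδ : δ ≤ e * H) (hΛ : a ≤ Λ * H) (hlow : H - a ≤ e * H) :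
    LPt ((3 + 2 * Λ) * e) Λ (t * H' / H - 2) (-(t * a') / H + a / H * (t * H' / H))
      (a / H) (j / H) (b / H) := by
  have hH := o.pos
  set M := a / H with hM
  set N := j / H with hN
  set B := b / H with hB
  have ea : a = M * H := by rw [hM]; field_simp
  have ej : j = N * H := by rw [hN]; field_simp
  have eb : b = B * H := by rw [hB]; field_simp
  have hMΛ : M ≤ Λ := by rw [hM, div_le_iff₀ hH]; exact hΛ
  have hM1 : 1 - e ≤ M := by rw [hM, le_div_iff₀ hH]; linarith
  have hκH : κ * t * H ≤ e * H := mul_le_mul_of_nonneg_right he hH.le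
  have hN1 : M - 2 * e ≤ N := by
    have h1 := o.gap
    rw [ea, ej] at h1
    have h2 : (M - N) * H ≤ (2 * e) * H := by linarith
    have := le_of_mul_le_mul_right h2 hH
    linarith
  have hΛ0 : 7 / 8 ≤ Λ := by linarith
  have hΛe : 0 ≤ Λ * e := mul_nonneg (by linarith) he0
  have hB1 : N ^ 2 ≤ B := by
    have h1 := o.cs
    rw [ej, eb] at h1
    have h2 : N ^ 2 * (H * H) ≤ B * (H * H) := by nlinarith
    exact le_of_mul_le_mul_right h2 (by positivity)
  have hdH := abs_le.1 o.dH
  set P := t * H' / H with hP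
  have eP : t * H' = P * H := by rw [hP]; field_simp
  have hP1 : P ≤ 2 * N + 2 * e := by
    have h1 := hdH.2
    rw [eP, ej] at h1
    have h2 : P * H ≤ (2 * N + 2 * e) * H := by linarith
    exact le_of_mul_le_mul_right h2 hH
  have hN0 : 0 ≤ N := by linarith
  have hM0 : 0 ≤ M := by linarith
  refine ⟨hMΛ, by linarith, by linarith, hB1, by linarith, ?_⟩
  set A := -(t * a') / H with hA
  have eA : t * a' = -(A * H) := by rw [hA]; field_simp
  have hB0 : 0 ≤ B := (sq_nonneg N).trans hB1
  have hsq : √(b * H) = √B * H := by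
    rw [eb, show B * H * H = B * H ^ 2 by ring, Real.sqrt_mul hB0, Real.sqrt_sq hH.le]
  have hmax : max (j - a) 0 = max (N - M) 0 * H := by
    rw [ej, ea, show N * H - M * H = (N - M) * H by ring]
    rw [max_mul_of_nonneg _ _ hH.le, zero_mul]
  have hmax2 : max (N - M) 0 ≤ N := max_le (by linarith) hN0
  have hsB : √B ≤ N + (B - N ^ 2) + 1 := by
    have h1 : √B ^ 2 = B := Real.sq_sqrt hB0
    have h2 : 0 ≤ √B := Real.sqrt_nonneg _
    have h3 : N ≤ √B := Real.le_sqrt_of_sq_le hB1
    nlinarith [mul_nonneg (sub_nonneg.2 h3) hN0, sq_nonneg (√B - N - 1)]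
  have hAle : A ≤ -2 * (M - N) - 2 * B + e * (1 + N + √B + N) + e := by
    have h1 := o.da
    rw [eA, hsq, hmax, ej, ea, eb, abs_of_nonneg (mul_nonneg hN0 hH.le)] at h1
    have h2 : κ * t * (H + N * H + √B * H + max (N - M) 0 * H) ≤
        e * (1 + N + √B + N) * H := by
      have h3 : κ * t * (H + N * H + √B * H + max (N - M) 0 * H) ≤
          e * (H + N * H + √B * H + max (N - M) 0 * H) := by
        refine mul_le_mul_of_nonneg_right he ?_
        have := Real.sqrt_nonneg B
        have := le_max_right (N - M) 0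
        positivity
      refine h3.trans ?_
      have h4 : H + N * H + √B * H + max (N - M) 0 * H ≤ (1 + N + √B + N) * H := by
        nlinarith
      calc e * (H + N * H + √B * H + max (N - M) 0 * H) ≤ e * ((1 + N + √B + N) * H) :=
            mul_le_mul_of_nonneg_left h4 he0
        _ = _ := by ring
    have h5 : A * H ≤ (-2 * (M - N) - 2 * B + e * (1 + N + √B + N) + e) * H := by
      linarith
    exact le_of_mul_le_mul_right h5 hH
  have hMP : M * P ≤ M * (2 * N) + 2 * (Λ * e) := by
    have h1 : M * P ≤ M * (2 * N + 2 * e) := mul_le_mul_of_nonneg_left hP1 hM0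
    have h2 : M * e ≤ Λ * e := mul_le_mul_of_nonneg_right hMΛ he0
    linarith
  have h6 : e * √B ≤ e * (N + 1) + (B - N ^ 2) := by
    have h1 : e * √B ≤ e * (N + (B - N ^ 2) + 1) := mul_le_mul_of_nonneg_left hsB he0
    have h2 : e * (B - N ^ 2) ≤ 1 * (B - N ^ 2) :=
      mul_le_mul_of_nonneg_right (by linarith) (by linarith)
    linarith
  have h7 : 0 ≤ Λ * e * N := mul_nonneg hΛe hN0
  nlinarith [mul_nonneg he0 hN0]

/-- summability by a potential -/
theorem summable_of_alt {u v : ℕ → ℝ} (hu : ∀ k, 0 ≤ u k) (huv : ∀ k, u k ≤ v k)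
    (hv : ∀ k, v (k + 1) ≤ v k)
    (h : ∀ k, u (k + 1) ≤ u k / 2 ∨ v (k + 1) ≤ v k / 2) : Summable u := by
  have hstep : ∀ k, u k + 2 * (u (k + 1) + v (k + 1)) ≤ 2 * (u k + v k) := by
    intro k
    have h1 := hu k
    have h2 := huv k
    have h3 := huv (k + 1)
    have h4 := hv k
    rcases h k with h5 | h5 <;> linarith
  have hsum : ∀ n, ∑ i ∈ Finset.range n, u i + 2 * (u n + v n) ≤ 2 * (u 0 + v 0) := by
    intro n
    induction n with
    | zero => simp
    | succ n ih =>
      rw [Finset.sum_range_succ]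
      have := hstep n
      linarith
  refine summable_of_sum_range_le (c := 2 * (u 0 + v 0)) hu fun n => ?_
  have h1 := hsum n
  have h2 := hu n
  have h3 := huv n
  linarith

end

end Vale.Agent.P214.BABS
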