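import Vale.Agent.P214.BABS.Near
import Vale.Agent.P214.BABS.PtL

/-!
# P214, block BABS: convergence of the frequency and pinched scales, from the height bounds
-/

open Set Filter Topology

namespace Vale.Agent.P214.BABS

open ABS

noncomputable section

variable {X : Chain} {β K : ℝ}

/-- the sizes of the switches are summable -/
theorem Good.summable_e (hX : Good X β K) : Summable fun k => X.e k ^ X.c := by
  have hβ := hX.β_pos
  have hc := hX.c_pos
  have hK : 0 < K := by linarith [hX.K_one]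
  -- deep scales
  obtain ⟨t₀, ht₀, hsm⟩ := small_t (q := β) hβ
    (show 0 < (1 / 2 : ℝ) ^ (β * β * X.c)⁻¹ / K by positivity)
  obtain ⟨n₀, hn₀⟩ := (hX.T_lim.eventually (gt_mem_nhds ht₀)).exists_forall_of_atTop
  have hstep : ∀ i, n₀ ≤ i → X.e i ^ X.c + psi X β K (i + 1) ≤ psi X β K i := by
    intro i hi
    refine hX.psi_step (hX.e_small (t := X.T i) le_rfl ?_)
    have h1 := hsm (X.T i) (hX.T_pos i) (hn₀ i hi).le
    have h2 : K * X.T i ^ β ≤ (1 / 2 : ℝ) ^ (β * β * X.c)⁻¹ := by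
      calc K * X.T i ^ β ≤ K * ((1 / 2 : ℝ) ^ (β * β * X.c)⁻¹ / K) :=
            mul_le_mul_of_nonneg_left h1 hK.le
        _ = _ := by field_simp
    have h3 : 0 < X.T i ^ β := Real.rpow_pos_of_pos (hX.T_pos i) _
    calc (K * X.T i ^ β) ^ (β * β * X.c)
        ≤ ((1 / 2 : ℝ) ^ (β * β * X.c)⁻¹) ^ (β * β * X.c) :=
          Real.rpow_le_rpow (by positivity) h2 (by positivity)
      _ = 1 / 2 := by
          rw [← Real.rpow_mul (by norm_num), inv_mul_cancel₀ (by positivity), Real.rpow_one]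
  have hsum : ∀ n, ∑ i ∈ Finset.range n, X.e (i + n₀) ^ X.c + psi X β K (n + n₀) ≤
      psi X β K n₀ := by
    intro n
    induction n with
    | zero => simp
    | succ n ih =>
      rw [Finset.sum_range_succ]
      have h1 := hstep (n + n₀) (by omega)
      have h2 : n + 1 + n₀ = n + n₀ + 1 := by ring
      rw [h2]
      linarith
  rw [← summable_nat_add_iff n₀]
  refine summable_of_sum_range_le (c := psi X β K n₀)
    (fun i => (Real.rpow_pos_of_pos (hX.e_pos _) _).le) fun n => ?_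
  have h1 := hsum n
  have h2 := hX.psi_nonneg (n + n₀)
  linarith

/-- depth of the switches -/
def pp (X : Chain) (k : ℕ) : ℝ := -Real.log (X.T k)

theorem Good.win_iff (hX : Good X β K) {k : ℕ} {s : ℝ} :
    (pp X k ≤ s ∧ s ≤ pp X (k + 1)) ↔ X.Win k (Real.exp (-s)) := by
  have h1 := hX.T_pos k
  have h2 := hX.T_pos (k + 1)
  unfold pp Chain.Win
  constructor
  · rintro ⟨h3, h4⟩
    constructor
    · rw [← Real.log_le_iff_le_exp h2]; linarith
    · rw [← Real.le_log_iff_exp_le h1]; linarith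
  · rintro ⟨h3, h4⟩
    rw [← Real.log_le_iff_le_exp h2] at h3
    rw [← Real.le_log_iff_exp_le h1] at h4
    exact ⟨by linarith, by linarith⟩

theorem hasDerivAt_expneg (s : ℝ) :
    HasDerivAt (fun s : ℝ => Real.exp (-s)) (-Real.exp (-s)) s := by
  have := (hasDerivAt_id s).neg.exp
  simpa using this

/-- derivative of `log (1/h)` in the depth -/
theorem Good.hasDerivAt_L (hX : Good X β K) {k : ℕ} {s : ℝ} (h : X.Win k (Real.exp (-s))) :
    HasDerivAt (fun s => X.L k (Real.exp (-s)))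
      (Real.exp (-s) * X.H' k (Real.exp (-s)) / X.H k (Real.exp (-s)) - 2) s := by
  have ht := Real.exp_pos (-s)
  have hh := hX.h_pos h
  have hH := hX.H_pos k _ h
  have h1 := (hX.hasDerivAt_h h).comp s (hasDerivAt_expneg s)
  have h2 := (h1.inv hh.ne').log (inv_pos.2 hh).ne'
  refine h2.congr_deriv ?_
  simp only [Function.comp, Pi.inv_apply, Chain.h]
  field_simp

/-- derivative of the frequency in the depth -/
theorem Good.hasDerivAt_M (hX : Good X β K) {k : ℕ} {s : ℝ} (h : X.Win k (Real.exp (-s))) :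
    HasDerivAt (fun s => X.a k (Real.exp (-s)) / X.H k (Real.exp (-s)))
      (-(Real.exp (-s) * X.a' k (Real.exp (-s))) / X.H k (Real.exp (-s)) +
        X.a k (Real.exp (-s)) / X.H k (Real.exp (-s)) *
          (Real.exp (-s) * X.H' k (Real.exp (-s)) / X.H k (Real.exp (-s)))) s := by
  have ht := Real.exp_pos (-s)
  have hH := hX.H_pos k _ h
  have h1 := (hX.hasa k _ h).comp s (hasDerivAt_expneg s)
  have h2 := (hX.hasH k _ h).comp s (hasDerivAt_expneg s)
  have h3 := h1.div h2 hH.ne'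
  refine h3.congr_deriv ?_
  simp only [Function.comp]
  field_simp
  ring

/-- the pointwise facts at small scales -/
theorem Good.lpt (hX : Good X β K) {Λ : ℝ} (hΛ : 1 ≤ Λ)
    (hbdd : ∃ t₀ > 0, ∀ k t, X.Win k t → t ≤ t₀ → X.Bdd t (Λ * X.h k t))
    (hM : ∃ t₀ > 0, ∀ k t, X.Win k t → t ≤ t₀ → X.a k t ≤ Λ * X.H k t) :
    ∃ C ≥ 0, ∃ t₀ > 0, ∀ k t, X.Win k t → t ≤ t₀ →
      LPt (C * (t ^ gam X β + ((X.L k t)⁻¹) ^ 2)) Λ (t * X.H' k t / X.H k t - 2)
        (-(t * X.a' k t) / X.H k t + X.a k t / X.H k t * (t * X.H' k t / X.H k t))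
        (X.a k t / X.H k t) (X.j k t / X.H k t) (X.b k t / X.H k t) ∧
      C * (t ^ gam X β + ((X.L k t)⁻¹) ^ 2) ≤ 1 := by
  obtain ⟨tb, htb, hbdd⟩ := hbdd
  obtain ⟨tM, htM, hM⟩ := hM
  obtain ⟨tq, htq, hode⟩ := hX.ode
  obtain ⟨C₁, hC₁, tl, htl, hlow⟩ := hX.low
  have hκ := hX.κ_nn
  have hK : 0 < K := by linarith [hX.K_one]
  have hΛ0 : 0 < Λ := by linarith
  obtain ⟨C₂, hC₂⟩ : ∃ C₂, C₂ = 8 * C₁ * Λ + X.κ := ⟨_, rfl⟩
  have hCL : Λ ≤ C₁ * Λ := le_mul_of_one_le_left hΛ0.le hC₁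
  have hC₁Λ : 1 ≤ C₁ * Λ := hΛ.trans hCL
  have hC₂0 : 1 ≤ C₂ := by rw [hC₂]; linarith
  obtain ⟨D, hD⟩ : ∃ D, D = (3 + 2 * Λ) * C₂ := ⟨_, rfl⟩
  have hDC : C₂ ≤ D := by
    rw [hD]
    exact le_mul_of_one_le_left (by linarith) (by linarith)
  have hD0 : 0 < D := by linarith
  -- smallness
  obtain ⟨t₁, ht₁, hs₁⟩ := small_t (q := gam X β) hX.gam_pos (show 0 < 1 / (16 * D) by positivity)
  obtain ⟨S₁, hS₁, hs₂⟩ := small_S (q := 1) one_pos (max (2 * Real.log Λ) (16 * D))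
  obtain ⟨t₂, ht₂, hs₃⟩ := small_t (q := β) hX.β_pos
    (show 0 < min (min tq tl) S₁ / (Λ * K) by positivity)
  refine ⟨D, hD0.le, min (min (min tb tM) (min tq tl)) (min t₁ t₂), by positivity, ?_⟩
  intro k t hw ht
  have ht0 := hX.win_pos hw
  have ht1 := hX.le_one hw
  have gb : t ≤ tb := ht.trans ((min_le_left _ _).trans ((min_le_left _ _).trans (min_le_left _ _)))
  have gM : t ≤ tM := ht.trans ((min_le_left _ _).trans ((min_le_left _ _).trans (min_le_right _ _)))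
  have go : t ≤ tq := ht.trans ((min_le_left _ _).trans ((min_le_right _ _).trans (min_le_left _ _)))
  have gl : t ≤ tl := ht.trans ((min_le_left _ _).trans ((min_le_right _ _).trans (min_le_right _ _)))
  have g1 : t ≤ t₁ := ht.trans ((min_le_right _ _).trans (min_le_left _ _))
  have g2 : t ≤ t₂ := ht.trans ((min_le_right _ _).trans (min_le_right _ _))
  have hh := hX.h_pos hw
  have hH := hX.H_pos k t hw
  have hB := hbdd k t hw gb
  obtain ⟨S, hS⟩ : ∃ S, S = Λ * X.h k t := ⟨_, rfl⟩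
  rw [← hS] at hB
  have hS0 : 0 < S := by rw [hS]; positivity
  have hhK : S ≤ min (min tq tl) S₁ := by
    have h1 := hs₃ t ht0 g2
    have h2 := hX.power k t hw
    rw [hS]
    calc Λ * X.h k t ≤ Λ * (K * t ^ β) := mul_le_mul_of_nonneg_left h2 hΛ0.le
      _ ≤ Λ * (K * (min (min tq tl) S₁ / (Λ * K))) := by gcongr
      _ = _ := by field_simp
  have hSto : S ≤ tq := hhK.trans ((min_le_left _ _).trans (min_le_left _ _))
  have hStl : S ≤ tl := hhK.trans ((min_le_left _ _).trans (min_le_right _ _))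
  have hSS₁ : S ≤ S₁ := hhK.trans (min_le_right _ _)
  have hhS : X.h k t ≤ S := by rw [hS]; exact le_mul_of_one_le_left hh.le hΛ
  -- logarithms
  have hL : X.L k t = Real.log S⁻¹ + Real.log Λ := by
    rw [Chain.L, hS, Real.log_inv, Real.log_inv, Real.log_mul hΛ0.ne' hh.ne']
    ring
  have hlogΛ : 0 ≤ Real.log Λ := Real.log_nonneg hΛ
  have hlogS := (hs₂ S hS0 hSS₁).1
  have hlogS1 : 2 * Real.log Λ ≤ Real.log S⁻¹ := (le_max_left _ _).trans hlogS
  have hlogS2 : 16 * D ≤ Real.log S⁻¹ := (le_max_right _ _).trans hlogS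
  have hD1 : 1 ≤ D := by linarith
  obtain ⟨l, hl⟩ : ∃ l, l = Real.log S⁻¹ := ⟨_, rfl⟩
  rw [← hl] at hL hlogS1 hlogS2
  obtain ⟨L, hLd⟩ : ∃ L, L = X.L k t := ⟨_, rfl⟩
  rw [← hLd] at hL ⊢
  have hLl : L ≤ 2 * l := by rw [hL]; linarith
  have hlL : l ≤ L := by rw [hL]; linarith
  have hl16 : 16 ≤ l := by linarith
  have hL0 : 0 < L := by linarith
  have hl0 : 0 < l := by linarith
  have hinv : l⁻¹ ≤ 2 * L⁻¹ := by
    calc l⁻¹ ≤ (L / 2)⁻¹ := inv_anti₀ (by positivity) (by linarith)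
      _ = 2 * L⁻¹ := by rw [inv_div]; ring
  have hinv2 : (l⁻¹) ^ 2 ≤ 4 * (L⁻¹) ^ 2 := by
    calc (l⁻¹) ^ 2 ≤ (2 * L⁻¹) ^ 2 := pow_le_pow_left₀ (by positivity) hinv 2
      _ = _ := by ring
  have hinv3 : (l⁻¹) ^ 3 ≤ 4 * (L⁻¹) ^ 2 := by
    have h1 : l⁻¹ ≤ 1 := inv_le_one_of_one_le₀ (by linarith)
    have h2 : (l⁻¹) ^ 3 ≤ (l⁻¹) ^ 2 := pow_le_pow_of_le_one (by positivity) h1 (by norm_num)
    linarith
  -- the error
  obtain ⟨e, he⟩ : ∃ e, e = C₂ * (t ^ gam X β + (L⁻¹) ^ 2) := ⟨_, rfl⟩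
  have htg : 0 < t ^ gam X β := by positivity
  have hg1 := hs₁ t ht0 g1
  have hLsq : (L⁻¹) ^ 2 ≤ 1 / (16 * D) := by
    have h1 : L⁻¹ ≤ (16 * D)⁻¹ := inv_anti₀ (by positivity) (by linarith)
    have h2 : L⁻¹ ≤ 1 := inv_le_one_of_one_le₀ (by linarith)
    have h3 : 0 < L⁻¹ := by positivity
    rw [one_div]
    have h4 : L⁻¹ * L⁻¹ ≤ (16 * D)⁻¹ * 1 := mul_le_mul h1 h2 h3.le (by positivity)
    rw [mul_one] at h4
    rw [sq]
    exact h4
  have hDe : D * (t ^ gam X β + (L⁻¹) ^ 2) ≤ 1 / 8 := by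
    calc D * (t ^ gam X β + (L⁻¹) ^ 2) ≤ D * (1 / (16 * D) + 1 / (16 * D)) :=
          mul_le_mul_of_nonneg_left (by linarith) hD0.le
      _ = 1 / 8 := by field_simp; norm_num
  have he8 : e ≤ 1 / 8 := by
    rw [he]
    refine le_trans ?_ hDe
    exact mul_le_mul_of_nonneg_right hDC (by positivity)
  have he0 : 0 ≤ e := by rw [he]; positivity
  have hr : D * (t ^ gam X β + (L⁻¹) ^ 2) = (3 + 2 * Λ) * e := by rw [hD, he]; ring
  refine ⟨?_, by linarith⟩
  rw [hr]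
  have hSt : S * t ^ 2 = Λ * X.H k t := by
    rw [hS, Chain.h]
    field_simp
  refine ode_lpt (κ := X.κ * t ^ (β - 1)) (hode k t S hw go hS0 hSto hB) ?_ he0 he8 ?_ ?_ ?_
  · -- curvature
    have h1 : X.κ * t ^ (β - 1) * t = X.κ * t ^ β := by
      have : t ^ β = t ^ (β - 1) * t := by
        rw [← Real.rpow_add_one ht0.ne']; ring_nf
      rw [this]; ring
    have h2 : t ^ β ≤ t ^ gam X β := Real.rpow_le_rpow_of_exponent_ge ht0 ht1 hX.gam_le
    rw [h1, he]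
    have h3 : X.κ * t ^ β ≤ X.κ * t ^ gam X β := mul_le_mul_of_nonneg_left h2 hκ
    have h4 : X.κ ≤ C₂ := by rw [hC₂]; linarith
    have h5 : X.κ * t ^ gam X β ≤ C₂ * t ^ gam X β := mul_le_mul_of_nonneg_right h4 htg.le
    have h6 : 0 ≤ C₂ * (L⁻¹) ^ 2 := by positivity
    linarith
  · -- absolute error
    have h1 : (Real.log S⁻¹)⁻¹ ^ 3 * S * t ^ 2 = (l⁻¹) ^ 3 * Λ * X.H k t := by
      rw [mul_assoc, hSt, hl]; ring
    rw [h1]
    refine mul_le_mul_of_nonneg_right ?_ hH.le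
    rw [he]
    have h2 : (l⁻¹) ^ 3 * Λ ≤ 4 * (L⁻¹) ^ 2 * Λ := mul_le_mul_of_nonneg_right hinv3 hΛ0.le
    have h3 : 4 * Λ ≤ C₂ := by rw [hC₂]; linarith
    have h4 : 4 * Λ * (L⁻¹) ^ 2 ≤ C₂ * (L⁻¹) ^ 2 := mul_le_mul_of_nonneg_right h3 (by positivity)
    have h5 : 0 ≤ C₂ * t ^ gam X β := by positivity
    linarith
  · exact hM k t hw gM
  · have h1 := hlow k t S hw gl hS0 hStl hB
    have h2 : C₁ * (t ^ gam X β + (Real.log S⁻¹)⁻¹ ^ 2) * S * t ^ 2 =
        C₁ * Λ * (t ^ gam X β + (l⁻¹) ^ 2) * X.H k t := by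
      rw [mul_assoc _ S, hSt, hl]; ring
    rw [h2] at h1
    have h3 : C₁ * Λ * (t ^ gam X β + (l⁻¹) ^ 2) ≤ e := by
      rw [he]
      have h4 : C₁ * Λ * (t ^ gam X β + (l⁻¹) ^ 2) ≤
          C₁ * Λ * (t ^ gam X β + 4 * (L⁻¹) ^ 2) :=
        mul_le_mul_of_nonneg_left (by linarith) (by linarith)
      have h5 : 0 ≤ (L⁻¹) ^ 2 := by positivity
      have h6 : 0 ≤ (C₁ * Λ) * (L⁻¹) ^ 2 := by positivity
      have h7 : 0 ≤ (C₁ * Λ) * t ^ gam X β := by positivity
      have h8 : 0 ≤ X.κ * (t ^ gam X β + (L⁻¹) ^ 2) := by positivity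
      have h9 : C₂ * (t ^ gam X β + (L⁻¹) ^ 2) = 8 * ((C₁ * Λ) * t ^ gam X β) +
          8 * ((C₁ * Λ) * (L⁻¹) ^ 2) + X.κ * (t ^ gam X β + (L⁻¹) ^ 2) := by rw [hC₂]; ring
      have h10 : C₁ * Λ * (t ^ gam X β + 4 * (L⁻¹) ^ 2) = (C₁ * Λ) * t ^ gam X β +
          4 * ((C₁ * Λ) * (L⁻¹) ^ 2) := by ring
      rw [h9]
      rw [h10] at h4
      linarith
    have h4 := mul_le_mul_of_nonneg_right h3 hH.le
    linarith

/-- the jumps of `M` and `L` at a switch, from the height bounds on both sides -/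
theorem Good.jump_of (hX : Good X β K) {Λ : ℝ} (hΛ : 1 ≤ Λ) {k : ℕ}
    (hB1 : X.Bdd (X.T (k + 1)) (Λ * X.h k (X.T (k + 1))))
    (hB2 : X.Bdd (X.T (k + 1)) (Λ * X.h (k + 1) (X.T (k + 1))))
    (hM0 : 0 ≤ X.a k (X.T (k + 1))) (hM1 : X.a k (X.T (k + 1)) ≤ Λ * X.H k (X.T (k + 1))) :
    X.a (k + 1) (X.T (k + 1)) / X.H (k + 1) (X.T (k + 1)) ≤
      X.a k (X.T (k + 1)) / X.H k (X.T (k + 1)) + (Λ + Λ ^ 2) * X.e k ^ X.c ∧
    X.L (k + 1) (X.T (k + 1)) ≤ X.L k (X.T (k + 1)) + (Λ + Λ ^ 2) * X.e k ^ X.c := by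
  have hc := hX.c_pos
  have hT := hX.T_pos (k + 1)
  have hwk := hX.win_bot k
  have hwk' := hX.win_top (k + 1)
  have hHk := hX.H_pos _ _ hwk
  have hHk' := hX.H_pos _ _ hwk'
  have hhk := hX.h_pos hwk
  have hhk' := hX.h_pos hwk'
  obtain ⟨g, hg0, hg1, hg2, hg3⟩ := hX.exists_jump k
  have hgk := hg3 _ _ le_rfl hB1
  have hgk' := hg3 _ _ le_rfl hB2
  have hΛ0 : 0 < Λ := by linarith
  set T := X.T (k + 1) with hTd
  have hT2 : 0 < T ^ 2 := by positivity
  have hgc : g ^ X.c ≤ X.e k ^ X.c := Real.rpow_le_rpow hg0.le hg2 hc.le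
  have hgc0 : 0 < g ^ X.c := by positivity
  have hg1c : g ^ (1 + X.c) = g * g ^ X.c := by rw [Real.rpow_add hg0, Real.rpow_one]
  obtain ⟨u, hu⟩ : ∃ u, u = X.e k ^ X.c := ⟨_, rfl⟩
  have hu0 : 0 < u := by rw [hu]; exact hgc0.trans_le hgc
  rw [← hu]
  -- the jump in units of `H (k+1)`
  have hbound : T ^ 2 * g ^ (1 + X.c) ≤ Λ * u * X.H (k + 1) T := by
    rw [hg1c]
    have e1 : X.h (k + 1) T * T ^ 2 = X.H (k + 1) T := by
      rw [Chain.h]; field_simp
    calc T ^ 2 * (g * g ^ X.c) ≤ T ^ 2 * ((Λ * X.h (k + 1) T) * u) := by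
          refine mul_le_mul_of_nonneg_left ?_ hT2.le
          rw [hu]
          exact mul_le_mul hgk' hgc hgc0.le (by positivity)
      _ = Λ * u * (X.h (k + 1) T * T ^ 2) := by ring
      _ = _ := by rw [e1]
  have hJ1 : |X.H (k + 1) T - X.H k T| ≤ Λ * u * X.H (k + 1) T := hg1.1.trans hbound
  have hJ2 : |X.a (k + 1) T - X.a k T| ≤ Λ * u * X.H (k + 1) T := hg1.2.trans hbound
  have hJ1' : X.H k T - X.H (k + 1) T ≤ Λ * u * X.H (k + 1) T := by
    have := neg_le_of_abs_le hJ1; linarith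
  have hJ2' : X.a (k + 1) T - X.a k T ≤ Λ * u * X.H (k + 1) T := le_of_abs_le hJ2
  constructor
  · -- M
    have e1 : X.a (k + 1) T / X.H (k + 1) T = X.a k T / X.H k T +
        ((X.a (k + 1) T - X.a k T) / X.H (k + 1) T +
          X.a k T / X.H k T * ((X.H k T - X.H (k + 1) T) / X.H (k + 1) T)) := by
      field_simp
      ring
    rw [e1]
    have f1 : (X.a (k + 1) T - X.a k T) / X.H (k + 1) T ≤ Λ * u := by
      rw [div_le_iff₀ hHk']; exact hJ2'
    have f2 : (X.H k T - X.H (k + 1) T) / X.H (k + 1) T ≤ Λ * u := by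
      rw [div_le_iff₀ hHk']; exact hJ1'
    have f3 : X.a k T / X.H k T ≤ Λ := by rw [div_le_iff₀ hHk]; exact hM1
    have f4 : 0 ≤ X.a k T / X.H k T := div_nonneg hM0 hHk.le
    have f5 : X.a k T / X.H k T * ((X.H k T - X.H (k + 1) T) / X.H (k + 1) T) ≤
        Λ * (Λ * u) :=
      (mul_le_mul_of_nonneg_left f2 f4).trans (mul_le_mul_of_nonneg_right f3 (by positivity))
    have e2 : (Λ + Λ ^ 2) * u = Λ * u + Λ * (Λ * u) := by ring
    rw [e2]
    linarith
  · -- L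
    have e1 : X.L (k + 1) T - X.L k T = Real.log (X.h k T / X.h (k + 1) T) := by
      rw [Chain.L, Chain.L, Real.log_inv, Real.log_inv, Real.log_div hhk.ne' hhk'.ne']
      ring
    have e2 : X.h k T / X.h (k + 1) T = X.H k T / X.H (k + 1) T := by
      rw [Chain.h, Chain.h]
      field_simp
    have f1 : Real.log (X.H k T / X.H (k + 1) T) ≤ X.H k T / X.H (k + 1) T - 1 :=
      Real.log_le_sub_one_of_pos (by positivity)
    have f2 : X.H k T / X.H (k + 1) T - 1 ≤ Λ * u := by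
      rw [sub_le_iff_le_add, div_le_iff₀ hHk']
      linarith
    rw [e2] at e1
    have f3 : 0 ≤ Λ ^ 2 * u := by positivity
    have e3 : (Λ + Λ ^ 2) * u = Λ * u + Λ ^ 2 * u := by ring
    rw [e3]
    linarith

/-- **convergence of the frequency and pinched scales** -/
theorem Good.pinch_of (hX : Good X β K) {Λ : ℝ} (hΛ : 1 ≤ Λ)
    (hbdd : ∃ t₀ > 0, ∀ k t, X.Win k t → t ≤ t₀ → X.Bdd t (Λ * X.h k t))
    (hM : ∃ t₀ > 0, ∀ k t, X.Win k t → t ≤ t₀ → X.a k t ≤ Λ * X.H k t) :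
    ∃ M₀, 1 < M₀ ∧ M₀ ≤ Λ ∧
      ∀ δ > 0, ∃ t₀ > 0, ∀ t, 0 < t → t ≤ t₀ → ∃ k s, X.Win k s ∧ t ≤ s ∧ s ≤ 2 * t ∧
        |X.a k s / X.H k s - M₀| ≤ δ ∧ |X.j k s / X.H k s - M₀| ≤ δ ∧
        X.b k s * X.H k s - X.j k s ^ 2 ≤ δ * X.H k s ^ 2 := by
  obtain ⟨D, hD, tp, htp, hpt⟩ := hX.lpt hΛ hbdd hM
  obtain ⟨tb, htb, hbdd⟩ := hbdd
  obtain ⟨tM, htM, hM⟩ := hM
  have hK : 0 < K := by linarith [hX.K_one]
  have hlogK : 0 ≤ Real.log K := Real.log_nonneg hX.K_one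
  have hγ := hX.gam_pos
  have hexp : ∀ (s τ : ℝ), 0 < τ → -Real.log τ ≤ s → Real.exp (-s) ≤ τ := by
    intro s τ hτ hs
    rw [← Real.le_log_iff_exp_le hτ]
    linarith
  have hdata : LData (pp X) (fun k s => X.L k (Real.exp (-s)))
      (fun k s => X.a k (Real.exp (-s)) / X.H k (Real.exp (-s)))
      (fun k s => Real.exp (-s) * X.H' k (Real.exp (-s)) / X.H k (Real.exp (-s)) - 2)
      (fun k s => -(Real.exp (-s) * X.a' k (Real.exp (-s))) / X.H k (Real.exp (-s)) +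
        X.a k (Real.exp (-s)) / X.H k (Real.exp (-s)) *
          (Real.exp (-s) * X.H' k (Real.exp (-s)) / X.H k (Real.exp (-s))))
      (fun k s => X.j k (Real.exp (-s)) / X.H k (Real.exp (-s)))
      (fun k s => X.b k (Real.exp (-s)) / X.H k (Real.exp (-s)))
      (fun k => (Λ + Λ ^ 2) * X.e k ^ X.c) (D + Real.log K) (gam X β) Λ :=
    { C_nn := by positivity
      γ_pos := hγ
      p_mono := by
        intro i j hij
        have := Real.log_lt_log (hX.T_pos j) (hX.T_anti hij)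
        show -Real.log (X.T i) < -Real.log (X.T j)
        linarith
      p_lim := by
        have h1 : Tendsto X.T atTop (𝓝[>] 0) :=
          tendsto_nhdsWithin_of_tendsto_nhds_of_eventually_within _ hX.T_lim
            (Eventually.of_forall fun k => hX.T_pos k)
        exact tendsto_neg_atBot_atTop.comp (Real.tendsto_log_nhdsGT_zero.comp h1)
      J_nn := fun k => mul_nonneg (by positivity) (Real.rpow_nonneg (hX.e_pos k).le _)
      J_sum := hX.summable_e.mul_left _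
      ev := by
        refine ⟨max (-Real.log tp) 0, fun k s h1 h2 hs => ?_⟩
        have hw := hX.win_iff.1 ⟨h1, h2⟩
        have ht := hexp s tp htp ((le_max_left _ _).trans hs)
        have hs0 : 0 ≤ s := (le_max_right _ _).trans hs
        obtain ⟨h3, h4⟩ := hpt k _ hw ht
        refine ⟨hX.hasDerivAt_L hw, hX.hasDerivAt_M hw, ?_, h3.mono ?_ h4⟩
        · have hh := hX.h_pos hw
          have h5 := Real.log_le_log hh (hX.power k _ hw)
          rw [Real.log_mul hK.ne' (by positivity), Real.log_rpow (Real.exp_pos _),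
            Real.log_exp] at h5
          have h6 : gam X β * s ≤ β * s := mul_le_mul_of_nonneg_right hX.gam_le hs0
          rw [Chain.L, Real.log_inv]
          linarith
        · have h5 : Real.exp (-s) ^ gam X β = Real.exp (-(gam X β * s)) := by
            rw [← Real.exp_mul]; ring_nf
          rw [h5]
          exact mul_le_mul_of_nonneg_right (by linarith) (by positivity)
      jump := by
        refine ⟨-Real.log (min (min tb tM) tp), fun k hk => ?_⟩
        have hT : Real.exp (-pp X (k + 1)) = X.T (k + 1) := by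
          rw [pp, neg_neg, Real.exp_log (hX.T_pos _)]
        have hTle : X.T (k + 1) ≤ min (min tb tM) tp := by
          rw [← hT]
          exact hexp _ _ (by positivity) hk
        have hTb : X.T (k + 1) ≤ tb := hTle.trans ((min_le_left _ _).trans (min_le_left _ _))
        have hTM : X.T (k + 1) ≤ tM := hTle.trans ((min_le_left _ _).trans (min_le_right _ _))
        have hTp : X.T (k + 1) ≤ tp := hTle.trans (min_le_right _ _)
        have hwk := hX.win_bot k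
        have hwk' := hX.win_top (k + 1)
        simp only [hT]
        refine hX.jump_of hΛ (hbdd k _ hwk hTb) (hbdd (k + 1) _ hwk' hTb) ?_ (hM k _ hwk hTM)
        obtain ⟨h3, h4⟩ := hpt k _ hwk hTp
        have h5 : 0 ≤ X.a k (X.T (k + 1)) / X.H k (X.T (k + 1)) := by
          have := h3.M_ge; linarith
        have hH := hX.H_pos _ _ hwk
        have h6 := mul_nonneg h5 hH.le
        rwa [div_mul_cancel₀ _ hH.ne'] at h6 }
  obtain ⟨M₀, h1, h2, -, h3⟩ := hdata.lim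
  refine ⟨M₀, by linarith, h2, ?_⟩
  intro δ hδ
  obtain ⟨s₀, hs₀⟩ := h3 (Real.log 2) (Real.log_pos (by norm_num)) δ hδ
  refine ⟨Real.exp (-s₀) / 2, by positivity, fun t ht0 ht => ?_⟩
  have hs : s₀ ≤ -Real.log (2 * t) := by
    have h4 : Real.log (2 * t) ≤ -s₀ := by
      rw [Real.log_le_iff_le_exp (by positivity)]
      linarith
    linarith
  obtain ⟨k, x, hk1, hk2, hx1, hx2, hx3, hx4, hx5⟩ := hs₀ _ hs
  have hw := hX.win_iff.1 ⟨hk1, hk2⟩
  have hH := hX.H_pos _ _ hw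
  refine ⟨k, Real.exp (-x), hw, ?_, ?_, hx3, hx4, ?_⟩
  · rw [← Real.log_le_iff_le_exp ht0]
    rw [Real.log_mul (by norm_num) ht0.ne'] at hx2
    linarith
  · exact hexp _ _ (by positivity) hx1
  · have e1 : X.b k (Real.exp (-x)) * X.H k (Real.exp (-x)) - X.j k (Real.exp (-x)) ^ 2 =
        (X.b k (Real.exp (-x)) / X.H k (Real.exp (-x)) -
          (X.j k (Real.exp (-x)) / X.H k (Real.exp (-x))) ^ 2) * X.H k (Real.exp (-x)) ^ 2 := by
      field_simp
    rw [e1]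
    exact mul_le_mul_of_nonneg_right hx5 (by positivity)

end

end Vale.Agent.P214.BABS
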