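import Vale.Agent.P214.BABS.Fin
import Vale.Agent.P214.BABS.Pinch

/-!
# P214, block BABS: the theorem **[B2]**
-/

namespace Vale.Agent.P214.BABS

open ABS

/-- **[B2]** the limit of the frequency, doubling, pinched scales -/
theorem b2 : B2Stmt := by
  intro X β K hX
  obtain ⟨Λ, hP⟩ := hX.pre
  obtain ⟨M₀, h1, h2, h3⟩ := hX.pinch_of hP.one_le hP.bdd hP.a_le
  exact ⟨M₀, Λ, h1, h2, hP.bdd, hP.grow, h3, hX.room hP⟩

end Vale.Agent.P214.BABS
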