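import Vale.Agent.P214.BABS.Boot
import Vale.Agent.P214.ABS.Max

/-!
# P214, block BABS: the good starting point as a maximum point, and the bounds for `M`
-/

open Set Filter Topology

namespace Vale.Agent.P214.BABS

open ABS

noncomputable section

variable {F : Flow} {C γ : ℝ}

/-- every depth beyond `p 0` lies in a window -/
theorem FGood.exists_win (hF : FGood F C γ) {s : ℝ} (hs : F.p 0 ≤ s) : ∃ k, F.Win k s := by
  classical
  have hex : ∃ l, s ≤ F.p (l + 1) := by
    obtain ⟨N, hN⟩ := (hF.p_lim.eventually_ge_atTop s).exists_forall_of_atTop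
    exact ⟨N, hN _ (by omega)⟩
  refine ⟨Nat.find hex, ?_, Nat.find_spec hex⟩
  rcases Nat.eq_zero_or_pos (Nat.find hex) with h0 | h0
  · rw [h0]; exact hs
  · obtain ⟨n, hn⟩ := Nat.exists_eq_succ_of_ne_zero h0.ne'
    have := Nat.find_min hex (m := n) (by omega)
    push Not at this
    rw [hn]
    exact this.le

/-- **the good starting point** -/
theorem FGood.start (hF : FGood F C γ) (A : ℝ) : ∃ k₁ s₁, A ≤ s₁ ∧ Start F C γ k₁ s₁ := by
  obtain ⟨sd, hdeep⟩ := hF.deep
  obtain ⟨sf', hfact'⟩ := hF.fact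
  obtain ⟨ss, hswitch⟩ := hF.switch
  set sf := max sf' ss with hsfdef
  have hfact : ∀ k s, F.Win k s → sf ≤ s → F.Up k s →
      ∃ N, Pt (C * (Real.exp (-(γ * s)) + ((F.L k s)⁻¹) ^ 2)) (F.L' k s) (F.M' k s) (F.M k s) N :=
    fun k s hk hs hU => hfact' k s hk ((le_max_left _ _).trans hs) hU
  have hC := hF.C_nn
  -- constants
  set B : ℝ := 200 + 4 * C + 8 * (C / γ) with hB
  have hCγ : 0 ≤ C / γ := div_nonneg hC hF.γ_pos.le
  obtain ⟨sL, hsL⟩ := hF.L_lim B
  obtain ⟨a, ha1, ha2⟩ : ∃ a : ℝ, max (max (F.p 0) (max sd sf)) (max sL A) + 2 ≤ a ∧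
      C * (Real.exp (-(γ * a)) / γ) ≤ 1 / 4 := by
    have h1 : Tendsto (fun a : ℝ => C * (Real.exp (-(γ * a)) / γ)) atTop (𝓝 (C * (0 / γ))) := by
      refine (Tendsto.div_const ?_ γ).const_mul C
      refine Real.tendsto_exp_neg_atTop_nhds_zero.comp ?_
      exact tendsto_id.const_mul_atTop hF.γ_pos
    rw [zero_div, mul_zero] at h1
    have h2 := (h1.eventually (ge_mem_nhds (by norm_num : (0 : ℝ) < 1 / 4))).and
      (eventually_ge_atTop (max (max (F.p 0) (max sd sf)) (max sL A) + 2))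
    obtain ⟨a, h3, h4⟩ := h2.exists
    exact ⟨a, h4, h3⟩
  have hp0 : F.p 0 + 2 ≤ a := by
    have := le_max_left (max (F.p 0) (max sd sf)) (max sL A)
    have := le_max_left (F.p 0) (max sd sf)
    linarith
  have hsd : sd + 2 ≤ a := by
    have := le_max_left (max (F.p 0) (max sd sf)) (max sL A)
    have := le_max_right (F.p 0) (max sd sf)
    have := le_max_left sd sf
    linarith
  have hsf : sf + 2 ≤ a := by
    have := le_max_left (max (F.p 0) (max sd sf)) (max sL A)
    have := le_max_right (F.p 0) (max sd sf)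
    have := le_max_right sd sf
    linarith
  have hsL' : sL + 2 ≤ a := by
    have := le_max_right (max (F.p 0) (max sd sf)) (max sL A)
    have := le_max_left sL A
    linarith
  have hsA : A + 2 ≤ a := by
    have := le_max_right (max (F.p 0) (max sd sf)) (max sL A)
    have := le_max_right sL A
    linarith
  have hLB : ∀ k s, F.Win k s → a - 1 ≤ s → B ≤ F.L k s := fun k s hk hs =>
    hsL k s hk (by linarith)
  -- number of windows
  obtain ⟨n, hn⟩ : ∃ n, a + 1 < F.p n := by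
    obtain ⟨N, hN⟩ := (hF.p_lim.eventually_gt_atTop (a + 1)).exists_forall_of_atTop
    exact ⟨N, hN N le_rfl⟩
  have hlt_n : ∀ i x, F.Win i x → x ≤ a + 1 → i < n := by
    intro i x hi hx
    by_contra hcon
    push Not at hcon
    have h1 : F.p n ≤ F.p i := hF.p_mono.monotone hcon
    have h2 := hi.1
    linarith
  set g : ℕ → ℝ → ℝ := fun k s => 2 * (F.L k s)⁻¹ + s with hg
  have hgc : ∀ k, ContinuousOn (g k) (Icc (F.p k) (F.p (k + 1))) := by
    intro k s hs
    have h1 : ContinuousAt (F.L k) s := (hF.derL k s hs).continuousAt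
    have h2 : F.L k s ≠ 0 := by have := hF.L_ge k s hs; positivity
    exact ((h1.inv₀ h2).const_mul 2 |>.add continuousAt_id).continuousWithinAt
  obtain ⟨kb, hkb⟩ := hF.exists_win (s := a + 1) (by linarith)
  obtain ⟨k₁, hk₁n, s₁, hw, hs1, hs2, hmax'⟩ := Flow.exists_max (F := F) (a := a - 1) (b := a + 1) hgc n
    ⟨kb, hlt_n kb _ hkb le_rfl, a + 1, hkb, by linarith, le_rfl⟩
  have hmax : ∀ i x, F.Win i x → a - 1 ≤ x → x ≤ a + 1 → g i x ≤ g k₁ s₁ := fun i x hi h1 h2 =>
    hmax' i (hlt_n i x hi h2) x hi h1 h2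
  have hB100 : 100 ≤ B := by rw [hB]; linarith
  have hs₁a : a < s₁ := by
    by_contra hcon
    push Not at hcon
    have h1 := hmax kb (a + 1) hkb (by linarith) le_rfl
    have h2 : 100 ≤ F.L k₁ s₁ := hB100.trans (hLB k₁ s₁ hw hs1)
    have h3 : (F.L k₁ s₁)⁻¹ ≤ 1 / 100 := by
      rw [inv_le_comm₀ (by linarith) (by norm_num)]; norm_num; exact h2
    have h4 : 0 ≤ (F.L kb (a + 1))⁻¹ := by
      have := hF.L_ge kb _ hkb
      positivity
    simp only [hg] at h1
    linarith
  have hric : ∀ i x, F.Win i x → x ≤ s₁ → s₁ - x ≤ 2 * ((F.L i x)⁻¹) ^ 6 →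
      F.L k₁ s₁ ≤ F.L i x + 1 := by
    intro i x hi hxs hc
    have h9 := hF.L_ge i x hi
    have h1 : (F.L i x)⁻¹ ≤ 1 := inv_le_one_of_one_le₀ (by linarith)
    have h0 : 0 ≤ (F.L i x)⁻¹ := by positivity
    have h2 : ((F.L i x)⁻¹) ^ 6 ≤ 1 / 9 := by
      have h3 : (F.L i x)⁻¹ ≤ 1 / 9 := by
        rw [inv_le_comm₀ (by linarith) (by norm_num)]; norm_num; exact h9
      calc ((F.L i x)⁻¹) ^ 6 ≤ (1 / 9) ^ 6 := pow_le_pow_left₀ h0 h3 6
        _ ≤ 1 / 9 := by norm_num
    have h3 := hmax i x hi (by linarith) (by linarith)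
    exact Flow.ric_aux h9 h3 hc
  have hUp₁ : F.Up k₁ s₁ := by
    intro i x hi hxs hc
    have := hric i x hi hxs hc
    linarith
  obtain ⟨N, hN⟩ := hfact k₁ s₁ hw (by linarith) hUp₁
  have hL1 : B ≤ F.L k₁ s₁ := hLB k₁ s₁ hw (by linarith)
  -- bound of `M`
  have hder : ∃ k, F.Win k s₁ ∧ F.p k < s₁ ∧ F.L k s₁ = F.L k₁ s₁ ∧ F.M k s₁ = F.M k₁ s₁ := by
    rcases eq_or_lt_of_le hw.1 with heq | hlt
    · have hk0 : k₁ ≠ 0 := by
        intro h0
        rw [h0] at heq
        linarith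
      obtain ⟨k, rfl⟩ := Nat.exists_eq_succ_of_ne_zero hk0
      have heq' : F.p (k + 1) = s₁ := heq
      rcases hswitch k (by rw [heq']; exact (le_max_right sf' ss).trans (by linarith)) with
        ⟨h1, h2⟩ | ⟨l, x, hl, hxp, hc, h1, h2⟩
      · rw [heq'] at h1 h2
        exact ⟨k, ⟨by rw [← heq']; exact (hF.p_mono (Nat.lt_succ_self k)).le, heq'.symm.le⟩,
          by rw [← heq']; exact hF.p_mono (Nat.lt_succ_self k), h1.symm, h2.symm⟩
      · exfalso
        rw [heq'] at hxp hc h2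
        have := hric l x hl hxp hc
        have h3 : F.L l x + 9 ≤ F.L (k + 1) s₁ := h2
        linarith
    · exact ⟨k₁, hw, hlt, rfl, rfl⟩
  have hMb : F.M k₁ s₁ ≤ (F.L k₁ s₁) ^ 2 := by
    obtain ⟨k, hwk, hlt, hLk, hMk⟩ := hder
    have hUpk : F.Up k s₁ := by
      intro i x hi hxs hc
      have := hUp₁ i x hi hxs hc
      rw [hLk]; exact this
    obtain ⟨N', hN'⟩ := hfact k s₁ hwk (by linarith) hUpk
    have h1 : F.L' k s₁ ≤ F.L k s₁ ^ 2 / 2 := by
      refine Flow.deriv_le_of_max (r := max (F.p k) (a - 1)) (hF.derL k s₁ hwk)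
        (by have := hF.L_ge k s₁ hwk; linarith) (max_lt hlt (by linarith)) ?_
      · intro x h1 h2
        have h3 := hmax k x ⟨(le_max_left _ _).trans h1, h2.trans hwk.2⟩
          ((le_max_right _ _).trans h1) (by linarith)
        simp only [hg] at h3
        rw [hLk]
        exact h3
    have h2 := hN'.lo
    have h3 := hN'.MN
    rw [hMk] at h3
    rw [hLk] at h1
    nlinarith
  -- the start
  have hlam : 100 + 4 * (C / γ) ≤ F.L k₁ s₁ / 2 - C := by rw [hB] at hL1; linarith
  have hstart : Start F C γ k₁ s₁ :=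
    { C_nn := hC
      γ_pos := hF.γ_pos
      γ_le := hF.γ_le
      p_mono := hF.p_mono
      derL := hF.derL
      derM := hF.derM
      L_ge := hF.L_ge
      switch := fun k hk => hswitch k ((le_max_right sf' ss).trans (by linarith))
      win := hw
      deepS := fun i x hi hx => hdeep k₁ s₁ hw (by linarith) hUp₁ i x hi hx
      ric := hric
      Mb := hMb
      Mn := by have := hN.Mlo; linarith
      factS := fun k s hk hs hU => hfact k s hk (by linarith) hU
      big := by rw [hB] at hL1; linarith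
      small := by
        have h1 : C * (Real.exp (-(γ * s₁)) / γ) ≤ 1 / 4 := by
          refine le_trans (mul_le_mul_of_nonneg_left ?_ hC) ha2
          refine div_le_div_of_nonneg_right ?_ hF.γ_pos.le
          exact Real.exp_le_exp.2 (neg_le_neg (mul_le_mul_of_nonneg_left hs₁a.le hF.γ_pos.le))
        have h2 : C * ((F.L k₁ s₁ / 2 - C)⁻¹ / γ) ≤ 1 / 4 := by
          have h3 : C * ((F.L k₁ s₁ / 2 - C)⁻¹ / γ) = (C / γ) / (F.L k₁ s₁ / 2 - C) := by
            field_simp
          rw [h3, div_le_iff₀ (by linarith)]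
          linarith
        rw [mul_add]
        linarith }
  exact ⟨k₁, s₁, by linarith, hstart⟩

end

end Vale.Agent.P214.BABS
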