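import Vale.Agent.P214.BABS.Low
import Mathlib.Analysis.Calculus.Deriv.MeanValue

/-!
# P214, block BABS: the heights are almost monotone; a bound in the collar above `t` bounds all
deeper heights
-/

open Set Filter Topology

namespace Vale.Agent.P214.BABS

open ABS

noncomputable section

variable {X : Chain} {β K : ℝ}

theorem mono_seg {φ φ' : ℝ → ℝ} {x₀ x₁ : ℝ} (h : ∀ x, x₀ ≤ x → x ≤ x₁ → HasDerivAt φ (φ' x) x)
    (h0 : ∀ x, x₀ ≤ x → x ≤ x₁ → 0 ≤ φ' x) (h1 : x₀ ≤ x₁) : φ x₀ ≤ φ x₁ := by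
  have hm : MonotoneOn φ (Icc x₀ x₁) := by
    refine monotoneOn_of_deriv_nonneg (convex_Icc x₀ x₁)
      (fun x hx => (h x hx.1 hx.2).continuousAt.continuousWithinAt) ?_ ?_
    · intro x hx
      rw [interior_Icc] at hx
      exact (h x hx.1.le hx.2.le).differentiableAt.differentiableWithinAt
    · intro x hx
      rw [interior_Icc] at hx
      rw [(h x hx.1.le hx.2.le).deriv]
      exact h0 x hx.1.le hx.2.le
  exact hm ⟨le_rfl, h1⟩ ⟨h1, le_rfl⟩ h1

/-- lower bound of the derivative of the height -/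
theorem Good.deriv_low (hX : Good X β K) : ∃ C ≥ 1, ∃ t₀ > 0, ∀ t S, t ≤ t₀ → t ≤ 1 → 0 < S →
    S ≤ t₀ → X.Bdd t S → 1 ≤ ell β K t S t → ∀ i x, X.Win i x → x ≤ t →
      -(C * (x ^ gam X β + ((ell β K t S x)⁻¹) ^ 2) * S) * x ^ 2 ≤ x * X.H' i x - 2 * X.H i x := by
  obtain ⟨t₁, ht₁, h₁⟩ := hX.ode_deep
  obtain ⟨C, hC, t₂, ht₂, h₂⟩ := hX.low
  have hκ := hX.κ_nn
  refine ⟨8 * C + 3 * X.κ + 24, by linarith, min t₁ t₂, by positivity, ?_⟩
  intro t S ht ht1 hS hSs hB hell i x hix hxt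
  have hx0 := hX.win_pos hix
  have ht0 : 0 < t := hx0.trans_le hxt
  have hx1 : x ≤ 1 := hxt.trans ht1
  obtain ⟨δ, ho, hδ⟩ := h₁ t S (ht.trans (min_le_left _ _)) ht1 hS (hSs.trans (min_le_left _ _))
    hB (by linarith) i x hix hxt
  have hp := hX.sig_pos hS hx0
  have hσS : min S (2 * K * x ^ β) ≤ S := min_le_left _ _
  have hl := h₂ i x _ hix ((hxt.trans ht).trans (min_le_right _ _)) hp
    (hσS.trans (hSs.trans (min_le_right _ _))) (hX.bdd_deep hB hx0 hxt)
  have hlog := hX.log_sig hS hx0 ht0 ht1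
  have hellx : 1 ≤ ell β K t S x := hell.trans (ell_anti hX.β_pos.le hx0 hxt)
  set l := ell β K t S x with hld
  have hlp : 0 < l := by linarith
  have hli : l⁻¹ ≤ 1 := inv_le_one_of_one_le₀ hellx
  have hlog0 : 0 < Real.log (min S (2 * K * x ^ β))⁻¹ := by linarith
  have e1 : ((Real.log (min S (2 * K * x ^ β))⁻¹)⁻¹) ^ 2 ≤ 4 * (l⁻¹) ^ 2 := by
    have h3 : (Real.log (min S (2 * K * x ^ β))⁻¹)⁻¹ ≤ 2 * l⁻¹ := by
      calc (Real.log (min S (2 * K * x ^ β))⁻¹)⁻¹ ≤ (l / 2)⁻¹ := inv_anti₀ (by positivity) hlog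
        _ = 2 * l⁻¹ := by rw [inv_div, div_eq_mul_inv]
    calc ((Real.log (min S (2 * K * x ^ β))⁻¹)⁻¹) ^ 2 ≤ (2 * l⁻¹) ^ 2 :=
          pow_le_pow_left₀ (by positivity) h3 2
      _ = _ := by ring
  have hxγ0 : 0 < x ^ gam X β := by positivity
  have hxγ : x ^ β ≤ x ^ gam X β := Real.rpow_le_rpow_of_exponent_ge hx0 hx1 hX.gam_le
  have e2 : C * (x ^ gam X β + ((Real.log (min S (2 * K * x ^ β))⁻¹)⁻¹) ^ 2)
      * min S (2 * K * x ^ β) * x ^ 2 ≤ C * (x ^ gam X β + 4 * (l⁻¹) ^ 2) * S * x ^ 2 := by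
    gcongr
  have hq : X.κ * x ^ (β - 1) * x = X.κ * x ^ β := by
    rw [Real.rpow_sub hx0, Real.rpow_one]; field_simp
  have hHS : X.H i x ≤ S * x ^ 2 := by
    have := hX.bdd_of_le hB hix hxt
    rwa [Chain.h, div_le_iff₀ (by positivity)] at this
  have hH := hX.H_pos i x hix
  have e3 : X.κ * x ^ β * X.H i x ≤ X.κ * x ^ gam X β * (S * x ^ 2) := by gcongr
  have e4 : (l⁻¹) ^ 3 ≤ (l⁻¹) ^ 2 := pow_le_pow_of_le_one (by positivity) hli (by norm_num)
  have e5 : 8 * (l⁻¹) ^ 3 * S * x ^ 2 ≤ 8 * (l⁻¹) ^ 2 * S * x ^ 2 := by gcongr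
  have d1 := (abs_le.1 ho.dH).1
  have d2 := ho.gap
  rw [hq] at d1 d2
  have e6 : 0 ≤ C * x ^ gam X β * S * x ^ 2 := by positivity
  have e7 : 0 ≤ X.κ * (l⁻¹) ^ 2 * S * x ^ 2 := by positivity
  have e8 : 0 ≤ x ^ gam X β * S * x ^ 2 := by positivity
  have e9 : -((8 * C + 3 * X.κ + 24) * (x ^ gam X β + (l⁻¹) ^ 2) * S) * x ^ 2
      = -(2 * (C * (x ^ gam X β + 4 * (l⁻¹) ^ 2) * S * x ^ 2))
        - 3 * (X.κ * x ^ gam X β * (S * x ^ 2)) - 3 * (8 * (l⁻¹) ^ 2 * S * x ^ 2)
        - 6 * (C * x ^ gam X β * S * x ^ 2) - 3 * (X.κ * (l⁻¹) ^ 2 * S * x ^ 2)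
        - 24 * (x ^ gam X β * S * x ^ 2) := by ring
  rw [e9]
  linarith

/-- the error of the height -/
def err (X : Chain) (β K t S C x : ℝ) : ℝ :=
  C * S * (x ^ gam X β / gam X β + (ell β K t S x)⁻¹ / β)

theorem Good.hasDerivAt_err (hX : Good X β K) {t S C x : ℝ} (hx : 0 < x)
    (hl : 0 < ell β K t S x) :
    HasDerivAt (err X β K t S C) (C * (x ^ gam X β + ((ell β K t S x)⁻¹) ^ 2) * S / x) x := by
  have hγ := hX.gam_pos
  have hβ := hX.β_pos
  have h1 := (Real.hasDerivAt_rpow_const (x := x) (p := gam X β) (Or.inl hx.ne')).div_const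
    (gam X β)
  have h2 := ((hasDerivAt_ell (β := β) (K := K) (t := t) (S := S) hx).inv hl.ne').div_const β
  have h3 := (h1.add h2).const_mul (C * S)
  refine h3.congr_deriv ?_
  have h4 : x ^ (gam X β - 1) = x ^ gam X β / x := by
    rw [Real.rpow_sub hx, Real.rpow_one]
  rw [h4]
  field_simp

theorem Good.hasDerivAt_h (hX : Good X β K) {i : ℕ} {x : ℝ} (hix : X.Win i x) :
    HasDerivAt (X.h i) ((x * X.H' i x - 2 * X.H i x) / x ^ 2 / x) x := by
  have hx : 0 < x := hX.win_pos hix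
  have h1 := (hX.hasH i x hix).div (hasDerivAt_pow 2 x) (by positivity)
  refine h1.congr_deriv ?_
  simp only [Nat.cast_ofNat, Nat.add_one_sub_one, pow_one]
  field_simp

/-- the heights are almost monotone -/
theorem Good.mono_deep (hX : Good X β K) {η : ℝ} (hη : 0 < η) : ∃ t₀ > 0, ∀ k t S, X.Win k t →
    t ≤ t₀ → 0 < S → S ≤ t₀ → X.Bdd t S →
      ∀ i x, k ≤ i → X.Win i x → x ≤ t → X.h i x ≤ X.h k t + η * S := by
  have hβ := hX.β_pos
  have hγ := hX.gam_pos
  have hK : 0 < K := by linarith [hX.K_one]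
  have hKc : 0 < K ^ X.c := by positivity
  obtain ⟨C, hC, t₁, ht₁, h₁⟩ := hX.deriv_low
  have hC0 : 0 < C := by linarith
  obtain ⟨t₂, ht₂, h₂⟩ := hX.params
    (η := min (η * gam X β / (4 * C)) (η / (32 * K ^ X.c))) (by positivity)
    (max 2 (max (8 * C / (η * β)) (4 / η)))
  refine ⟨min t₁ t₂, by positivity, fun k t S hkt ht hS hSs hB => ?_⟩
  have ht0 := hX.win_pos hkt
  have ht1 := hX.le_one hkt
  obtain ⟨e1, e2, e3, e4, e5, e6⟩ := h₂ k t S hkt (ht.trans (min_le_right _ _)) hS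
    (hSs.trans (min_le_right _ _)) hB
  set l := Real.log S⁻¹ with hl
  have hl2 : 2 ≤ l := (le_max_left _ _).trans e4
  have hlC : 8 * C / (η * β) ≤ l := ((le_max_left _ _).trans (le_max_right _ _)).trans e4
  have hlη : 4 / η ≤ l := ((le_max_right _ _).trans (le_max_right _ _)).trans e4
  have hlam : 1 ≤ ell β K t S t := by linarith
  have hl0 : 0 < l := by linarith
  have hell : ∀ x, 0 < x → x ≤ t → 0 < ell β K t S x := fun x hx hxt =>
    lt_of_lt_of_le (by linarith) (ell_anti hβ.le hx hxt)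
  obtain ⟨J, hJ0, hJm, hjump⟩ := hX.jumps hkt hS hB e1
  have hder := h₁ t S (ht.trans (min_le_left _ _)) ht1 hS (hSs.trans (min_le_left _ _)) hB hlam
  -- one window
  have hwin : ∀ i x y, X.Win i x → X.Win i y → x ≤ y → y ≤ t →
      X.h i x + err X β K t S C x ≤ X.h i y + err X β K t S C y := by
    intro i x y hx hy hxy hyt
    have hx0 := hX.win_pos hx
    refine mono_seg (φ := fun z => X.h i z + err X β K t S C z) (x₀ := x) (x₁ := y)
      (fun z hz1 hz2 => (hX.hasDerivAt_h (i := i) ⟨hx.1.trans hz1, hz2.trans hy.2⟩).add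
        (hX.hasDerivAt_err (hx0.trans_le hz1) (hell z (hx0.trans_le hz1) (hz2.trans hyt))))
      (fun z hz1 hz2 => ?_) hxy
    have hz0 := hx0.trans_le hz1
    have h3 := hder i z ⟨hx.1.trans hz1, hz2.trans hy.2⟩ (hz2.trans hyt)
    rw [← add_div]
    refine div_nonneg ?_ hz0.le
    have h4 : -(C * (z ^ gam X β + ((ell β K t S z)⁻¹) ^ 2) * S)
        ≤ (z * X.H' i z - 2 * X.H i z) / z ^ 2 := by
      rw [le_div_iff₀ (by positivity)]; exact h3
    linarith
  -- all windows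
  have hall : ∀ n x, X.Win (k + n) x → x ≤ t →
      X.h (k + n) x + err X β K t S C x + J (k + n) ≤ X.h k t + err X β K t S C t + J k := by
    intro n
    induction n with
    | zero =>
      intro x hx hxt
      have := hwin k x t hx hkt hxt le_rfl
      simp only [Nat.add_zero]
      linarith
    | succ n ih =>
      intro x hx hxt
      have hTt : X.T (k + n + 1) ≤ t := (hX.T_anti.antitone (by omega : k + 1 ≤ k + n + 1)).trans
        hkt.1
      have h3 := ih (X.T (k + n + 1)) (hX.win_bot (k + n)) hTt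
      have h4 := hwin (k + n + 1) x (X.T (k + n + 1)) hx (hX.win_top _) hx.2 hTt
      obtain ⟨g, hg0, hg1, hg2⟩ := hjump (k + n) (by omega)
      have hT := hX.T_pos (k + n + 1)
      have h5 : X.h (k + n + 1) (X.T (k + n + 1)) ≤ X.h (k + n) (X.T (k + n + 1))
          + g ^ (1 + X.c) := by
        have h6 := (abs_le.1 hg1.1).2
        simp only [Chain.h]
        rw [div_add' _ _ _ (by positivity)]
        gcongr
        linarith
      have h7 : 0 < g ^ (1 + X.c) := by positivity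
      have h8 : k + (n + 1) = k + n + 1 := by ring
      rw [h8]
      linarith
  intro i x hki hix hxt
  obtain ⟨n, rfl⟩ := Nat.exists_eq_add_of_le hki
  have h3 := hall n x hix hxt
  have hx0 := hX.win_pos hix
  have h4 : 0 ≤ err X β K t S C x := by
    have := hell x hx0 hxt
    unfold err
    positivity
  have h5 := hJ0 (k + n)
  have h6 := hJm k le_rfl
  have htγ : t ^ gam X β ≤ η * gam X β / (4 * C) := e2.trans (min_le_left _ _)
  have htγ' : t ^ gam X β ≤ η / (32 * K ^ X.c) := e2.trans (min_le_right _ _)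
  -- the error at `t`
  have h7 : err X β K t S C t ≤ η / 2 * S := by
    have g1 : t ^ gam X β / gam X β ≤ η / (4 * C) := by
      rw [div_le_iff₀ hγ]
      refine htγ.trans (le_of_eq ?_)
      ring
    have g2 : (ell β K t S t)⁻¹ / β ≤ η / (4 * C) := by
      have g3 : 4 * C / (η * β) ≤ ell β K t S t := by
        have : 8 * C / (η * β) = 2 * (4 * C / (η * β)) := by ring
        linarith
      have g4 : (ell β K t S t)⁻¹ ≤ (4 * C / (η * β))⁻¹ := inv_anti₀ (by positivity) g3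
      rw [div_le_iff₀ hβ]
      refine g4.trans (le_of_eq ?_)
      rw [inv_div]; ring
    unfold err
    calc C * S * (t ^ gam X β / gam X β + (ell β K t S t)⁻¹ / β)
        ≤ C * S * (η / (4 * C) + η / (4 * C)) :=
          mul_le_mul_of_nonneg_left (add_le_add g1 g2) (by positivity)
      _ = η / 2 * S := by field_simp; ring
  have h8 : J k ≤ η / 2 * S := by
    have g1 : (l⁻¹) ^ 2 ≤ η / 4 := by
      have g2 : l⁻¹ ≤ η / 4 := by
        have := inv_anti₀ (by positivity) hlη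
        rwa [inv_div] at this
      have g3 : l⁻¹ ≤ 1 := inv_le_one_of_one_le₀ e5
      have g4 : 0 < l⁻¹ := by positivity
      nlinarith
    have g2 : 8 * K ^ X.c * S * t ^ gam X β ≤ η / 4 * S := by
      calc 8 * K ^ X.c * S * t ^ gam X β ≤ 8 * K ^ X.c * S * (η / (32 * K ^ X.c)) :=
            mul_le_mul_of_nonneg_left htγ' (by positivity)
        _ = η / 4 * S := by field_simp; ring
    have g3 : S * (l⁻¹) ^ 2 ≤ S * (η / 4) := mul_le_mul_of_nonneg_left g1 hS.le
    linarith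
  linarith

/-- **near**: a bound in the collar above `t` gives a bound for all deeper heights. -/
theorem Good.bdd_of_above (hX : Good X β K) : ∃ t₀ > 0, ∀ k t S, X.Win k t → t ≤ t₀ →
    0 < S → S ≤ t₀ →
    (∀ i x, X.Win i x → t ≤ x → x ≤ t * (1 + ((X.L i x)⁻¹) ^ 6) → X.h i x ≤ S) →
    X.Bdd t (2 * S) := by
  have hK : 0 < K := by linarith [hX.K_one]
  obtain ⟨t₁, ht₁, h₁⟩ := hX.mono_deep (η := 1 / 4) (by norm_num)
  obtain ⟨t₂, ht₂, h₂⟩ := small_t hX.β_pos (show 0 < t₁ / K by positivity)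
  refine ⟨min t₁ t₂, by positivity, ?_⟩
  intro k t S hk ht hS0 hS habove
  have ht0 := hX.win_pos hk
  have htt₁ : t ≤ t₁ := ht.trans (min_le_left _ _)
  have hSt₁ : S ≤ t₁ := hS.trans (min_le_left _ _)
  have hpow : ∀ i x, X.Win i x → x ≤ t → X.h i x ≤ t₁ := by
    intro i x hx hxt
    have hx0 := hX.win_pos hx
    have h3 := h₂ x hx0 (hxt.trans (ht.trans (min_le_right _ _)))
    calc X.h i x ≤ K * x ^ β := hX.power i x hx
      _ ≤ K * (t₁ / K) := mul_le_mul_of_nonneg_left h3 hK.le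
      _ = t₁ := by field_simp
  -- the supremum of all deeper heights
  set Z : Set ℝ := {z | ∃ i x, X.Win i x ∧ x ≤ t ∧ z = X.h i x} with hZ
  have hZb : BddAbove Z := by
    refine ⟨t₁, ?_⟩
    rintro z ⟨i, x, hx, hxt, rfl⟩
    exact hpow i x hx hxt
  have hZne : Z.Nonempty := ⟨X.h k t, k, t, hk, le_rfl, rfl⟩
  set U := sSup Z with hU
  have hUle : U ≤ t₁ := csSup_le hZne (by
    rintro z ⟨i, x, hx, hxt, rfl⟩
    exact hpow i x hx hxt)
  have hmemU : ∀ i x, X.Win i x → x ≤ t → X.h i x ≤ U := fun i x hx hxt =>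
    le_csSup hZb ⟨i, x, hx, hxt, rfl⟩
  have hkS : X.h k t ≤ S := by
    refine habove k t hk le_rfl ?_
    have h6 : (0 : ℝ) ≤ ((X.L k t)⁻¹) ^ 6 := by positivity
    nlinarith
  -- `V = max S U` bounds everything
  set V := max S U with hV
  have hV0 : 0 < V := lt_of_lt_of_le hS0 (le_max_left _ _)
  have hVt₁ : V ≤ t₁ := max_le hSt₁ hUle
  have hBV : X.Bdd t V := by
    intro i x hx hxt
    rcases le_total x t with h | h
    · exact (hmemU i x hx h).trans (le_max_right _ _)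
    · exact (habove i x hx h hxt).trans (le_max_left _ _)
  -- bound for all deeper heights
  have hdeep : ∀ i x, X.Win i x → x ≤ t → X.h i x ≤ S + 1 / 4 * V := by
    intro i x hx hxt
    have hx0 := hX.win_pos hx
    rcases hxt.eq_or_lt with heq | hlt
    · have h3 : X.h i x ≤ S := by
        refine habove i x hx heq.symm.le ?_
        have h6 : (0 : ℝ) ≤ ((X.L i x)⁻¹) ^ 6 := by positivity
        rw [heq] at h6 ⊢
        nlinarith
      linarith
    · have h3 := h₁ k t V hk htt₁ hV0 hVt₁ hBV i x (hX.idx_le hx hk hlt) hx hxt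
      linarith
  have hU2 : U ≤ 2 * S := by
    have h1 : U ≤ S + 1 / 4 * V := csSup_le hZne (by
      rintro z ⟨i, x, hx, hxt, rfl⟩
      exact hdeep i x hx hxt)
    rcases le_total U S with h2 | h2
    · linarith
    · rw [max_eq_right h2] at hV
      rw [hV] at h1
      linarith
  intro i x hx hxt
  rcases le_total x t with h | h
  · exact (hmemU i x hx h).trans hU2
  · have := habove i x hx h hxt
    linarith

end

end Vale.Agent.P214.BABS
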