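import Vale.Agent.P214.BABS.Base
import Vale.Agent.P214.BABS.Long

/-!
# P214, block BABS (helper209): the scales of `BDIM.Rdy`, as real analysis

From `Good`, `Limit` and `Long`: at every small scale `t`, the interval `[s, β s]` with `s = t` or
`s = 64 β t` lies, with a factor `8` of room on both sides, in one window, in which the height is
doubling and every dyadic interval contains a pinched scale.
-/

open Set Filter Topology

namespace Vale.Agent.P214.BABS

open ABS

noncomputable section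

/-- the interval `[ta, tb]` is ready in window `k` -/
structure RdyR (X : Chain) (M₀ D η : ℝ) (k : ℕ) (ta tb : ℝ) : Prop where
  win : ∀ x, ta / 8 ≤ x → x ≤ 8 * tb → X.Win k x
  dbl : ∀ r, ta ≤ r → 2 * r ≤ tb → X.H k (2 * r) ≤ D * X.H k r
  grow : ∀ x y, ta / 8 ≤ x → x ≤ y → y ≤ 8 * tb → X.h k y ≤ D * (y / x) ^ D * X.h k x
  pinch : ∀ r, ta ≤ r → 2 * r ≤ tb → ∃ s N, r ≤ s ∧ s ≤ 2 * r ∧ |N - M₀| ≤ η ∧
    X.j k s = N * X.H k s ∧ X.b k s - 2 * N * X.j k s + N ^ 2 * X.H k s ≤ η * X.H k s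

/-- the constant of `RdyR` -/
def dR (Λ : ℝ) : ℝ := 4 * Λ * 2 ^ Λ

theorem le_dR {Λ : ℝ} (hΛ : 1 ≤ Λ) : Λ ≤ dR Λ := by
  have h : (1 : ℝ) ≤ 2 ^ Λ := Real.one_le_rpow (by norm_num) (by linarith)
  unfold dR
  nlinarith

variable {X : Chain} {β K M₀ Λ : ℝ}

theorem Good.rdy (hX : Good X β K) (hL : Limit X M₀ Λ) (hLong : Long X) {η : ℝ} (hη : 0 < η)
    (n : ℕ) : ∃ t₁ > 0, ∀ B t : ℝ, 2 ≤ B → B ≤ 2 ^ 60 → 0 < t → t ≤ t₁ →
      ∃ s, (s = t ∨ s = 64 * B * t) ∧ ∃ k, n ≤ k ∧ RdyR X M₀ (dR Λ) η k s (B * s) := by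
  have hΛ : 1 ≤ Λ := hL.one_lt.le.trans hL.le
  have hD := le_dR hΛ
  obtain ⟨n₁, hn₁⟩ := eventually_atTop.1 (hLong (2 ^ 132))
  obtain ⟨t₂, ht₂, hpinch⟩ := hL.pinch η hη
  obtain ⟨t₃, ht₃, hgrow⟩ := hL.grow
  have hTn := hX.T_pos (max n n₁ + 1)
  refine ⟨min (X.T (max n n₁ + 1) / 2 ^ 64) (min (t₂ / 2 ^ 136) (t₃ / 2 ^ 136)), by positivity, ?_⟩
  intro B t hB hB2 ht htt
  have hB0 : 0 < B := by linarith
  have e1 : t * 2 ^ 64 ≤ X.T (max n n₁ + 1) := by
    have := htt.trans (min_le_left _ _)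
    rwa [le_div_iff₀ (by positivity)] at this
  have e2 : t * 2 ^ 136 ≤ t₂ := by
    have := htt.trans ((min_le_right _ _).trans (min_le_left _ _))
    rwa [le_div_iff₀ (by positivity)] at this
  have e3 : t * 2 ^ 136 ≤ t₃ := by
    have := htt.trans ((min_le_right _ _).trans (min_le_right _ _))
    rwa [le_div_iff₀ (by positivity)] at this
  -- the window of `8 B t`
  have h8 : 8 * B * t < X.T (max n n₁ + 1) := by
    have : 8 * B * t ≤ 8 * 2 ^ 60 * t := by gcongr
    have h2 : (0:ℝ) < t * 2 ^ 63 := by positivity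
    linarith
  obtain ⟨k, hk⟩ := hX.exists_win (t := 8 * B * t) (by positivity)
    (h8.le.trans (hX.T_anti.antitone (Nat.zero_le _)))
  have hkn : max n n₁ ≤ k := by
    by_contra hcon
    push Not at hcon
    have h1 : X.T (max n n₁ + 1) ≤ X.T (k + 1) := hX.T_anti.antitone (by omega)
    have h2 := hk.1
    linarith
  have hkn' : n ≤ k := (le_max_left _ _).trans hkn
  have hlong := hn₁ k ((le_max_right _ _).trans hkn)
  -- the choice of `s`
  obtain ⟨s, hs, hs0, hs1, hwin⟩ : ∃ s, (s = t ∨ s = 64 * B * t) ∧ 0 < s ∧ s ≤ 64 * B * t ∧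
      ∀ x, s / 8 ≤ x → x ≤ 8 * (B * s) → X.Win k x := by
    by_cases hc : X.T (k + 1) ≤ t / 8
    · refine ⟨t, Or.inl rfl, ht, by nlinarith, fun x h1 h2 => ⟨hc.trans h1, ?_⟩⟩
      refine h2.trans (le_trans (le_of_eq ?_) hk.2)
      ring
    · push Not at hc
      refine ⟨64 * B * t, Or.inr rfl, by positivity, le_rfl, fun x h1 h2 => ⟨?_, ?_⟩⟩
      · refine hk.1.trans (le_trans (le_of_eq ?_) h1)
        ring
      · have e4 : 8 * (B * (64 * B * t)) ≤ 2 ^ 132 * (t / 8) := by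
          have h3 : B * B ≤ 2 ^ 60 * 2 ^ 60 := mul_le_mul hB2 hB2 hB0.le (by positivity)
          calc 8 * (B * (64 * B * t)) = 512 * (B * B) * t := by ring
            _ ≤ 512 * (2 ^ 60 * 2 ^ 60) * t := by gcongr
            _ = 2 ^ 132 * (t / 8) := by ring
        have e5 : (2:ℝ) ^ 132 * (t / 8) ≤ 2 ^ 132 * X.T (k + 1) := by gcongr
        exact h2.trans (e4.trans (e5.trans hlong))
  have hBs : 8 * (B * s) ≤ t * 2 ^ 136 := by
    have h3 : B * B ≤ 2 ^ 60 * 2 ^ 60 := mul_le_mul hB2 hB2 hB0.le (by positivity)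
    calc 8 * (B * s) ≤ 8 * (B * (64 * B * t)) := by gcongr
      _ = 512 * (B * B) * t := by ring
      _ ≤ 512 * (2 ^ 60 * 2 ^ 60) * t := by gcongr
      _ ≤ t * 2 ^ 136 := by nlinarith
  have hD0 : 0 < dR Λ := by linarith
  have hgr : ∀ x y, s / 8 ≤ x → x ≤ y → y ≤ 8 * (B * s) →
      X.h k y ≤ Λ * (y / x) ^ Λ * X.h k x := fun x y h1 h2 h3 =>
    hgrow k y k x (hwin y (h1.trans h2) h3) (h3.trans (hBs.trans e3)) (hwin x h1 (h2.trans h3)) h2
  refine ⟨s, hs, k, hkn', hwin, ?_, ?_, ?_⟩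
  · intro r h1 h2
    have hr0 : 0 < r := hs0.trans_le h1
    have h3 := hgr r (2 * r) (by linarith) (by linarith) (by linarith)
    have hw := hwin r (by linarith) (by linarith)
    have hH := hX.H_pos k r hw
    rw [mul_div_assoc, div_self hr0.ne', mul_one] at h3
    unfold Chain.h at h3
    rw [div_le_iff₀ (by positivity)] at h3
    refine h3.trans (le_of_eq ?_)
    unfold dR
    field_simp
    ring
  · intro x y h1 h2 h3
    have hx0 : 0 < x := lt_of_lt_of_le (by positivity) h1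
    have hw := hwin x h1 (h2.trans h3)
    have hh := hX.h_pos hw
    have hq : 1 ≤ y / x := (one_le_div hx0).2 h2
    refine (hgr x y h1 h2 h3).trans (mul_le_mul_of_nonneg_right ?_ hh.le)
    exact mul_le_mul hD (Real.rpow_le_rpow_of_exponent_le hq hD) (by positivity) hD0.le
  · intro r h1 h2
    have hr0 : 0 < r := hs0.trans_le h1
    have hrt : r ≤ t₂ := by linarith
    obtain ⟨l, q, hl, hq1, hq2, -, hq4, hq5⟩ := hpinch r hr0 hrt
    have hwq : X.Win k q := hwin q (by linarith) (by linarith)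
    have hlk : l = k := by
      have hw1 := hwin (s / 8) le_rfl (by nlinarith)
      have hw2 := hwin (8 * (B * s)) (by nlinarith) le_rfl
      rcases lt_trichotomy l k with h | h | h
      · exfalso
        have g1 : X.T k ≤ X.T (l + 1) := hX.T_anti.antitone (by omega)
        have g2 := hl.1
        have g3 := hw2.2
        have g4 : 0 < B * s := by positivity
        linarith
      · exact h
      · exfalso
        have g1 : X.T l ≤ X.T (k + 1) := hX.T_anti.antitone (by omega)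
        have g2 := hl.2
        have g3 := hw1.1
        linarith
    subst hlk
    have hH := hX.H_pos l q hwq
    refine ⟨q, X.j l q / X.H l q, hq1, hq2, hq4, by field_simp, ?_⟩
    have e4 : X.b l q - 2 * (X.j l q / X.H l q) * X.j l q + (X.j l q / X.H l q) ^ 2 * X.H l q
        = (X.b l q * X.H l q - X.j l q ^ 2) / X.H l q := by
      field_simp
      ring
    rw [e4, div_le_iff₀ hH]
    refine hq5.trans (le_of_eq ?_)
    ring

end

end Vale.Agent.P214.BABS
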